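import Vale.Agent.P073.H803.Dict

/-!
# P073, branch B, [MESH-B] (D4): the output of `K3C` in dyadic form, after Hoelder
-/

namespace Vale.Agent.P073.H803

open MeasureTheory Set Filter Topology Metric Vale.Agent.P073.St
open Vale.Agent.P073.SQ (ev)
open Vale.Agent.P073.AB Vale.Agent.P073.AB.P86
open Vale.Agent.P073.H73 (Mesh MinEdge segP onSeg ctr sqr)
open Vale.Agent.P073.H194 (cellT)
open Vale.Agent.P073.H687
open Vale.Agent.P073.H304 (IsEdge Nb Cst Small LipBd OutB)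
open _root_.P073 (ConHomeo)
open _root_.P073.Net (dyc dyo len SizeFn)
open scoped ENNReal

variable {Ω Λ : Set V} {v : V} {I U : Set Idx}

/-- the contribution of the tolerances -/
noncomputable def tinyT (v : V) (I : Set Idx) (p : ℝ) (εs : Idx × Fin 3 → ℝ) (q : Idx) : ℝ≥0∞ :=
  ∑' s : {s : Idx × Fin 3 // MinSq v I s ∧ squ v s ⊆ dyc v q.1 q.2},
    ∑' e : {e : Idx × Fin 3 // MinEdge v I e ∧ edge v e ⊆ squ v s.1},
      ENNReal.ofReal (1 / 2 ^ q.1 * (1 / 2 ^ s.1.1.1)) *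
        (ENNReal.ofReal ((1 / 2 ^ e.1.1.1) ^ (1 - p)) * ENNReal.ofReal (εs s.1) ^ p)

/-- the weighted sum over the minimal edges of the minimal squares in a cube, as in `Pre.sum` -/
noncomputable def meshsum (p : ℝ) (v : V) (I : Set Idx) (ℓ : Idx × Fin 3 → ℝ≥0∞) (q : Idx) :
    ℝ≥0∞ :=
  ∑' s : {s : Idx × Fin 3 // MinSq v I s ∧ squ v s ⊆ dyc v q.1 q.2},
    ∑' e : {e : Idx × Fin 3 // MinEdge v I e ∧ edge v e ⊆ squ v s.1},
      ENNReal.ofReal (1 / 2 ^ q.1 * (1 / 2 ^ s.1.1.1)) *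
        (ENNReal.ofReal ((1 / 2 ^ e.1.1.1) ^ (1 - p)) * ℓ e.1 ^ p)

theorem cubeSum_split {p : ℝ} (hp : 1 ≤ p) (ℓ : Idx × Fin 3 → ℝ≥0∞) (εs : Idx × Fin 3 → ℝ)
    (q : Idx) : ENNReal.ofReal (1 / 2 ^ q.1) * cubeSum v I p ℓ εs q ≤
      2 ^ (p - 1) * (meshsum p v I ℓ q + tinyT v I p εs q) := by
  unfold cubeSum sqSum tinyT meshsum
  rw [← ENNReal.tsum_add, ← ENNReal.tsum_mul_left, ← ENNReal.tsum_mul_left]
  refine ENNReal.tsum_le_tsum fun s => ?_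
  rw [← ENNReal.tsum_add, ← ENNReal.tsum_mul_left, ← ENNReal.tsum_mul_left,
    ← ENNReal.tsum_mul_left]
  refine ENNReal.tsum_le_tsum fun e => ?_
  rw [ENNReal.ofReal_mul (by positivity)]
  calc ENNReal.ofReal (1 / 2 ^ q.1) * (ENNReal.ofReal (1 / 2 ^ s.1.1.1) *
        (ENNReal.ofReal ((1 / 2 ^ e.1.1.1) ^ (1 - p)) * (ℓ e.1 + ENNReal.ofReal (εs s.1)) ^ p))
      ≤ ENNReal.ofReal (1 / 2 ^ q.1) * (ENNReal.ofReal (1 / 2 ^ s.1.1.1) *
        (ENNReal.ofReal ((1 / 2 ^ e.1.1.1) ^ (1 - p)) *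
          (2 ^ (p - 1) * (ℓ e.1 ^ p + ENNReal.ofReal (εs s.1) ^ p)))) := by
        gcongr
        exact ENNReal.rpow_add_le_mul_rpow_add_rpow _ _ hp
    _ = _ := by ring

/-- after Hoelder -/
theorem cubeSum_le {p : ℝ} (hp : 1 ≤ p) (hΩ : IsOpen Ω) (hI : Part Ω v I) (q : Idx)
    (g₀ : V → ℝ≥0∞) (ℓ : Idx × Fin 3 → ℝ≥0∞) (εs : Idx × Fin 3 → ℝ)
    (hℓ : ∀ s, MinSq v I s → squ v s ⊆ dyc v q.1 q.2 → ∀ e, MinEdge v I e →
      edge v e ⊆ squ v s → ℓ e ≤ eInt v e g₀) :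
    ENNReal.ofReal (1 / 2 ^ q.1) * cubeSum v I p ℓ εs q ≤
      2 ^ (p - 1) * (cellT v I univ (fun x => g₀ x ^ p) q + tinyT v I p εs q) := by
  refine (cubeSum_split hp ℓ εs q).trans ?_
  gcongr
  exact cell_sum_le hp hΩ hI q g₀ ℓ hℓ

/-- monotone in the lengths, with a factor -/
theorem meshsum_le {p : ℝ} (hp : 0 ≤ p) {ℓ ℓ' : Idx × Fin 3 → ℝ≥0∞} {q : Idx} {c : ℝ≥0∞}
    (h : ∀ e, MinEdge v I e → edge v e ⊆ dyc v q.1 q.2 → ℓ e ≤ c * ℓ' e) :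
    meshsum p v I ℓ q ≤ c ^ p * meshsum p v I ℓ' q := by
  unfold meshsum
  rw [← ENNReal.tsum_mul_left]
  refine ENNReal.tsum_le_tsum fun s => ?_
  rw [← ENNReal.tsum_mul_left]
  refine ENNReal.tsum_le_tsum fun e => ?_
  calc ENNReal.ofReal (1 / 2 ^ q.1 * (1 / 2 ^ s.1.1.1)) *
        (ENNReal.ofReal ((1 / 2 ^ e.1.1.1) ^ (1 - p)) * ℓ e.1 ^ p)
      ≤ ENNReal.ofReal (1 / 2 ^ q.1 * (1 / 2 ^ s.1.1.1)) *
        (ENNReal.ofReal ((1 / 2 ^ e.1.1.1) ^ (1 - p)) * (c * ℓ' e.1) ^ p) := by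
        gcongr
        exact h e.1 e.2.1 (e.2.2.trans s.2.2)
    _ = _ := by
        rw [ENNReal.mul_rpow_of_nonneg _ _ hp]
        ring

theorem exists_le_finite {α : Type*} {S : Set α} (hS : S.Finite) (b : α → ℝ)
    (hb : ∀ a ∈ S, 0 < b a) : ∃ ε > 0, ∀ a ∈ S, ε ≤ b a := by
  classical
  induction S, hS using Set.Finite.induction_on with
  | empty => exact ⟨1, one_pos, fun a ha => absurd ha (notMem_empty a)⟩
  | @insert a S ha hS ih =>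
    obtain ⟨ε, hε, h⟩ := ih fun a ha => hb a (mem_insert_of_mem _ ha)
    refine ⟨min ε (b a), lt_min hε (hb a (mem_insert _ _)), ?_⟩
    rintro c (rfl | hc)
    · exact min_le_right _ _
    · exact (min_le_left _ _).trans (h c hc)

/-- **tolerances**: the contribution of the tolerances is as small as desired in every cube -/
theorem exists_tiny (hI : Part Ω v I) {p : ℝ} (hp : 0 < p) (τ : Idx → ℝ) (hτ : ∀ q, 0 < τ q)
    (τ' : Idx × Fin 3 → ℝ) (hτ' : ∀ s, 0 < τ' s) :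
    ∃ εs : Idx × Fin 3 → ℝ, (∀ s, 0 < εs s ∧ εs s ≤ τ' s) ∧
      ∀ q ∈ I, tinyT v I p εs q ≤ ENNReal.ofReal (τ q) := by
  classical
  -- the tolerance for a triple
  set c : Idx → Idx × Fin 3 → Idx × Fin 3 → ℝ := fun q s e =>
    1 / 2 ^ q.1 * (1 / 2 ^ s.1.1) * (1 / 2 ^ e.1.1) ^ (1 - p) with hc
  have hc0 : ∀ q s e, 0 < c q s e := fun q s e => by
    have : (0:ℝ) < (1 / 2 ^ e.1.1) ^ (1 - p) := Real.rpow_pos_of_pos (by positivity) _
    simp only [hc]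
    positivity
  set θ : Idx → Idx × Fin 3 → Idx × Fin 3 → ℝ := fun q s e =>
    τ q / 2 ^ (Encodable.encode (s, e) + 1) with hθ
  have hθ0 : ∀ q s e, 0 < θ q s e := fun q s e => div_pos (hτ q) (by positivity)
  set b : Idx → Idx × Fin 3 → Idx × Fin 3 → ℝ := fun q s e => (θ q s e / c q s e) ^ (1 / p)
    with hb
  have hb0 : ∀ q s e, 0 < b q s e := fun q s e =>
    Real.rpow_pos_of_pos (div_pos (hθ0 q s e) (hc0 q s e)) _
  have hbp : ∀ q s e, c q s e * b q s e ^ p = θ q s e := by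
    intro q s e
    have h1 : 0 < θ q s e / c q s e := div_pos (hθ0 q s e) (hc0 q s e)
    simp only [hb]
    rw [← Real.rpow_mul h1.le, one_div_mul_cancel hp.ne', Real.rpow_one,
      mul_div_cancel₀ _ (hc0 q s e).ne']
  have hex : ∀ s, ∃ ε, (0 < ε ∧ ε ≤ τ' s) ∧ (MinSq v I s → ∀ q ∈ I, squ v s ⊆ dyc v q.1 q.2 →
      ∀ e, MinEdge v I e → edge v e ⊆ squ v s → ε ≤ b q s e) := by
    intro s
    by_cases hs : MinSq v I s
    · have h1 : {q | q ∈ I ∧ (dyc v q.1 q.2 ∩ squ v s).Nonempty}.Finite :=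
        hI.fin _ (squ_sub_Ω hI hs) (isCompact_squ v s)
      have h2 := h1.prod (finite_minEdge hI hs)
      obtain ⟨ε, hε, h3⟩ := exists_le_finite h2 (fun a => b a.1 s a.2) fun a _ => hb0 _ _ _
      refine ⟨min ε (τ' s), ⟨lt_min hε (hτ' s), min_le_right _ _⟩, fun _ q hq hsq e he hes => ?_⟩
      have hne : (squ v s).Nonempty := ⟨_, rel_sub sc_mem⟩
      exact (min_le_left _ _).trans (h3 (q, e) ⟨⟨hq, by
        rw [inter_eq_self_of_subset_right hsq]; exact hne⟩, he, hes⟩)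
    · exact ⟨τ' s, ⟨hτ' s, le_rfl⟩, fun h => absurd h hs⟩
  choose εs hε1 hε2 using hex
  refine ⟨εs, hε1, fun q hq => ?_⟩
  unfold tinyT
  have h3 : ∀ (s : {s : Idx × Fin 3 // MinSq v I s ∧ squ v s ⊆ dyc v q.1 q.2})
      (e : {e : Idx × Fin 3 // MinEdge v I e ∧ edge v e ⊆ squ v s.1}),
      ENNReal.ofReal (1 / 2 ^ q.1 * (1 / 2 ^ s.1.1.1)) *
        (ENNReal.ofReal ((1 / 2 ^ e.1.1.1) ^ (1 - p)) * ENNReal.ofReal (εs s.1) ^ p) ≤
      ENNReal.ofReal (θ q s.1 e.1) := by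
    intro s e
    have h4 := hε2 s.1 s.2.1 q hq s.2.2 e.1 e.2.1 e.2.2
    rw [← hbp q s.1 e.1, ENNReal.ofReal_rpow_of_pos (hε1 s.1).1, ← ENNReal.ofReal_mul (by positivity),
      ← ENNReal.ofReal_mul (by positivity), ← mul_assoc]
    apply ENNReal.ofReal_le_ofReal
    simp only [hc]
    gcongr
    exact (hε1 s.1).1.le
  refine (ENNReal.tsum_le_tsum fun s => ENNReal.tsum_le_tsum fun e => h3 s e).trans ?_
  -- sum over all pairs
  have h5 : ∑' (s : {s : Idx × Fin 3 // MinSq v I s ∧ squ v s ⊆ dyc v q.1 q.2})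
      (e : {e : Idx × Fin 3 // MinEdge v I e ∧ edge v e ⊆ squ v s.1}),
        ENNReal.ofReal (θ q s.1 e.1) ≤
      ∑' (s : Idx × Fin 3) (e : Idx × Fin 3), ENNReal.ofReal (θ q s e) := by
    refine le_trans (ENNReal.tsum_le_tsum fun s => ?_)
      (ENNReal.tsum_comp_le_tsum_of_injective Subtype.val_injective
        fun s : Idx × Fin 3 => ∑' e : Idx × Fin 3, ENNReal.ofReal (θ q s e))
    exact ENNReal.tsum_comp_le_tsum_of_injective Subtype.val_injective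
        fun e : Idx × Fin 3 => ENNReal.ofReal (θ q s.1 e)
  refine h5.trans ?_
  rw [← ENNReal.tsum_prod (f := fun s e => ENNReal.ofReal (θ q s e))]
  have h6 : ∑' a : (Idx × Fin 3) × (Idx × Fin 3), ENNReal.ofReal (θ q a.1 a.2) ≤
      ∑' n : ℕ, ENNReal.ofReal (τ q / 2 ^ (n + 1)) :=
    ENNReal.tsum_comp_le_tsum_of_injective
      (f := fun a : (Idx × Fin 3) × (Idx × Fin 3) => Encodable.encode a)
      Encodable.encode_injective fun n => ENNReal.ofReal (τ q / 2 ^ (n + 1))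
  refine h6.trans ?_
  have h7 : ∀ n : ℕ, τ q / 2 ^ (n + 1) = τ q / 2 / 2 ^ n := by
    intro n; rw [pow_succ, div_div, mul_comm]
  simp_rw [h7]
  rw [← ENNReal.ofReal_tsum_of_nonneg]
  · rw [tsum_geometric_two' (τ q)]
  · intro n; exact div_nonneg (div_nonneg (hτ q).le zero_le_two) (by positivity)
  · exact summable_geometric_two' (τ q)

namespace DyM

variable {M : Mesh Ω} {p D D' η c₀ m' : ℝ} {w : V} {ρ : V → ℝ} {h : V → V}
  {J₀ J : Set (ℕ × (Fin 3 → ℤ))} {P Z : Set M.ι} {Y : Set M.κ} {ε : M.κ → ℝ} {g : ConHomeo Ω Λ}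

theorem const_split {p C : ℝ} (hC0 : 0 ≤ C) {q : Idx} {S X : ℝ≥0∞}
    (h : ENNReal.ofReal (1 / 2 ^ q.1) * S ≤ 2 ^ (p - 1) * X) :
    ENNReal.ofReal (C / 2 ^ q.1) * S ≤ ENNReal.ofReal (2 ^ (p - 1) * C) * X := by
  have h2 : ENNReal.ofReal (2 ^ (p - 1)) = (2:ℝ≥0∞) ^ (p - 1) := by
    rw [← ENNReal.ofReal_rpow_of_pos two_pos, ENNReal.ofReal_ofNat]
  calc ENNReal.ofReal (C / 2 ^ q.1) * S
      = ENNReal.ofReal C * (ENNReal.ofReal (1 / 2 ^ q.1) * S) := by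
        rw [← mul_assoc, ← ENNReal.ofReal_mul hC0, mul_one_div]
    _ ≤ ENNReal.ofReal C * (2 ^ (p - 1) * X) := by gcongr
    _ = _ := by
        rw [ENNReal.ofReal_mul (by positivity), h2]
        ring

/-- **(D4), drawn cells**, `meshsum` form -/
theorem drawn_meshsum (Dm : DyM M v I U) (O : OutB p D D' η c₀ m' w ρ M h J₀ J P Z Y ε g)
    (hp : 1 ≤ p) (hε : ∀ k, 0 ≤ ε k) {εs : Idx × Fin 3 → ℝ}
    (hεs : ∀ k s, M.F k = AB.squ v s → 2 * ε k ≤ εs s)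
    {i : M.ι} (hi : i ∈ Z) {q : Idx} (hiq : M.Q i = dyc v q.1 q.2) {C : ℝ} (hC0 : 0 ≤ C)
    (hC : Cst M Y D D' (dyc v q.1 q.2) C) :
    ∃ G : V → ℝ, LipBd g.toFun (dyc v q.1 q.2) G ∧ ∀ ℓ : Idx × Fin 3 → ℝ≥0∞,
      (∀ e, MinEdge v I e → edge v e ⊆ dyc v q.1 q.2 →
        len (onSeg h (segP v e)) (Icc 0 1) ≤ ℓ e) →
      ∫⁻ x in dyc v q.1 q.2, ENNReal.ofReal (G x ^ p) ≤
        ENNReal.ofReal (2 ^ (p - 1) * C) * (meshsum p v I ℓ q + tinyT v I p εs q) := by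
  obtain ⟨G, hG, H⟩ := Dm.drawn O (zero_le_one.trans hp) hε hεs hi hiq hC
  exact ⟨G, hG, fun ℓ hℓ => (H ℓ hℓ).trans (const_split hC0 (cubeSum_split hp ℓ εs q))⟩

/-- **(D4), drawn cells**, after Hoelder, `cellT` form -/
theorem drawn_cellT (Dm : DyM M v I U) (O : OutB p D D' η c₀ m' w ρ M h J₀ J P Z Y ε g)
    (hp : 1 ≤ p) (hε : ∀ k, 0 ≤ ε k) {εs : Idx × Fin 3 → ℝ}
    (hεs : ∀ k s, M.F k = AB.squ v s → 2 * ε k ≤ εs s)
    {i : M.ι} (hi : i ∈ Z) {q : Idx} (hiq : M.Q i = dyc v q.1 q.2) {C : ℝ} (hC0 : 0 ≤ C)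
    (hC : Cst M Y D D' (dyc v q.1 q.2) C) :
    ∃ G : V → ℝ, LipBd g.toFun (dyc v q.1 q.2) G ∧ ∀ g₀ : V → ℝ≥0∞,
      (∀ e, MinEdge v I e → edge v e ⊆ dyc v q.1 q.2 →
        len (onSeg h (segP v e)) (Icc 0 1) ≤ eInt v e g₀) →
      ∫⁻ x in dyc v q.1 q.2, ENNReal.ofReal (G x ^ p) ≤
        ENNReal.ofReal (2 ^ (p - 1) * C) *
          (cellT v I univ (fun x => g₀ x ^ p) q + tinyT v I p εs q) := by
  obtain ⟨G, hG, H⟩ := Dm.drawn_meshsum O hp hε hεs hi hiq hC0 hC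
  refine ⟨G, hG, fun g₀ hg => (H (fun e => eInt v e g₀) hg).trans ?_⟩
  gcongr
  exact cell_sum_le hp Dm.opn Dm.part q g₀ _ fun _ _ _ _ _ _ => le_rfl

/-- the faces are dyadic squares, as in `In.face` -/
theorem in_face (Dm : DyM M v I U) (k : M.κ) : ∃ s : Idx × Fin 3, M.F k = AB.squ v s :=
  ⟨Dm.sq k, Dm.sq_eq k⟩

end DyM

end Vale.Agent.P073.H803
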