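import Vale.Agent.P073.H803.WorldB
import Vale.Agent.P073.H267.K3T2

/-!
# P073, block H803, **[WORLD-B]**, part 2: levels and staircases of ROUND P for `J = J₀`, equal tiles

* `S2.Q_emp`, `S2.wnd_emp`: no marked points, no windows at the processed squares;
* `S3.sig_le`: the function of one variable of the staircases moves all points by at most `muP`;
* `S3.step4B`, `S3.disp4B`, `S3.off4w`, `S3.disp4'`: the displacement of `h3 ↦ h4`.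
-/

open Set Metric Topology Filter
open scoped ENNReal

set_option linter.unusedSectionVars false

namespace Vale.Agent.P073.H267.K3

open _root_.P073 _root_.P073.Net _root_.P073.PA691 _root_.P073.H236 _root_.P073.H579
open _root_.P073.H936 _root_.P073.H936.K3
open _root_.P073.H142
open _root_.P073.H190 (PT2 IsS2)
open _root_.P073.H345 (PK tg PLev PK_unique tg_ne tg_ne_not)
open _root_.P073.H880.RP
open Vale.Agent.P073.St (V)
open Vale.Agent.P073.H471 Vale.Agent.P073.H267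
open Vale.Agent.P073.H73 (Mesh)
open Vale.Agent.P073.H193 (Edges Cyc edges)
open Vale.Agent.P073.H304 (Nb In Zmax)
open Vale.Agent.P073.H926
open Vale.Agent.P073.H238.K3
open Vale.Agent.P073.H687

variable {c₀ n δ : ℝ} {j : ℕ} {Ω Λ : Set V} {v w : V} {ρ : V → ℝ} {M : Mesh Ω} {h : ConHomeo Ω Λ}
  {J₀ J : Set (ℕ × (Fin 3 → ℤ))} {P Z : Set M.ι} {K : BoxCx Λ w}
  {D : KIn3 c₀ n j δ v w ρ M h J₀ J P Z} {C : Cells ρ w K} {C₀ μT : ℝ}
  {X : S1 D C C₀ μT} {Y₂ : S2 X} {Ys : Set M.κ} {sc : Sharp}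

/-- **no marked point** at the processed squares -/
theorem S2.Q_emp (Y₂ : S2 X) (hJ : J = J₀) (hm : ∀ t ∈ J₀, ∀ t' ∈ J₀, t'.1 = t.1) {s : K.S}
    (hs : s ∈ pS C J₀) (β : Bool) : Y₂.Q s β = ∅ :=
  H803.WB.marks_empty D C hJ hm Y₂.marks hs β

/-- **no window** at the processed squares -/
theorem S2.wnd_emp (Y₂ : S2 X) (hJ : J = J₀) (hm : ∀ t ∈ J₀, ∀ t' ∈ J₀, t'.1 = t.1) {s : K.S}
    (hs : s ∈ pS C J₀) (β : Bool) : wnd Y₂.R Y₂.Q s β = ∅ :=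
  H803.WB.wnd_empty D C hJ hm Y₂.marks hs β

namespace S3

/-- **the displacement of the function of one variable** -/
theorem sig_le (Y₃ : S3 Y₂ Ys sc) (hJ : J = J₀) (hm : ∀ t ∈ J₀, ∀ t' ∈ J₀, t'.1 = t.1)
    (s : (D.dat C).S₀) (β : Bool) (t : ℝ) : |(Y₃.F β).σ s t - t| ≤ Y₂.muP s.1 := by
  refine F3W_disp_out Y₂.Lw β s ?_
  rw [Y₂.wnd_emp hJ hm s.2 β]
  exact notMem_empty t

/-- one staircase, in the support of the square `s` -/
theorem step4B (Y₃ : S3 Y₂ Ys sc) (hJ : J = J₀) (hm : ∀ t ∈ J₀, ∀ t' ∈ J₀, t'.1 = t.1)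
    {s : K.S} (_hs : s ∈ (D.dat C).S₀) {y : V} (hy : y ∈ PK (D.G C) s) (β : Bool) :
    ‖(Y₃.T2 β).toFun y - y‖ ≤ Y₂.muP s :=
  Y₃.pt2.disp' (Y₂.muP0 s).le fun s' hs' => by
    have h1 : s'.1 = s := PK_unique hs' hy
    have h2 := Y₃.sig_le hJ hm s' β (y (tg s'.1 β))
    rwa [h1] at h2 ⊢

/-- **the displacement of `h3 ↦ h4` in the support of the square `s`** -/
theorem disp4B (Y₃ : S3 Y₂ Ys sc) (hJ : J = J₀) (hm : ∀ t ∈ J₀, ∀ t' ∈ J₀, t'.1 = t.1)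
    {s : K.S} (hs : s ∈ (D.dat C).S₀) {x : V} (hx : x ∈ Ω) (hy : Y₃.h3.toFun x ∈ PK (D.G C) s) :
    Y₃.h4.toFun x ∈ PK (D.G C) s ∧
      Y₃.h4.toFun x (K.nrm s) = Y₃.h3.toFun x (K.nrm s) ∧
      ‖Y₃.h4.toFun x - Y₃.h3.toFun x‖ ≤ Y₂.muP s := by
  have P := Y₃.pt2
  have h0 : (Y₃.T2 false).toFun (Y₃.h3.toFun x) ∈ PK (D.G C) s := P.step_mem (s := ⟨s, hs⟩) hy
  have h1 := Y₃.step4B hJ hm hs hy false
  have h2 := Y₃.step4B hJ hm hs h0 true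
  rw [Y₃.map4 x hx]
  refine ⟨P.step_mem (s := ⟨s, hs⟩) h0, ?_, ?_⟩
  · unfold PS.map
    rw [P.step_ne (s := ⟨s, hs⟩) (β := true) h0 (tg_ne s true).symm,
      P.step_ne (s := ⟨s, hs⟩) (β := false) hy (tg_ne s false).symm]
  · unfold PS.map
    rw [pi_norm_le_iff_of_nonneg (Y₂.muP0 s).le]
    intro i
    rw [Pi.sub_apply]
    by_cases hi : i = tg s true
    · have hne : i ≠ tg s false := by
        rw [hi]; exact (tg_ne_not s false).symm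
      rw [← P.step_ne (s := ⟨s, hs⟩) (β := false) hy hne]
      exact (norm_le_pi_norm _ i).trans h2
    · rw [P.step_ne (s := ⟨s, hs⟩) (β := true) h0 hi]
      exact (norm_le_pi_norm _ i).trans h1

/-- off the supports nothing moves -/
theorem off4w (Y₃ : S3 Y₂ Ys sc) {x : V} (hx : x ∈ Ω)
    (h : ∀ s ∈ (D.dat C).S₀, Y₃.h3.toFun x ∉ PK (D.G C) s) : Y₃.h4.toFun x = Y₃.h3.toFun x := by
  rw [Y₃.map4 x hx]
  exact Y₃.pt2.map_off fun s => h s.1 s.2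

/-- **the displacement of `h3 ↦ h4`** -/
theorem disp4' (Y₃ : S3 Y₂ Ys sc) (hJ : J = J₀) (hm : ∀ t ∈ J₀, ∀ t' ∈ J₀, t'.1 = t.1)
    {x : V} (hx : x ∈ Ω) {d : ℝ} (hd : 0 ≤ d)
    (hD : ∀ s ∈ (D.dat C).S₀, Y₃.h3.toFun x ∈ PK (D.G C) s → Y₂.muP s ≤ d) :
    ‖Y₃.h4.toFun x - Y₃.h3.toFun x‖ ≤ d := by
  by_cases hK : ∃ s ∈ (D.dat C).S₀, Y₃.h3.toFun x ∈ PK (D.G C) s
  · obtain ⟨s, hs, hy⟩ := hK
    exact (Y₃.disp4B hJ hm hs hx hy).2.2.trans (hD s hs hy)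
  · push Not at hK
    rw [Y₃.off4w hx hK, sub_self, norm_zero]
    exact hd

end S3

end Vale.Agent.P073.H267.K3
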