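import Vale.Agent.P073.H238.RT0
import Vale.Agent.P073.H687.PL4D
import Vale.Agent.P073.H233.DeepNH

/-!
# P073, block H803, **[WORLD-B]**: the facts of the case `J = J₀`, equal tiles

Under `J = J₀` and `∀ t ∈ J₀, ∀ t' ∈ J₀, t'.1 = t.1`:

* `gen_touch`, `cell_gen`: all tiles and cells which touch a processed tile have one generation;
* `no_hang`, `pB_inl`: no hanging vertex at the processed squares, no box `.inr`;
* `not_full`, `wc_empty`: the full case does not occur, no passive cell has a given map.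
-/

open Set Metric Topology Filter
open scoped ENNReal

set_option linter.unusedSectionVars false

namespace Vale.Agent.P073.H803.WB

open _root_.P073 _root_.P073.Net _root_.P073.PA691 _root_.P073.TM
open Vale.Agent.P073.St (V)
open Vale.Agent.P073.H471 Vale.Agent.P073.H267
open Vale.Agent.P073.H73 (Mesh)
open Vale.Agent.P073.H926
open Vale.Agent.P073.H238.K3

variable {c₀ n δ : ℝ} {j : ℕ} {Ω Λ : Set V} {v w : V} {ρ : V → ℝ} {M : Mesh Ω} {h : ConHomeo Ω Λ}
  {J₀ J : Set (ℕ × (Fin 3 → ℤ))} {P Z : Set M.ι} {K : BoxCx Λ w}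
  (D : KIn3 c₀ n j δ v w ρ M h J₀ J P Z) (C : Cells ρ w K)

include D

/-- **all tiles which touch a processed tile have its generation** -/
theorem gen_touch (hJ : J = J₀) (hm : ∀ t ∈ J₀, ∀ t' ∈ J₀, t'.1 = t.1) {t q : K.T}
    (ht : t ∈ pT C J₀) (hq : (K.cube t ∩ K.cube q).Nonempty) : (C.fT q).1 = (C.fT t).1 := by
  have h1 : (dyc w (C.fT t).1 (C.fT t).2 ∩ dyc w (C.fT q).1 (C.fT q).2).Nonempty := by
    rw [← C.cube_eq, ← C.cube_eq]; exact hq
  rcases D.inp.nbr _ ht _ (C.tile q) h1 with h2 | h2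
  · exact hm _ ht _ (hJ ▸ h2)
  · exact h2

/-- **all cells which touch a processed tile have its generation** -/
theorem cell_gen (hJ : J = J₀) (hm : ∀ t ∈ J₀, ∀ t' ∈ J₀, t'.1 = t.1) {t : K.T}
    (ht : t ∈ pT C J₀) {σ : Face} (hσ : IsCell ρ w σ) (hne : (σ.cl w ∩ K.cube t).Nonempty) :
    σ.m = (C.fT t).1 := by
  obtain ⟨a, ha⟩ := hσ.2
  obtain ⟨q, hq⟩ := C.onT _ _ ha
  obtain ⟨x, hx, hxt⟩ := hne
  have h1 : x ∈ K.cube q := by
    rw [C.cube_eq, hq]
    exact Face.cl_sub_cube w σ a hx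
  have h2 := gen_touch D C hJ hm ht ⟨x, hxt, h1⟩
  rw [hq] at h2
  exact h2

/-- **no hanging vertex at a processed square** -/
theorem no_hang (hJ : J = J₀) (hm : ∀ t ∈ J₀, ∀ t' ∈ J₀, t'.1 = t.1) (H : Hang K) :
    H.s ∉ pS C J₀ := by
  intro hs
  obtain ⟨t, ht, hts⟩ := exists_of_pS hs
  have hsub : K.sq H.s ⊆ K.cube t := sq_sub_of hts
  have hws : K.w H.i ∈ K.sq H.s := by
    have hb : ∀ j, K.slo H.s j ≤ K.shi H.s j := fun j => by
      by_cases hj : j = K.nrm H.s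
      · subst hj; exact (K.s_flat H.s).le
      · exact (K.s_lt H.s j hj).le
    have key : ∀ j, K.slo H.s j ≤ K.w H.i j ∧ K.w H.i j ≤ K.shi H.s j := by
      intro j
      by_cases hj : j = K.nrm H.s
      · subst hj
        rw [H.nrm]
        exact ⟨le_rfl, (K.s_flat H.s).le⟩
      by_cases hk : j = H.k
      · subst hk
        rw [H.side]
        split_ifs
        · exact ⟨hb _, le_rfl⟩
        · exact ⟨le_rfl, hb _⟩
      · have hl : j = H.l := by
          have h1 := H.k_n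
          have h2 := H.l_n
          have h3 := H.k_l
          revert hj hk h1 h2 h3
          generalize K.nrm H.s = a
          generalize H.k = b
          generalize H.l = c
          revert j a b c
          decide
        subst hl
        exact ⟨H.lo.le, H.hi.le⟩
    exact ⟨fun j => (key j).1, fun j => (key j).2⟩
  have hW : (C.fW H.i).m = (C.fT t).1 := cell_gen D C hJ hm ht (C.cellW H.i)
    ⟨K.w H.i, by rw [C.w_eq]; exact Face.lo_mem_cl _ _, hsub hws⟩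
  have hS : (C.fS H.s).m = (C.fT t).1 := cell_gen D C hJ hm ht (C.cellS H.s)
    ⟨K.slo H.s, by rw [C.slo_eq]; exact Face.lo_mem_cl _ _, hsub (slo_mem H.s)⟩
  set m := (C.fT t).1 with hmdef
  have hm0 : (0:ℝ) < 2 ^ m := by positivity
  have e1 : K.w H.i H.l = w H.l + (C.fW H.i).z H.l / 2 ^ m := by
    rw [C.w_eq, Face.lo_apply, hW]
  have e2 : K.slo H.s H.l = w H.l + (C.fS H.s).z H.l / 2 ^ m := by
    rw [C.slo_eq, Face.lo_apply, hS]
  have e3 : K.shi H.s H.l = w H.l + ((C.fS H.s).z H.l + 1) / 2 ^ m := by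
    have hn : (C.fS H.s).n H.l = false := by
      rcases hb : (C.fS H.s).n H.l with _ | _
      · rfl
      · exact absurd ((C.isS H.s H.l).1 hb) H.l_n
    rw [C.shi_eq, Face.hi_of' hn, hS]
  have h2 := H.lo
  have h3 := H.hi
  rw [e1, e2] at h2
  rw [e1, e3] at h3
  have h5 : ((C.fS H.s).z H.l : ℝ) / 2 ^ m < (C.fW H.i).z H.l / 2 ^ m := by linarith
  have h6 : ((C.fW H.i).z H.l : ℝ) / 2 ^ m < ((C.fS H.s).z H.l + 1) / 2 ^ m := by linarith
  rw [div_lt_div_iff_of_pos_right hm0] at h5 h6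
  have h7 : (C.fS H.s).z H.l < (C.fW H.i).z H.l := by exact_mod_cast h5
  have h8 : (C.fW H.i).z H.l < (C.fS H.s).z H.l + 1 := by exact_mod_cast h6
  omega

/-- **the processed boxes are the boxes at the edges** -/
theorem pB_inl (hJ : J = J₀) (hm : ∀ t ∈ J₀, ∀ t' ∈ J₀, t'.1 = t.1) {b : TBx K}
    (hb : b ∈ pB C J₀) : ∃ e ∈ pG C J₀, b = .inl e := by
  rcases b with e | H
  · exact ⟨e, inl_mem_pB.1 hb, rfl⟩
  · exact absurd (inr_mem_pB.1 hb) (no_hang D C hJ hm H)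

/-- **no marked point** at the processed squares -/
theorem marks_empty (hJ : J = J₀) (hm : ∀ t ∈ J₀, ∀ t' ∈ J₀, t'.1 = t.1) {G : Geo (D.B C)}
    {Jw R : K.S → ℝ} {Q : K.S → Bool → Finset ℝ} (HQ : H687.Marks G Jw R Q) {s : K.S}
    (hs : s ∈ pS C J₀) (β : Bool) : Q s β = ∅ := by
  refine Finset.eq_empty_of_forall_notMem fun q hq => ?_
  obtain ⟨H, h1, -⟩ := HQ.hang s β q hq
  exact no_hang D C hJ hm H (h1 ▸ hs)

theorem wnd_empty (hJ : J = J₀) (hm : ∀ t ∈ J₀, ∀ t' ∈ J₀, t'.1 = t.1) {G : Geo (D.B C)}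
    {Jw R : K.S → ℝ} {Q : K.S → Bool → Finset ℝ} (HQ : H687.Marks G Jw R Q) {s : K.S}
    (hs : s ∈ pS C J₀) (β : Bool) : H687.wnd R Q s β = ∅ := by
  unfold H687.wnd
  rw [marks_empty D C hJ hm HQ hs β]
  simp

/-- the tiles of generation `m` do not cover `Λ` -/
theorem exists_small (m : ℕ) : ∃ q : K.T, (C.fT q).1 ≠ m := by
  by_contra hcon
  push Not at hcon
  have hΛ := D.bΛ
  have hge : ∀ x ∈ Λ, (1:ℝ) / 2 ^ m ≤ ρ x := fun x hx => by
    obtain ⟨q, hq⟩ := K.cover x hx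
    have h1 : x ∈ dyc w (C.fT q).1 (C.fT q).2 := by rw [← C.cube_eq]; exact hq
    have h2 := (C.tile q).1 x h1
    rwa [hcon q] at h2
  -- a point of the closure which is not in `Λ`
  obtain ⟨y, hy, hyΛ⟩ : ∃ y ∈ closure Λ, y ∉ Λ := by
    by_contra hc
    push Not at hc
    have hcl : IsClosed Λ := isClosed_of_closure_subset fun y hy => hc y hy
    have h1 : IsClopen Λ := ⟨hcl, hΛ.1⟩
    rcases isClopen_iff.1 h1 with h2 | h2
    · exact hΛ.2.1.nonempty.ne_empty h2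
    · obtain ⟨R, hR⟩ := hΛ.2.2
      have hb : Bornology.IsBounded (univ : Set V) := by
        rw [← h2]
        refine (Metric.isBounded_closedBall (x := (0 : V)) (r := R)).subset fun x hx => ?_
        rw [mem_closedBall_zero_iff]
        exact (Net.norm_le_euc x).trans (hR x hx)
      exact NormedSpace.unbounded_univ ℝ V hb
  have hm0 : (0:ℝ) < 1 / 2 ^ m := by positivity
  obtain ⟨x, hx, hd⟩ := Metric.mem_closure_iff.1 hy _ hm0
  have h1 := D.hρ.lip x y
  have h2 := D.hρ.off y hyΛ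
  have h3 := hge x hx
  rw [dist_comm, dist_eq_norm] at hd
  linarith

/-- **the full case does not occur** -/
theorem not_full (hJ : J = J₀) (hm : ∀ t ∈ J₀, ∀ t' ∈ J₀, t'.1 = t.1)
    (hne : (pT C J₀).Nonempty) : ¬ Full C J₀ J := by
  intro hF
  obtain ⟨t₀, ht₀⟩ := hne
  set A : Set V := ⋃ q ∈ pT C J₀, K.cube q with hA
  set A' : Set V := ⋃ q ∈ (pT C J₀)ᶜ, K.cube q with hA'
  -- relatively closed
  have hcl : ∀ I : Set K.T, ∀ x ∈ Λ, x ∈ closure (⋃ q ∈ I, K.cube q) → x ∈ ⋃ q ∈ I, K.cube q := by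
    intro I x hx hxc
    obtain ⟨U, hU, hfin⟩ := K.lfT x hx
    have h1 : x ∈ closure ((⋃ q ∈ I, K.cube q) ∩ U) := by
      refine mem_closure_iff_nhds.2 fun t ht => ?_
      obtain ⟨y, ⟨hyt, hyU⟩, hy⟩ := mem_closure_iff_nhds.1 hxc _ (inter_mem ht hU)
      exact ⟨y, hyt, hy, hyU⟩
    have h2 : (⋃ q ∈ I, K.cube q) ∩ U ⊆ ⋃ q ∈ {i | (K.cube i ∩ U).Nonempty} ∩ I, K.cube q := by
      rintro y ⟨hy, hyU⟩
      obtain ⟨q, hq, hyq⟩ := mem_iUnion₂.1 hy
      exact mem_iUnion₂.2 ⟨q, ⟨⟨y, hyq, hyU⟩, hq⟩, hyq⟩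
    have h3 : IsClosed (⋃ q ∈ {i | (K.cube i ∩ U).Nonempty} ∩ I, K.cube q) :=
      (hfin.subset inter_subset_left).isClosed_biUnion fun q _ => isClosed_Icc
    have h4 := closure_minimal h2 h3 h1
    obtain ⟨q, hq, hxq⟩ := mem_iUnion₂.1 h4
    exact mem_iUnion₂.2 ⟨q, hq.2, hxq⟩
  -- disjoint
  have hdis : ∀ x, x ∈ A → x ∈ A' → False := by
    intro x h1 h2
    obtain ⟨t, ht, hxt⟩ := mem_iUnion₂.1 h1
    obtain ⟨q, hq, hxq⟩ := mem_iUnion₂.1 h2
    exact hq (hJ ▸ hF t ht q ⟨x, hxt, hxq⟩ : C.fT q ∈ J₀)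
  have hpre := isPreconnected_closed_iff.1 D.bΛ.2.1.isPreconnected (closure A) (closure A')
    isClosed_closure isClosed_closure (fun x hx => by
      obtain ⟨q, hq⟩ := K.cover x hx
      by_cases h1 : q ∈ pT C J₀
      · exact Or.inl (subset_closure (mem_iUnion₂.2 ⟨q, h1, hq⟩))
      · exact Or.inr (subset_closure (mem_iUnion₂.2 ⟨q, h1, hq⟩)))
  obtain ⟨q, hq⟩ := exists_small D C (C.fT t₀).1
  have hq' : q ∉ pT C J₀ := fun h1 => hq (hm _ ht₀ _ h1)
  have hlo : ∀ q : K.T, K.lo q ∈ K.cube q := fun q =>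
    ⟨le_rfl, fun k => (K.lt q k).le⟩
  obtain ⟨x, hxΛ, hx1, hx2⟩ := hpre
    ⟨K.lo t₀, K.sub t₀ (hlo t₀), subset_closure (mem_iUnion₂.2 ⟨t₀, ht₀, hlo t₀⟩)⟩
    ⟨K.lo q, K.sub q (hlo q), subset_closure (mem_iUnion₂.2 ⟨q, hq', hlo q⟩)⟩
  exact hdis x (hcl _ x hxΛ hx1) (hcl _ x hxΛ hx2)

/-- **no passive cell has a given map** -/
theorem wc_empty (hJ : J = J₀) (hm : ∀ t ∈ J₀, ∀ t' ∈ J₀, t'.1 = t.1)
    (hne : (pT C J₀).Nonempty) : Wc D C = ∅ := by
  refine eq_empty_of_forall_notMem fun i hi => ?_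
  exact not_full D C hJ hm hne hi.1

omit D in
/-- without processed tiles there are no processed squares -/
theorem pS_empty (he : pT C J₀ = ∅) : pS C J₀ = ∅ := by
  refine eq_empty_of_forall_notMem fun s hs => ?_
  obtain ⟨t, ht, -⟩ := exists_of_pS hs
  rw [he] at ht
  exact ht

omit D in
theorem pG_empty (he : pT C J₀ = ∅) : pG C J₀ = ∅ := by
  refine eq_empty_of_forall_notMem fun e hs => ?_
  obtain ⟨t, ht, -⟩ := hs
  rw [he] at ht
  exact ht

omit D in
theorem pB_empty (he : pT C J₀ = ∅) : pB C J₀ = ∅ := by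
  refine eq_empty_of_forall_notMem fun b hb => ?_
  rcases b with e | H
  · have := inl_mem_pB.1 hb
    rw [pG_empty C he] at this
    exact this
  · have := inr_mem_pB.1 hb
    rw [pS_empty C he] at this
    exact this

/-- every processed tile is a tile of the complex -/
theorem J₀_empty (he : pT C J₀ = ∅) : J₀ = ∅ := by
  refine eq_empty_of_forall_notMem fun t ht => ?_
  obtain ⟨q, hq⟩ := C.onT _ _ (D.inp.tile t (D.inp.sub ht))
  have : q ∈ pT C J₀ := by
    show C.fT q ∈ J₀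
    rw [hq]
    exact ht
  rw [he] at this
  exact this

/-- the faces of passive cells are active -/
theorem act_of (hJ : J = J₀) (hm : ∀ t ∈ J₀, ∀ t' ∈ J₀, t'.1 = t.1)
    (hne : (pT C J₀).Nonempty) {k : M.κ} (hk : ∀ i ∈ P, ¬ M.F k ⊆ M.Q i) : k ∈ Act D C := by
  rintro i (hi | hi)
  · exact hk i hi
  · rw [wc_empty D C hJ hm hne] at hi
    exact absurd hi (notMem_empty i)

end Vale.Agent.P073.H803.WB
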