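import Vale.Agent.P073.H803.WorldB2
import Vale.Agent.P073.H471.OscX2
import Vale.Agent.P073.H805.HighF

/-!
# P073, block H803: positions of the faces near a plate which are not low

`S4.near_face`: let `F k` be a face in no protected cell, with a point of the plate of `s`, which
misses `PB (7 / 8) s` or is above the Z-wall at a side which is not protected. Then `f5 x` is near
`h1 z` for a point `z` of the face: in the tangential windows, and in all coordinates unless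
`f5 x` is below `7 / 8 τ`.
-/

open Set Metric Topology Filter
open scoped ENNReal

set_option linter.unusedSectionVars false

namespace Vale.Agent.P073.H267.K3

open _root_.P073 _root_.P073.Net _root_.P073.PA691 _root_.P073.H236 _root_.P073.H579
open _root_.P073.H936 _root_.P073.H936.K3
open _root_.P073.H142
open _root_.P073.H345 (PK tg tg_ne PLev PK_unique PB_sub_PK PK_sub_ss)
open _root_.P073.H880.RP
open _root_.P073.H919 (HkG HkGF HkGO ZbP sfam HB mem_HB HB_PB HB_sub κ_mem_iff esg)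
open Vale.Agent.P073.St (V)
open Vale.Agent.P073.H471 Vale.Agent.P073.H267 Vale.Agent.P073.H471.X2
open Vale.Agent.P073.H73 (Mesh)
open Vale.Agent.P073.H193 (Edges Cyc edges)
open Vale.Agent.P073.H304 (Nb In Zmax)
open Vale.Agent.P073.H926
open Vale.Agent.P073.H238.K3
open Vale.Agent.P073.H341 (Abv)
open Vale.Agent.P073.H190.Tvp (wP)

variable {c₀ n δ : ℝ} {j : ℕ} {Ω Λ : Set V} {v w : V} {ρ : V → ℝ} {M : Mesh Ω} {h : ConHomeo Ω Λ}
  {J₀ J : Set (ℕ × (Fin 3 → ℤ))} {P Z : Set M.ι} {K : BoxCx Λ w}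
  {D : KIn3 c₀ n j δ v w ρ M h J₀ J P Z} {C : Cells ρ w K} {C₀ μT : ℝ}
  {X : S1 D C C₀ μT} {Y₂ : S2 X} {Ys : Set M.κ} {sc : Sharp} {Y₃ : S3 Y₂ Ys sc}

/-- **a face near a plate**: `h1` moves it little -/
theorem S1.dist_face (X : S1 D C C₀ μT) {s : K.S} (hs : s ∈ pS C J₀) {k : M.κ}
    (hP : ∀ i ∈ P, ¬ M.F k ⊆ M.Q i) {z₀ : V} (hz₀ : z₀ ∈ M.F k)
    (h₀ : X.h1.toFun z₀ ∈ PK (D.G C) s) :
    ∀ y ∈ M.F k, ‖X.h1.toFun y - X.h1.toFun z₀‖ ≤ 11 * (D.G C).oS s := by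
  obtain ⟨i, i', -, hki⟩ := M.two k
  have hkQ : M.F k ⊆ M.Q i := hki.trans inter_subset_left
  have hiP : i ∉ P := fun hi => hP i hi hkQ
  have hn := X.out.nearC D C i
  exact fun y hy => (D.pos_PK C hs hiP hn (hkQ hz₀) h₀ (hkQ hy)).2

/-- it meets no other plate -/
theorem S1.PK_eq (X : S1 D C C₀ μT) {s : K.S} (hs : s ∈ pS C J₀) {k : M.κ}
    (hP : ∀ i ∈ P, ¬ M.F k ⊆ M.Q i) {z₀ : V} (hz₀ : z₀ ∈ M.F k)
    (h₀ : X.h1.toFun z₀ ∈ PK (D.G C) s) {y : V} (hy : y ∈ M.F k) {s' : K.S}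
    (h' : X.h1.toFun y ∈ PK (D.G C) s') : s' = s := by
  by_contra hne
  have hτ := (D.B C).τ_pos s
  have h1 := X.dist_face hs hP hz₀ h₀ y hy
  have h2 := (D.G C).oS_τ s
  have h3 : X.h1.toFun y ∈ PX (D.G C) s := PX_of_near h₀ (by linarith)
  exact (disjoint_ss (W := D.W C) hne).notMem_of_mem_left (PK_sub_ss s' h') (PX_sub_ss s h3)

/-- the normal coordinate in the box of the hook -/
theorem S4.nrm_f5 (Y₄ : S4 Y₃) {s : K.S} (hs : s ∈ (D.dat C).S₀) {x : V} (hx : x ∈ Ω)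
    (hB : Y₃.h4.toFun x ∈ HB (D.G C) (29 / 32) (3 / 4) s) :
    |Y₄.f5.toFun x (K.nrm s) - K.slo s (K.nrm s)| ≤ 3 / 4 * (D.B C).τ s := by
  have h5 : Y₄.h5.toFun x ∈ HB (D.G C) (29 / 32) (3 / 4) s := (Y₄.hko.mem ⟨s, hs⟩ hx).2 hB
  have h5K : Y₄.h5.toFun x ∈ PK (D.G C) s := HB_PK h5
  have c1 := sp_isSg (G := D.G C)
    (F := fun β => sfam (Y₃.F β) (fun s => Y₄.q s * Y₄.r s) Y₄.p0 Y₄.p1) (β := false)
    (Y₄.sg.B false) (Y₄.sg.isS false) (s := ⟨s, hs⟩) h5K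
  have c2 := sp_isSg (G := D.G C)
    (F := fun β => sfam (Y₃.F β) (fun s => Y₄.q s * Y₄.r s) Y₄.p0 Y₄.p1) (β := true)
    (Y₄.sg.B true) (Y₄.sg.isS true) (s := ⟨s, hs⟩) c1.mem
  have c3 := Sp.comp (c := fun β => esg (Y₃.F β) (fun s => Y₄.q s * Y₄.r s) ⟨s, hs⟩) c1 c2
  have c4 : Y₄.f5.toFun x = (Y₄.Tσ true).toFun ((Y₄.Tσ false).toFun (Y₄.h5.toFun x)) :=
    Y₄.map5 x hx
  rw [c4, c3.nrm]
  exact (mem_HB.1 h5).2

/-- **a point of the hook box comes from a point of the hook box** -/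
theorem S3.exists_HB (Y₃ : S3 Y₂ Ys sc) {s : K.S} (hs : s ∈ (D.dat C).S₀) {A : Set V} (hA : A ⊆ Ω)
    (himg : Y₃.h3.toFun '' A = Pre (Y₃.κ true ∘ Y₃.κ false) Λ Y₂.h2 A) {x : V} (hx : x ∈ A)
    (hB : Y₃.h4.toFun x ∈ HB (D.G C) (29 / 32) (3 / 4) s) :
    ∃ z ∈ A, X.h1.toFun z ∈ HB (D.G C) (29 / 32) (3 / 4) s := by
  obtain ⟨z, hz, hzx⟩ := Y₃.exists_z himg hx
  obtain ⟨h3B, -, -⟩ := Vale.Agent.P073.H919.K3.h3_of_HB Y₃ hs (hA hx) hB
  have h2B : Y₂.h2.toFun z ∈ HB (D.G C) (29 / 32) (3 / 4) s := by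
    rw [hzx]
    exact (κ_mem_iff (G := D.G C) (φ := (Subtype.val : (D.dat C).S₀ → K.S))
      Subtype.val_injective (Y₃.ins.isQ false) (Y₃.ins.isQ true) (b := ⟨s, hs⟩) (by norm_num)
      (by norm_num) (by norm_num)).2 h3B
  refine ⟨z, hz, ?_⟩
  by_cases hPE : X.h1.toFun z ∈ (D.dat C).PE (D.G C) s
  · exact pe_HB hs hPE
  · have h2 : Y₂.h2.toFun z = X.h1.toFun z := Y₂.ex.ex.off z (hA hz) fun s' hs' hi => by
      have h1 : Y₂.h2.toFun z ∈ (D.dat C).PE (D.G C) s' :=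
        (Y₂.ex.ex.box s' hs' z (hA hz)).2 (interior_subset hi)
      have h3 : s' = s := PK_unique (HB_PK (pe_HB hs' h1)) (HB_PK h2B)
      subst h3
      exact hPE (interior_subset hi)
    rwa [h2] at h2B

/-- **positions of the faces near a plate which are not low** (case split of `h4` and the hook
box) -/
theorem S4.near_face' (Y₄ : S4 Y₃) (hJ : J = J₀) (hm : ∀ t ∈ J₀, ∀ t' ∈ J₀, t'.1 = t.1) {s : K.S}
    (hs : s ∈ (D.dat C).S₀) {k : M.κ} (hP : ∀ i ∈ P, ¬ M.F k ⊆ M.Q i)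
    (hne : ∃ z ∈ M.F k, X.h1.toFun z ∈ PK (D.G C) s)
    (hk : (∀ x ∈ M.F k, Y₃.h4.toFun x ∉ HB (D.G C) (29 / 32) (3 / 4) s) ∨
      ∃ β, ¬ (D.dat C).sd s β ∧ ∀ x ∈ M.F k, Abv K s β ((D.dat C).ht s β / 2) (X.h1.toFun x)) :
    ∀ x ∈ M.F k, ∃ z ∈ M.F k,
      (∀ β, |wP (D.G C) s β (Y₄.f5.toFun x (tg s β)) - wP (D.G C) s β (X.h1.toFun z (tg s β))| ≤
        4 * Y₂.muP s) ∧
      (|Y₄.f5.toFun x (K.nrm s) - K.slo s (K.nrm s)| ≤ 7 / 8 * (D.B C).τ s ∨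
        ∀ l, |Y₄.f5.toFun x l - X.h1.toFun z l| ≤ 4 * Y₂.muP s) := by
  intro x hx
  obtain ⟨z₀, hz₀, h₀⟩ := hne
  have hQ : ∀ s ∈ (D.dat C).S₀, ∀ β, Y₂.Q s β = ∅ := fun s hs β => Y₂.Q_emp hJ hm hs β
  have hΩ := Vale.Agent.P073.H193.mesh_sub M k
  have himg := Y₃.pre_face k
  have hμ := Y₂.muP0 s
  have hτ := (D.B C).τ_pos s
  by_cases hB : Y₃.h4.toFun x ∈ HB (D.G C) (29 / 32) (3 / 4) s
  · rcases hk with hk | ⟨β, hsd, hhi⟩
    · exact absurd hB (hk x hx)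
    · have hht : (D.dat C).ht s β = (D.B C).τ s / 2 := D.dat_ht_not C hsd
      obtain ⟨z, hz, -, hz2⟩ := Y₄.high_face hs (hQ s hs) hsd
        (fun z hz => by have := hhi z hz; rwa [hht, show (D.B C).τ s / 2 / 2 = (D.B C).τ s / 4 by
          ring] at this) hx hB
      refine ⟨z, hz, fun β => (hz2 β).trans (by linarith), Or.inl ?_⟩
      have := Y₄.nrm_f5 hs (hΩ hx) hB
      linarith
  · have hno : ∀ s' ∈ (D.dat C).S₀, Y₃.h4.toFun x ∉ HB (D.G C) (29 / 32) (3 / 4) s' := by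
      intro s' hs' hB'
      obtain ⟨z, hz, hzB⟩ := Y₃.exists_HB hs' hΩ himg hx hB'
      have h1 := X.PK_eq hs hP hz₀ h₀ hz (HB_PK hzB)
      subst h1
      exact hB hB'
    obtain ⟨z, hz, -, hz2⟩ := Y₄.off_near hΩ himg hx hno (b := 2 * Y₂.muP s) (by linarith)
      fun s' hne β t => by
        obtain ⟨_, ⟨y, hy, rfl⟩, hys⟩ := hne
        have h1 : s'.1 = s := X.PK_eq hs hP hz₀ h₀ hy hys
        have h2 := Y₄.disp_out s' β (t := t) (by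
          rw [Y₂.wnd_emp hJ hm s'.2 β]
          exact notMem_empty t)
        rwa [h1] at h2 ⊢
    refine ⟨z, hz, fun β => ?_, Or.inr fun l => (hz2 l).trans (by linarith)⟩
    refine (Vale.Agent.P073.H190.Tvp.abs_clamp_sub_le _ _ _ _).trans ((hz2 _).trans (by linarith))

/-- **positions of the faces near a plate which are not low**, with the first case in terms of
`h1` -/
theorem S4.near_face (Y₄ : S4 Y₃) (hJ : J = J₀) (hm : ∀ t ∈ J₀, ∀ t' ∈ J₀, t'.1 = t.1) {s : K.S}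
    (hs : s ∈ (D.dat C).S₀) {k : M.κ} (hP : ∀ i ∈ P, ¬ M.F k ⊆ M.Q i)
    (hne : ∃ z ∈ M.F k, X.h1.toFun z ∈ PK (D.G C) s)
    (hk : (∀ x ∈ M.F k, X.h1.toFun x ∉ (D.G C).PB (7 / 8) s) ∨
      ∃ β, ¬ (D.dat C).sd s β ∧ ∀ x ∈ M.F k, Abv K s β ((D.dat C).ht s β / 2) (X.h1.toFun x)) :
    ∀ x ∈ M.F k, ∃ z ∈ M.F k,
      (∀ β, |wP (D.G C) s β (Y₄.f5.toFun x (tg s β)) - wP (D.G C) s β (X.h1.toFun z (tg s β))| ≤
        4 * Y₂.muP s) ∧
      (|Y₄.f5.toFun x (K.nrm s) - K.slo s (K.nrm s)| ≤ 7 / 8 * (D.B C).τ s ∨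
        ∀ l, |Y₄.f5.toFun x l - X.h1.toFun z l| ≤ 4 * Y₂.muP s) := by
  refine Y₄.near_face' hJ hm hs hP hne (hk.imp_left fun h x hx hB => ?_)
  obtain ⟨z, hz, hzB⟩ := Y₃.exists_HB hs (Vale.Agent.P073.H193.mesh_sub M k) (Y₃.pre_face k) hx hB
  exact h z hz (HB_PB (by norm_num) (by norm_num) s hzB)

end Vale.Agent.P073.H267.K3
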