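import Vale.Agent.P073.H803.RD

/-!
# P073, block B09, [ST1]: the data of Round 1 from a given conical homeomorphism

* `exists_h0Q`, `exists_rdQ`: the homeomorphism `h` before Round 1 comes from outside, with any
  property `Q`;
* `SegS`: short segments in the squares near the inner blocks; `SpecSegNet`: existence of the
  homeomorphism before Round 1 with `SegS`.
-/

namespace Vale.Agent.P073.H803

open MeasureTheory Set Filter Topology Metric Vale.Agent.P073.St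
open Vale.Agent.P073.SQ (ev)
open Vale.Agent.P073.AB Vale.Agent.P073.AB.P86 Vale.Agent.P073.AB.S308
open Vale.Agent.P073.H73 (Mesh MinEdge segP onSeg ctr)
open Vale.Agent.P073.H687
open Vale.Agent.P073.H304 (af afi Blocks Link Zn R1Out K3C round1_all)
open Vale.Agent.P073.H622 (NetB thF kF CF κF LF bF af_LF exists_sigma blkM thF_le CF_pos thF_pos
  κF_pos)
open Vale.Agent.P073.H696 (Boxes HF am blk blkS solid deep part1 Dom IsNear)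
open Vale.Agent.P073.H726 (LBOn)
open _root_.P073 (ConHomeo)
open _root_.P073.Net (dyc dyo len)
open scoped ENNReal

/-! ### Short segments -/

/-- the box `k` without a layer of thickness `2 ^ (-n)` -/
def boxD (v : V) (k : Idx) (n : ℕ) : Set V :=
  {y | ∀ i, v i + (k.2 i : ℝ) / 2 ^ k.1 + 1 / 2 ^ n ≤ y i ∧
    y i ≤ v i + ((k.2 i : ℝ) + 1) / 2 ^ k.1 - 1 / 2 ^ n}

/-- short segments in the squares of generation `N' k` near the inner blocks -/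
def SegS (v : V) (K : Set Idx) (n N' : Idx → ℕ) (β : Idx → ℝ) (h : V → V) : Prop :=
  ∀ k ∈ K, ∀ s : Idx × Fin 3, s.1.1 = N' k → squ v s ⊆ boxD v k (n k) →
    (∀ z ∈ blk k (n k), Disjoint (squ v s) (dyo v (n k) z)) → ∀ a ∈ squ v s,
    ∃ b ∈ intrinsicFrontier ℝ (squ v s),
      len (onSeg h (a, b)) (Icc 0 1) ≤ ENNReal.ofReal (β k)

/-- The homeomorphism before Round 1 exists, for all tolerances, with short segments. `GX`: generic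
property of the origin of the grid. -/
def SpecSegNet (p : ℝ)
    (GX : Set V → (V → V) → (V → Mat) → V → (ℕ → ℕ) → Prop) : Prop :=
  ∀ (Ω Λ : Set V) (f : V → V) (F : V → Mat), St.IsBoundedDomain Ω → St.IsBoundedDomain Λ →
    St.IsHomeo Ω Λ f → St.IsSobolev p Ω f F →
  ∀ (κ μ : V → ℝ) (s : V → ℕ) (ε M₀ : ℝ) (c : ℝ≥0∞) (τ' φ : V → ℝ) (v : V) (nn : ℕ → ℕ)
    (K : Set Idx) (x : Idx → V), Boxes p ε M₀ c τ' φ κ μ s Ω Λ f F v nn K x → GX Ω f F v nn →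
  ∀ (a k₁ : V → ℕ) (β : Idx → ℝ), (∀ y, 4 ≤ a y) → (∀ y, 3 ≤ k₁ y) →
    (∀ y, s y = a y + k₁ y + kF F k₁ y) → (∀ y, κ y ≤ κF p F k₁ y) → (∀ k, 0 < β k) →
  ∃ r : V → ℝ, LBOn Ω r ∧
  ∀ (r₁ : V → ℝ) (εD : ℝ≥0∞) (tolD : Idx → ℝ≥0∞) (I : Set Idx) (N' : Idx → ℕ),
    Dom Ω v (HF p Ω F) K (fun k => k.1 + a (x k)) (fun k => k.1 + s (x k)) r₁ εD tolD I N' →
    (∀ y, r₁ y ≤ r y) → (∀ k ∈ K, N' k ∈ range nn) →
  ∀ (σ : V → ℝ) (δ : Idx × Fin 3 → ℝ), ContinuousOn σ Ω → (∀ y ∈ Ω, 0 < σ y) → (∀ e, 0 < δ e) →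
  ∃ h : ConHomeo Ω Λ, NetB v I K x (fun k => k.1 + a (x k)) (fun k => k₁ (x k))
      (fun k => kF F k₁ (x k)) (fun k => CF F (x k)) f F Ω σ δ h.toFun ∧
    SegS v K (fun k => k.1 + a (x k)) N' β h.toFun

variable {p D : ℝ} {J : ℝ → ℕ} {Δ Mg : ℝ → ℝ} {Ω Λ : Set V} {f : V → V} {F : V → Mat} {v : V}
  {I K : Set Idx} {x : Idx → V} {n N N' : Idx → ℕ} {k₁ : V → ℕ} {c₀ τ rσ : V → ℝ}
  {δ εs : Idx × Fin 3 → ℝ}

/-- as `exists_h0M`, from a given homeomorphism -/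
theorem exists_h0Q {ε M₀ : ℝ} {c : ℝ≥0∞} {τ₀ φ κ μ : V → ℝ} {s : V → ℕ} {nn : ℕ → ℕ}
    {n : Idx → ℕ} (hΩ : St.IsBoundedDomain Ω) (hΛ : St.IsBoundedDomain Λ)
    (hf : St.IsHomeo Ω Λ f) (B : Boxes p ε M₀ c τ₀ φ κ μ s Ω Λ f F v nn K x)
    (k₁ : V → ℕ) (hn : ∀ k ∈ K, k.1 < n k)
    {L : Idx → V ≃L[ℝ] V} {b : Idx → V} (hL : ∀ k ∈ K, ∀ y, af (L k) (b k) y = am f F (x k) y)
    {c₀ τ : Idx → ℝ} {J : ℝ → ℕ} {Δ : ℝ → ℝ}
    (hκ : ∀ k ∈ K, κ (x k) / 2 ^ k.1 ≤ 1 / 2 ^ n k)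
    (hC1 : ∀ k ∈ K, CF F (x k) / 2 ^ k₁ (x k) ≤ thF F (x k) * τ k)
    (hκ₀ : ∀ k ∈ K, κ (x k) / 2 ^ (k.1 + s (x k)) ≤ thF F (x k) * τ k / 2 / 2 ^ n k)
    (hJ : ∀ k ∈ K, 1 ≤ J (c₀ k) ∧ J (c₀ k) + 2 ≤ k₁ (x k))
    (hc0 : ∀ k ∈ K, 0 < c₀ k ∧ c₀ k ≤ 1 / 64)
    (t1 : ∀ k ∈ K, 2 * τ k + 1 / 2 ^ k₁ (x k) ≤ Δ (c₀ k))
    (t2 : ∀ k ∈ K, τ k ≤ 1 / 2 / 2 ^ J (c₀ k)) {r : V → ℝ} (hr : LBOn Ω r)
    {Q : (V → V) → Prop}
    (hh : ∀ σ : V → ℝ, ContinuousOn σ Ω → (∀ y ∈ Ω, 0 < σ y) → ∃ h : ConHomeo Ω Λ,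
      NetB v I K x n (fun k => k₁ (x k)) (fun k => kF F k₁ (x k)) (fun k => CF F (x k)) f F Ω σ δ
        h.toFun ∧ Q h.toFun) :
    ∃ (σ : V → ℝ) (h : ConHomeo Ω Λ), ContinuousOn σ Ω ∧ (∀ y ∈ Ω, 0 < σ y ∧ σ y ≤ r y) ∧
      (∀ k ∈ K, ∀ y ∈ dyc v k.1 k.2, σ y ≤ thF F (x k) * τ k / 2 / 2 ^ n k) ∧
      NetB v I K x n (fun k => k₁ (x k)) (fun k => kF F k₁ (x k)) (fun k => CF F (x k)) f F Ω σ δ
        h.toFun ∧ Q h.toFun ∧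
      BlkM Ω Λ v K n (fun k => k₁ (x k)) (fun k => blk k (n k)) f h.toFun L b c₀ τ J Δ := by
  have hτ : ∀ k ∈ K, 0 < τ k := by
    intro k hk
    have h1 : 0 < CF F (x k) / 2 ^ k₁ (x k) := div_pos (CF_pos _ _) (by positivity)
    have h2 := h1.trans_le (hC1 k hk)
    exact (pos_iff_pos_of_mul_pos h2).1 (thF_pos F (x k))
  obtain ⟨σ, hσc, hσ0, hσ1, hσ2, hσr⟩ := exists_sigma hΩ.1 hΛ.1 hf B hκ
    (σ₀ := fun k => thF F (x k) * τ k / 2 / 2 ^ n k)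
    (fun k hk => by have := thF_pos F (x k); have := hτ k hk; positivity) hr
  obtain ⟨h, Hh, hQ⟩ := hh σ hσc hσ0
  refine ⟨σ, h, hσc, fun y hy => ⟨hσ0 y hy, hσr y hy⟩, hσ2, Hh, hQ, ?_⟩
  have hLw : ∀ k ∈ K, ∀ w, L k w = cl (F (x k)) w := by
    intro k hk w
    have h1 : L k w + b k = f (x k) + cl (F (x k)) (w - x k) := hL k hk w
    have h0 : L k 0 + b k = f (x k) + cl (F (x k)) (0 - x k) := hL k hk 0
    rw [map_zero, zero_add, zero_sub, map_neg] at h0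
    rw [map_sub, h0] at h1
    have h2 : L k w = (L k w + (f (x k) + -cl (F (x k)) (x k))) -
      (f (x k) + -cl (F (x k)) (x k)) := by abel
    rw [h2, h1]
    abel
  refine blkM hΛ.1 hf B Hh (fun k _ => (CF_pos F (x k)).le) hL (fun k _ => thF_pos F (x k)) ?_
    hσ1 hσ2 hκ hC1 (fun k _ => le_rfl) hκ₀ hJ hc0 t1 t2 hn
  intro k hk w
  rw [hLw k hk w]
  exact thF_le (B.pt k hk).2.2.1 w

/-- **the data of Round 1 exist**, for all tolerances, from a given homeomorphism -/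
theorem exists_rdQ (hR : R1All p D J Δ Mg) (hΩ : St.IsBoundedDomain Ω)
    (hΛ : St.IsBoundedDomain Λ) (hf : St.IsHomeo Ω Λ f) {a : V → ℕ} (ha : ∀ y, 4 ≤ a y)
    {κ₀ : V → ℝ} (hN : ∀ y, RN p J Δ F a k₁ c₀ τ κ₀ y) {κ μ : V → ℝ}
    (hκ : ∀ y, 0 < κ y ∧ κ y ≤ κ₀ y) {ε M₀ : ℝ} {c : ℝ≥0∞} {τ' φ : V → ℝ} {nn : ℕ → ℕ}
    {s : V → ℕ} (hs : ∀ y, s y = a y + k₁ y + kF F k₁ y)
    (B : Boxes p ε M₀ c τ' φ κ μ s Ω Λ f F v nn K x) {r : V → ℝ} {εD : ℝ≥0∞}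
    {tolD : Idx → ℝ≥0∞}
    (Dm : Dom Ω v (HF p Ω F) K (fun k => k.1 + a (x k)) (fun k => k.1 + s (x k)) r εD tolD I N')
    {rσ : V → ℝ} (hr : LBOn Ω rσ) (hεs : ∀ s, 0 < εs s) {Q : (V → V) → Prop}
    (hh : ∀ σ : V → ℝ, ContinuousOn σ Ω → (∀ y ∈ Ω, 0 < σ y) → ∃ h : ConHomeo Ω Λ,
      NetB v I K x (fun k => k.1 + a (x k)) (fun k => k₁ (x k)) (fun k => kF F k₁ (x k))
        (fun k => CF F (x k)) f F Ω σ δ h.toFun ∧ Q h.toFun) :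
    ∃ X : RD p D J Δ Mg Ω Λ f F v I K x (fun k => k.1 + a (x k)) (fun k => k.1 + s (x k)) N'
      k₁ c₀ τ rσ δ εs, Q X.h.toFun := by
  have ha' : ∀ k : Idx, k.1 < k.1 + a (x k) := fun k => by have := ha (x k); omega
  have hNn : ∀ k ∈ K, k.1 + s (x k) = k.1 + a (x k) + k₁ (x k) + kF F k₁ (x k) :=
    fun k _ => by rw [hs]; omega
  have hG : BlkG Ω v I K (fun k => k.1 + a (x k)) (fun k => k.1 + s (x k)) N'
      (fun k => k₁ (x k)) (fun k => blk k (k.1 + a (x k))) :=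
    blkG_of_dom (n := fun k => k.1 + a (x k)) hΩ.1 Dm
      (fun k hk => ⟨(B.pt k hk).2.1, (ha' k).le⟩) B.disj B.fin
      (fun k hk => ⟨by have := (hN (x k)).k3; omega, by rw [hNn k hk]; omega⟩)
  obtain ⟨σ, h, hσc, hσ0, hσk, NB, hQ, T⟩ := exists_h0Q (τ := fun k => τ (x k))
    (c₀ := fun k => c₀ (x k)) (L := fun k => LF F (x k)) (b := fun k => bF f F (x k))
    (n := fun k => k.1 + a (x k)) (J := J) (Δ := Δ) hΩ hΛ hf B k₁ (fun k _ => ha' k)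
    (fun k hk y => af_LF (B.pt k hk).2.2.1 y)
    (fun k _ => by
      show κ (x k) / 2 ^ k.1 ≤ 1 / 2 ^ (k.1 + a (x k))
      calc κ (x k) / 2 ^ k.1 ≤ 1 / 2 ^ a (x k) / 2 ^ k.1 := by
            gcongr
            exact (hκ _).2.trans (hN (x k)).κ1
        _ = _ := by rw [pow_add]; ring)
    (fun k _ => (hN (x k)).C1)
    (fun k _ => by
      show κ (x k) / 2 ^ (k.1 + s (x k)) ≤ thF F (x k) * τ (x k) / 2 / 2 ^ (k.1 + a (x k))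
      have h2 := (hκ (x k)).2.trans (hN (x k)).κτ
      have h3 := (hκ (x k)).1
      calc κ (x k) / 2 ^ (k.1 + s (x k)) ≤ κ (x k) / 2 ^ (k.1 + a (x k)) := by
            refine div_le_div_of_nonneg_left h3.le (by positivity) ?_
            refine pow_le_pow_right₀ (by norm_num) ?_
            rw [hs]
            omega
        _ ≤ _ := by gcongr)
    (fun k _ => (hN (x k)).J1) (fun k _ => (hN (x k)).c0) (fun k _ => (hN (x k)).t1)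
    (fun k _ => (hN (x k)).t2) hr hh
  have lk := fun (G : BlkG Ω v I K (fun k => k.1 + a (x k)) (fun k => k.1 + s (x k)) N'
      (fun k => k₁ (x k)) (fun k => blk k (k.1 + a (x k)))) =>
    G.link T (x := x) (F := F) fun k hk y => af_LF (B.pt k hk).2.2.1 y
  obtain ⟨ε', hε1, hε2⟩ := (lk hG).dy.exists_tol hεs
  obtain ⟨h₁, g, hg⟩ := hR.2 Ω Λ hΩ hΛ v (hG.mg1 T).mesh h (hG.blocks T) ε' hε1
  exact ⟨⟨hG, h, σ, hσc, hσ0, hσk, NB, T, ε', hε1, hε2, h₁, g, hg, lk hG⟩, hQ⟩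

end Vale.Agent.P073.H803
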