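import Vale.Agent.P073.H803.Blk3

/-!
# P073, block B09, [ST1-IN]: the blocks of Round 1
-/

namespace Vale.Agent.P073.H803

open MeasureTheory Set Filter Topology Metric Vale.Agent.P073.St
open Vale.Agent.P073.SQ (ev)
open Vale.Agent.P073.AB Vale.Agent.P073.AB.P86 Vale.Agent.P073.AB.S308
open Vale.Agent.P073.H73 (Mesh MinEdge segP onSeg ctr)
open Vale.Agent.P073.H687
open Vale.Agent.P073.H304 (af afi af_afi afi_af Nb bl In1 Blocks dyc_eq_closedBall)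
open _root_.P073.Net (dyc dyo len)
open scoped ENNReal

variable {Ω Λ : Set V} {v : V} {I K : Set Idx} {n N N' k₁ j : Idx → ℕ}
  {Bk : Idx → Set (Fin 3 → ℤ)} {f h : V → V} {L : Idx → V ≃L[ℝ] V} {b : Idx → V}
  {c₀ τ : Idx → ℝ} {J : ℝ → ℕ} {Δ : ℝ → ℝ}

/-- radius of the cube of the box `k` which is used in Round 1 -/
noncomputable def rB (n : Idx → ℕ) (k : Idx) : ℝ := 1 / 2 / 2 ^ k.1 - 1 / 2 / 2 ^ n k

/-- The metric hypotheses: `h` is close to the affine map on the box `k` (and equal on the middle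
cubes), no other point is mapped into the image of the box. -/
structure BlkM (Ω Λ : Set V) (v : V) (K : Set Idx) (n k₁ : Idx → ℕ)
    (Bk : Idx → Set (Fin 3 → ℤ)) (f h : V → V) (L : Idx → V ≃L[ℝ] V) (b : Idx → V)
    (c₀ τ : Idx → ℝ) (J : ℝ → ℕ) (Δ : ℝ → ℝ) : Prop where
  Λo : IsOpen Λ
  homeo : St.IsHomeo Ω Λ f
  img : ∀ k ∈ K, af (L k) (b k) '' closedBall (ctr v k.1 k.2) (rB n k) ⊆ f '' dyo v k.1 k.2
  far : ∀ k ∈ K, ∀ y ∈ Ω, y ∉ dyo v k.1 k.2 →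
    afi (L k) (b k) (h y) ∉ closedBall (ctr v k.1 k.2) (rB n k)
  close : ∀ k ∈ K, ∀ y ∈ dyc v k.1 k.2, ‖afi (L k) (b k) (h y) - y‖ ≤ τ k / 2 ^ n k
  mid : ∀ k ∈ K, ∀ z ∈ Bk k, ∀ x ∈ closedBall (ctr v (n k) z)
    ((1 - 1 / 2 ^ J (c₀ k)) / 2 / 2 ^ n k), h x = af (L k) (b k) x
  j1 : ∀ k ∈ K, 1 ≤ J (c₀ k) ∧ J (c₀ k) + 1 ≤ k₁ k
  c0 : ∀ k ∈ K, 0 < c₀ k ∧ c₀ k ≤ 1 / 64
  t1 : ∀ k ∈ K, 2 * τ k + 1 / 2 ^ k₁ k ≤ Δ (c₀ k)
  t2 : ∀ k ∈ K, τ k ≤ 1 / 2 / 2 ^ J (c₀ k)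
  lt : ∀ k ∈ K, k.1 < n k

theorem frontier_dyc (v : V) (m : ℕ) (z : Fin 3 → ℤ) :
    frontier (dyc v m z) = dyc v m z \ dyo v m z := by
  rw [(isCompact_dyc v m z).isClosed.frontier_eq, _root_.P073.Gauge.C110.interior_dyc]

/-- points of a cell outside of the middle cube are near the frontier -/
theorem exists_frontier {n j : ℕ} {z : Fin 3 → ℤ} {x : V} (hx : x ∈ dyc v n z)
    (hn : x ∉ ball (ctr v n z) ((1 - 1 / 2 ^ j) / 2 / 2 ^ n)) (hj : 1 ≤ j) :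
    ∃ y ∈ frontier (dyc v n z), ‖x - y‖ ≤ 1 / 2 / 2 ^ j / 2 ^ n := by
  rw [mem_ball, dist_pi_lt_iff (half_pos' hj)] at hn
  push Not at hn
  obtain ⟨i, hi⟩ := hn
  rw [Real.dist_eq] at hi
  have e3 : ctr v n z i = v i + (z i + 1 / 2) / 2 ^ n := rfl
  have e4 : ((z i : ℝ) + 1 / 2) / 2 ^ n = z i / 2 ^ n + 1 / 2 / 2 ^ n := add_div _ _ _
  have e5 : ((z i : ℝ) + 1) / 2 ^ n = z i / 2 ^ n + 1 / 2 / 2 ^ n + 1 / 2 / 2 ^ n := by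
    rw [add_div]; ring
  have e6 : (1 - 1 / 2 ^ j : ℝ) / 2 / 2 ^ n = 1 / 2 / 2 ^ n - 1 / 2 / 2 ^ j / 2 ^ n := by ring
  have e7 : (0:ℝ) < 1 / 2 / 2 ^ j / 2 ^ n := by positivity
  rw [e3, e4, e6] at hi
  have hxi := hx i
  rw [e5] at hxi
  have key : ∀ c : ℝ, (c = v i + z i / 2 ^ n ∨ c = v i + (z i / 2 ^ n + 1 / 2 / 2 ^ n + 1 / 2 / 2 ^ n)) →
      |x i - c| ≤ 1 / 2 / 2 ^ j / 2 ^ n → ∃ y ∈ frontier (dyc v n z), ‖x - y‖ ≤ 1 / 2 / 2 ^ j / 2 ^ n := by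
    intro c hc hle
    have hp : (0:ℝ) < 1 / 2 / 2 ^ n := by positivity
    refine ⟨Function.update x i c, ?_, ?_⟩
    · rw [frontier_dyc]
      refine ⟨fun l => ?_, fun h => ?_⟩
      · by_cases hl : l = i
        · subst hl
          rw [Function.update_self, e5]
          rcases hc with hc | hc <;> rw [hc] <;> constructor <;> linarith
        · rw [Function.update_of_ne hl]
          exact hx l
      · have h1 := h i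
        rw [Function.update_self, e5] at h1
        rcases hc with hc | hc <;> rw [hc] at h1 <;> linarith [h1.1, h1.2]
    · rw [pi_norm_le_iff_of_nonneg e7.le]
      intro l
      by_cases hl : l = i
      · subst hl
        rw [Pi.sub_apply, Function.update_self, Real.norm_eq_abs]
        exact hle
      · rw [Pi.sub_apply, Function.update_of_ne hl, sub_self, norm_zero]
        exact e7.le
  rcases le_total 0 (x i - (v i + (z i / 2 ^ n + 1 / 2 / 2 ^ n))) with h0 | h0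
  · rw [abs_of_nonneg h0] at hi
    refine key _ (Or.inr rfl) ?_
    rw [abs_le]
    constructor <;> linarith
  · rw [abs_of_nonpos h0] at hi
    refine key _ (Or.inl rfl) ?_
    rw [abs_le]
    constructor <;> linarith

theorem ctr_mem (v : V) (m : ℕ) (z : Fin 3 → ℤ) : ctr v m z ∈ dyc v m z := by
  rw [dyc_eq_closedBall]; exact mem_closedBall_self (by positivity)

theorem size_le {q : Idx} {m c : ℕ} (h : m + c ≤ q.1) : (1:ℝ) / 2 ^ q.1 ≤ 1 / 2 ^ c / 2 ^ m := by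
  have h6 : (2:ℝ) ^ (m + c) ≤ 2 ^ q.1 := pow_le_pow_right₀ (by norm_num) h
  calc (1:ℝ) / 2 ^ q.1 ≤ 1 / 2 ^ (m + c) := one_div_le_one_div_of_le (by positivity) h6
    _ = 1 / 2 ^ c / 2 ^ m := by rw [pow_add]; ring

namespace BlkM

variable (T : BlkM Ω Λ v K n k₁ Bk f h L b c₀ τ J Δ)

include T

/-- a point whose image is deep in the box is in the box -/
theorem back {k : Idx} (hk : k ∈ K) {y : V} (hy : y ∈ Ω) {c : ℝ} (hc : 1 / 2 ≤ c)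
    (h1 : ‖afi (L k) (b k) (h y) - ctr v k.1 k.2‖ ≤ 1 / 2 / 2 ^ k.1 - c / 2 ^ n k) :
    y ∈ dyo v k.1 k.2 ∧ ‖y - ctr v k.1 k.2‖ ≤ 1 / 2 / 2 ^ k.1 - (c - τ k) / 2 ^ n k := by
  have h2 : y ∈ dyo v k.1 k.2 := by
    by_contra hn
    refine T.far k hk y hy hn ?_
    rw [mem_closedBall, dist_eq_norm]
    refine h1.trans ?_
    unfold rB
    have h3 : (1:ℝ) / 2 / 2 ^ n k ≤ c / 2 ^ n k := by gcongr
    linarith
  refine ⟨h2, ?_⟩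
  have h3 := T.close k hk y (dyo_sub_dyc h2)
  calc ‖y - ctr v k.1 k.2‖ = ‖(afi (L k) (b k) (h y) - ctr v k.1 k.2) -
        (afi (L k) (b k) (h y) - y)‖ := by congr 1; abel
    _ ≤ ‖afi (L k) (b k) (h y) - ctr v k.1 k.2‖ + ‖afi (L k) (b k) (h y) - y‖ := norm_sub_le _ _
    _ ≤ (1 / 2 / 2 ^ k.1 - c / 2 ^ n k) + τ k / 2 ^ n k := by linarith
    _ = _ := by ring

theorem pw {k : Idx} (hk : k ∈ K) : (1:ℝ) / 2 ^ k₁ k ≤ 1 / 2 / 2 ^ J (c₀ k) := by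
  have h1 := (T.j1 k hk).2
  have h2 : (2:ℝ) ^ (J (c₀ k) + 1) ≤ 2 ^ k₁ k := pow_le_pow_right₀ (by norm_num) h1
  calc (1:ℝ) / 2 ^ k₁ k ≤ 1 / 2 ^ (J (c₀ k) + 1) := one_div_le_one_div_of_le (by positivity) h2
    _ = 1 / 2 / 2 ^ J (c₀ k) := by rw [pow_succ]; ring

theorem jq {k : Idx} (hk : k ∈ K) : (1:ℝ) / 2 / 2 ^ J (c₀ k) ≤ 1 / 4 := by
  have h1 := two_le_pow (T.j1 k hk).1
  have h2 : (1:ℝ) / 2 / 2 ^ J (c₀ k) ≤ 1 / 2 / 2 :=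
    div_le_div_of_nonneg_left (by norm_num) (by norm_num) h1
  linarith

end BlkM

namespace BlkG

variable (G : BlkG Ω v I K n N N' k₁ Bk) (T : BlkM Ω Λ v K n k₁ Bk f h L b c₀ τ J Δ)

include G T

/-- the merged partition -/
noncomputable def mg1 : Merge Ω v (pt1 v K n k₁ Bk I) (CellIx K Bk) :=
  G.toBlkD.mrg (j := fun k => J (c₀ k)) T.j1

/-- the protected cells: middle cubes of the cells of the box `k` -/
def Pk (k : Idx) : Set (G.mg1 T).mesh.ι :=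
  {i | ∃ b : CellIx K Bk, b.1.1 = k ∧ i = (Sum.inr b : (G.mg1 T).tiling.ι)}

/-- the drawn cells: the other cubes which touch the cells of the box `k` -/
def Zk (k : Idx) : Set (G.mg1 T).mesh.ι :=
  {i | ∃ q : {q : Idx // q ∈ (G.mg1 T).U}, i = (Sum.inl q : (G.mg1 T).tiling.ι) ∧
    (dyc v q.1.1 q.1.2 ∩ bS v n Bk k).Nonempty}

omit T in
theorem bS_mg {k : Idx} (hk : k ∈ K) {y : V} (hy : y ∈ bS v n Bk k) :
    ‖y - ctr v k.1 k.2‖ ≤ 1 / 2 / 2 ^ k.1 - 3 / 2 ^ n k := by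
  obtain ⟨z, hz, hyz⟩ := mem_iUnion₂.1 hy
  exact G.mg k hk z hz y hyz

omit T in
/-- points near the cells -/
theorem near_mg {k : Idx} (hk : k ∈ K) {x y : V} {c : ℝ} (hy : y ∈ bS v n Bk k)
    (h : ‖x - y‖ ≤ c / 2 ^ n k) :
    ‖x - ctr v k.1 k.2‖ ≤ 1 / 2 / 2 ^ k.1 - (3 - c) / 2 ^ n k := by
  have h1 := G.bS_mg hk hy
  calc ‖x - ctr v k.1 k.2‖ = ‖(x - y) + (y - ctr v k.1 k.2)‖ := by congr 1; abel
    _ ≤ ‖x - y‖ + ‖y - ctr v k.1 k.2‖ := norm_add_le _ _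
    _ ≤ c / 2 ^ n k + (1 / 2 / 2 ^ k.1 - 3 / 2 ^ n k) := by linarith
    _ = _ := by ring

omit T in
theorem Nb_mg {k : Idx} (hk : k ∈ K) {x : V} {c : ℝ} (hx : x ∈ Nb v (bl (n k) (Bk k)) c) :
    ‖x - ctr v k.1 k.2‖ ≤ 1 / 2 / 2 ^ k.1 - (3 - c) / 2 ^ n k := by
  obtain ⟨⟨m, z⟩, ⟨hm, hz⟩, y, hy, hxy⟩ := hx
  have hm' : m = n k := hm
  subst hm'
  refine G.near_mg hk (y := y) ?_ hxy
  rw [frontier_dyc] at hy
  exact mem_iUnion₂.2 ⟨z, hz, hy.1⟩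

/-- **the zone**: a cube of the partition which meets the zone of a block -/
theorem zone_cube {k : Idx} (hk : k ∈ K) {q : Idx} (hq : q ∈ pt1 v K n k₁ Bk I) {y : V}
    (hy : y ∈ dyc v q.1 q.2)
    (hz : afi (L k) (b k) (h y) ∈ Nb v (bl (n k) (Bk k)) (c₀ k)) :
    (dyc v q.1 q.2 ⊆ dyc v k.1 k.2 ∧ n k + k₁ k ≤ q.1 ∧ q.1 ≤ N' k) ∧
      ∀ x ∈ dyc v q.1 q.2, ‖x - y‖ ≤ 1 / 2 ^ k₁ k / 2 ^ n k ∧
        ‖x - ctr v k.1 k.2‖ ≤ 1 / 2 / 2 ^ k.1 - 2 / 2 ^ n k ∧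
        ‖afi (L k) (b k) (h x) - ctr v k.1 k.2‖ ≤ 1 / 2 / 2 ^ k.1 - 3 / 2 / 2 ^ n k := by
  have hc := (T.c0 k hk).2
  have hτ := T.t2 k hk
  have hj := T.jq hk
  have hpw := T.pw hk
  have hyΩ : y ∈ Ω := G.part1.sub q hq hy
  have h1 := G.Nb_mg hk hz
  obtain ⟨h2, h3⟩ := T.back hk hyΩ (c := 3 - c₀ k) (by linarith) h1
  have h4 := G.in_box hk hq hy h2
  refine ⟨h4, fun x hx => ?_⟩
  have h5 : ‖x - y‖ ≤ 1 / 2 ^ k₁ k / 2 ^ n k := (dist_dyc hx hy).trans (size_le h4.2.1)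
  have hp : (0:ℝ) < 2 ^ n k := by positivity
  have h6 : ‖x - ctr v k.1 k.2‖ ≤ 1 / 2 / 2 ^ k.1 - (3 - c₀ k - τ k - 1 / 2 ^ k₁ k) / 2 ^ n k := by
    calc ‖x - ctr v k.1 k.2‖ = ‖(x - y) + (y - ctr v k.1 k.2)‖ := by congr 1; abel
      _ ≤ ‖x - y‖ + ‖y - ctr v k.1 k.2‖ := norm_add_le _ _
      _ ≤ 1 / 2 ^ k₁ k / 2 ^ n k + (1 / 2 / 2 ^ k.1 - (3 - c₀ k - τ k) / 2 ^ n k) := by linarith
      _ = _ := by ring
  have h7 := T.close k hk x (h4.1 hx)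
  refine ⟨h5, h6.trans ?_, ?_⟩
  · have : (2:ℝ) / 2 ^ n k ≤ (3 - c₀ k - τ k - 1 / 2 ^ k₁ k) / 2 ^ n k := by
      gcongr
      linarith
    linarith
  · have : (3:ℝ) / 2 / 2 ^ n k ≤ (3 - c₀ k - τ k - 1 / 2 ^ k₁ k - τ k) / 2 ^ n k := by
      gcongr
      linarith
    calc ‖afi (L k) (b k) (h x) - ctr v k.1 k.2‖ =
          ‖(afi (L k) (b k) (h x) - x) + (x - ctr v k.1 k.2)‖ := by congr 1; abel
      _ ≤ ‖afi (L k) (b k) (h x) - x‖ + ‖x - ctr v k.1 k.2‖ := norm_add_le _ _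
      _ ≤ τ k / 2 ^ n k + (1 / 2 / 2 ^ k.1 - (3 - c₀ k - τ k - 1 / 2 ^ k₁ k) / 2 ^ n k) := by
        linarith
      _ = 1 / 2 / 2 ^ k.1 - (3 - c₀ k - τ k - 1 / 2 ^ k₁ k - τ k) / 2 ^ n k := by ring
      _ ≤ _ := by linarith

end BlkG

end Vale.Agent.P073.H803
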