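import Vale.Agent.P073.H803.Blk7
import Vale.Agent.P073.H622.BlkM

/-!
# P073, block B09, [LEN0]: the lengths of `h₀` on the minimal edges of the partition of Round 1
-/

namespace Vale.Agent.P073.H803

open MeasureTheory Set Filter Topology Metric Vale.Agent.P073.St
open Vale.Agent.P073.SQ (ev)
open Vale.Agent.P073.AB Vale.Agent.P073.AB.P86 Vale.Agent.P073.AB.S308
open Vale.Agent.P073.H73 (Mesh MinEdge segP onSeg ctr)
open Vale.Agent.P073.H687
open Vale.Agent.P073.H696 (Boxes am blk blkS solid deep part1 Dom IsNear HF)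
open Vale.Agent.P073.H622 (NetB own_of_pow)
open _root_.P073 (ConHomeo)
open _root_.P073.Net (dyc dyo len)
open scoped ENNReal

variable {Ω Λ : Set V} {v : V} {I K : Set Idx} {n N N' k₁ k₀ : Idx → ℕ} {p ε M₀ : ℝ} {c : ℝ≥0∞}
  {τ φ κ μ : V → ℝ} {s : V → ℕ} {f : V → V} {F : V → Mat} {nn : ℕ → ℕ} {x : Idx → V}
  {C : Idx → ℝ} {σ : V → ℝ} {δ : Idx × Fin 3 → ℝ} {h : ConHomeo Ω Λ}

theorem eInt_cl_le (v : V) (e : Idx × Fin 3) (F : V → Mat) :
    eInt v e (fun y => ENNReal.ofReal ‖cl (F y) (ev e.2)‖) ≤ eInt v e (fun y => ‖cl (F y)‖ₑ) := by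
  refine S293.eInt_mono v e fun y => ?_
  rw [← ofReal_norm (cl (F y))]
  exact ENNReal.ofReal_le_ofReal (H622.clapply_le _ _)

/-- from `W^{1,1}`-closeness to the length, general form -/
theorem lineDeriv_le {v : V} {e : Idx × Fin 3} (rat : RatGood v Ω f F) (he : edge v e ⊆ Ω)
    (h : V → V) {a : ℝ≥0∞}
    (h1 : eInt v e (fun y => ENNReal.ofReal ‖lineDeriv ℝ h y (ev e.2) - cl (F y) (ev e.2)‖) ≤ a) :
    eInt v e (fun y => ENNReal.ofReal ‖lineDeriv ℝ h y (ev e.2)‖) ≤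
      a + eInt v e (fun y => ENNReal.ofReal ‖cl (F y) (ev e.2)‖) := by
  have h3 : eInt v e (fun y => ENNReal.ofReal ‖lineDeriv ℝ h y (ev e.2)‖) ≤
      eInt v e (fun y => ENNReal.ofReal ‖lineDeriv ℝ h y (ev e.2) - cl (F y) (ev e.2)‖ +
        ENNReal.ofReal ‖cl (F y) (ev e.2)‖) := by
    refine H333.eInt_mono' v e fun y => ?_
    rw [← ENNReal.ofReal_add (norm_nonneg _) (norm_nonneg _)]
    exact ENNReal.ofReal_le_ofReal (norm_le_norm_sub_add _ _)
  refine h3.trans ?_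
  rw [S293.eInt_add]
  · gcongr
  · have := S293.aemeas_pow rat he 0 1 1
    simpa using this

/-- from `W^{1,1}`-closeness to the affine map -/
theorem lineDeriv_le_aff {v : V} {e : Idx × Fin 3} (rat : RatGood v Ω f F) (he : edge v e ⊆ Ω)
    (h : V → V) (L : V →L[ℝ] V) {a b : ℝ} (ha : 0 ≤ a) (hb : 0 ≤ b)
    (h1 : eInt v e (fun y => ENNReal.ofReal ‖lineDeriv ℝ h y (ev e.2) - cl (F y) (ev e.2)‖) ≤
      ENNReal.ofReal a)
    (h2 : eInt v e (fun y => ENNReal.ofReal ‖cl (F y) (ev e.2) - L (ev e.2)‖) ≤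
      ENNReal.ofReal b) :
    eInt v e (fun y => ENNReal.ofReal ‖lineDeriv ℝ h y (ev e.2)‖) ≤
      ENNReal.ofReal (a + b + ‖L‖ / 2 ^ e.1.1) := by
  have h3 := H333.eInt_tri rat he h (L (ev e.2)) ha hb h1 h2
  have h4 : eInt v e (fun y => ENNReal.ofReal ‖lineDeriv ℝ h y (ev e.2)‖) ≤
      eInt v e (fun y => ENNReal.ofReal ‖lineDeriv ℝ h y (ev e.2) - L (ev e.2)‖ +
        ENNReal.ofReal ‖L‖) := by
    refine H333.eInt_mono' v e fun y => ?_
    rw [← ENNReal.ofReal_add (norm_nonneg _) (norm_nonneg _)]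
    refine ENNReal.ofReal_le_ofReal ((norm_le_norm_sub_add _ (L (ev e.2))).trans ?_)
    gcongr
    exact H622.clapply_le L e.2
  refine h4.trans ?_
  rw [S293.eInt_add _ _ _ _ aemeasurable_const, S293.eInt_const,
    ← ENNReal.ofReal_mul (by positivity), ENNReal.ofReal_add (by positivity) (by positivity)]
  refine add_le_add h3 (ENNReal.ofReal_le_ofReal (le_of_eq ?_))
  ring

/-- the constant of the edges in the cells of the box `k` -/
noncomputable def Cb (C : Idx → ℝ) (F : V → Mat) (x : Idx → V) (k : Idx) : ℝ :=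
  2 * (C k + ‖cl (F (x k))‖ + 2)

theorem Cb_pos {k : Idx} (hC : 0 < C k) : 0 < Cb C F x k := by
  have := norm_nonneg (cl (F (x k)))
  unfold Cb
  linarith

/-- a dyadic edge which touches a cell, of generation `N k`, is an edge of the partition -/
theorem pedge_of_touch (G : BlkG Ω v I K n N N' k₁ fun k => blk k (n k)) {k : Idx} (hk : k ∈ K)
    {z : Fin 3 → ℤ} (hz : z ∈ blk k (n k)) {e : Idx × Fin 3} (he : e.1.1 = N k)
    (hne : (edge v e ∩ dyc v (n k) z).Nonempty) : ∃ q ∈ I, EdgeOf e q := by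
  obtain ⟨y, hy, hyz⟩ := hne
  have hE : EdgeOf e e.1 := ⟨rfl, rfl, fun j _ => Or.inl rfl⟩
  refine ⟨e.1, ?_, hE⟩
  have h1 := G.near k hk z hz e.1.2 ⟨y, by
    rw [← he]; exact Gr.edge_subset_dyc hE hy, hyz⟩
  rw [← he] at h1
  exact h1

/-- an edge which meets the interior of a box `B` lies in it -/
theorem sub_boxB {m k₁ : ℕ} {z : Fin 3 → ℤ} {e : Idx × Fin 3} (he : m + k₁ ≤ e.1.1) {y : V}
    (hy : y ∈ edge v e) (hyz : y ∈ interior (boxB v m k₁ z)) : edge v e ⊆ boxB v m k₁ z := by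
  obtain ⟨d, hd⟩ := Nat.exists_eq_add_of_le he
  rw [boxB_eq, ← gbox_refine v (m + k₁) d] at hyz ⊢
  rw [interior_gbox] at hyz
  exact H333.edge_sub_gbox (by omega) hy hyz

section block

variable (hp : 1 ≤ p) (B : Boxes p ε M₀ c τ φ κ μ s Ω Λ f F v nn K x)
  (NB : NetB v I K x n k₁ k₀ C f F Ω σ δ h.toFun)
  (G : BlkG Ω v I K n N N' k₁ fun k => blk k (n k))
  (hN : ∀ k ∈ K, N k = k.1 + s (x k)) (hN' : ∀ k ∈ K, N k = n k + k₁ k + k₀ k)
  (hκ : ∀ k ∈ K, κ (x k) ≤ 1) (hC : ∀ k ∈ K, 0 < C k)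
  (hδ : ∀ e, 0 ≤ δ e) (hδN : ∀ k ∈ K, ∀ e : Idx × Fin 3, e.1.1 = N k → edge v e ⊆ dyc v k.1 k.2 →
    δ e ≤ 1 / 2 ^ e.1.1)

include B NB G hN hκ hp hδ hδN

/-- the edges of generation `N k` in the box `k` -/
theorem len_N {k : Idx} (hk : k ∈ K) {e : Idx × Fin 3} (he : e.1.1 = N k)
    (hsub : edge v e ⊆ dyc v k.1 k.2) (hI : ∃ q ∈ I, EdgeOf e q)
    (hd : ∀ k ∈ K, ∀ z ∈ blk k (n k), Disjoint (edge v e) (interior (boxB v (n k) (k₁ k) z))) :
    eInt v e (fun y => ENNReal.ofReal ‖lineDeriv ℝ h.toFun y (ev e.2)‖) ≤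
      ENNReal.ofReal ((‖cl (F (x k))‖ + 2) / 2 ^ e.1.1) := by
  have h1 := (NB.edges e hI hd).2
  have h2 := own_of_pow hp (L := cl (F (x k))) (κ' := 1) zero_le_one
    (by rw [Real.one_rpow]; exact hκ k hk) (B.own k hk e (by rw [he, hN k hk]) hsub)
  have h3 := lineDeriv_le_aff B.rat (hsub.trans (G.box k hk)) h.toFun (cl (F (x k))) (hδ e)
    (by positivity) h1 h2
  refine h3.trans (ENNReal.ofReal_le_ofReal ?_)
  have h4 := hδN k hk e he hsub
  calc δ e + 1 / 2 ^ e.1.1 + ‖cl (F (x k))‖ / 2 ^ e.1.1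
      ≤ 1 / 2 ^ e.1.1 + 1 / 2 ^ e.1.1 + ‖cl (F (x k))‖ / 2 ^ e.1.1 := by gcongr
    _ = _ := by ring

include hN' hC

/-- the edges of generation `n k + k₁ k` in a cell -/
theorem len_cell {k : Idx} (hk : k ∈ K) {z : Fin 3 → ℤ} (hz : z ∈ blk k (n k)) {e : Idx × Fin 3}
    (he : e.1.1 = n k + k₁ k) (hsub : edge v e ⊆ dyc v (n k) z) :
    eInt v e (fun y => ENNReal.ofReal ‖lineDeriv ℝ h.toFun y (ev e.2)‖) ≤
      ENNReal.ofReal ((C k + ‖cl (F (x k))‖ + 2) / 2 ^ e.1.1) := by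
  have hin := G.inn k hk z hz
  have hbox : dyc v (n k) z ⊆ dyc v k.1 k.2 := hin.trans dyo_sub_dyc
  by_cases hm : ∃ y ∈ edge v e, y ∈ interior (boxB v (n k) (k₁ k) z)
  · obtain ⟨y, hy, hyz⟩ := hm
    refine (NB.gap k hk z hz e he (sub_boxB he.ge hy hyz)).trans (ENNReal.ofReal_le_ofReal ?_)
    rw [he]
    have := norm_nonneg (cl (F (x k)))
    gcongr
    linarith
  · push Not at hm
    have h1 : eInt v e (fun y => ENNReal.ofReal ‖lineDeriv ℝ h.toFun y (ev e.2)‖) ≤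
        ENNReal.ofReal ((‖cl (F (x k))‖ + 2) / 2 ^ e.1.1) := by
      refine H333.len_le_sub v e (k₀ k) _ fun j hj => ?_
      have h2 : edge v (subEdge e (k₀ k) j) ⊆ edge v e := subEdge_sub hj
      have h3 : (subEdge e (k₀ k) j).1.1 = N k := by
        show e.1.1 + k₀ k = N k
        rw [he, hN' k hk]
      have h4 : ∃ q ∈ I, EdgeOf (subEdge e (k₀ k) j) q := by
        obtain ⟨y, hy⟩ := Gr.edge_nonempty v (subEdge e (k₀ k) j)
        exact pedge_of_touch G hk hz h3 ⟨y, hy, hsub (h2 hy)⟩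
      have h5 := len_N hp B NB G hN hκ hδ hδN hk h3 (h2.trans (hsub.trans hbox)) h4
        fun k' hk' z' hz' => by
          rw [disjoint_left]
          intro y hy hy'
          have h6 := hsub (h2 hy)
          have h7 : y ∈ dyc v (n k') z' := boxB_sub_dyc z' (interior_subset hy')
          have h8 := G.toBlkD.ne_of_mem hk hk' hz hz' h6 h7
          subst h8
          have h9 : z = z' := by
            by_contra hne
            exact hne (eq_of_dyo (boxB_sub_dyo z' (interior_subset hy')) h6).symm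
          subst h9
          exact hm y (h2 hy) hy'
      have h6 : (subEdge e (k₀ k) j).1.1 = e.1.1 + k₀ k := rfl
      rw [h6] at h5
      exact h5
    refine h1.trans (ENNReal.ofReal_le_ofReal ?_)
    have := hC k hk
    gcongr
    linarith

omit hN hκ hp hδ hδN hN' hC B NB in
/-- an edge of a cube outside of the cells misses the boxes `B` -/
theorem disj_box {q : Idx} (hq : q ∈ outI v K n (fun k => blk k (n k)) I) {e : Idx × Fin 3}
    (he : edge v e ⊆ dyc v q.1 q.2) :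
    ∀ k ∈ K, ∀ z ∈ blk k (n k), Disjoint (edge v e) (interior (boxB v (n k) (k₁ k) z)) := by
  intro k hk z hz
  rw [disjoint_left]
  intro y hy hy'
  exact hq.2 k hk z hz (G.sub_cell hk hz hq.1 (he hy) (boxB_sub_dyo z (interior_subset hy')))

/-- **(a)** the minimal edges in the cells -/
theorem len_in_cell {e : Idx × Fin 3} (he : MinEdge v (part1 v K n k₁ I) e) {k : Idx} (hk : k ∈ K)
    {z : Fin 3 → ℤ} (hz : z ∈ blk k (n k)) (hsub : edge v e ⊆ dyc v (n k) z) :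
    len (onSeg h.toFun (segP v e)) (Icc 0 1) ≤ ENNReal.ofReal (Cb C F x k / 2 ^ e.1.1) := by
  have hbox : dyc v (n k) z ⊆ dyc v k.1 k.2 := (G.inn k hk z hz).trans dyo_sub_dyc
  refine (len_onSeg_le h ((hsub.trans hbox).trans (G.box k hk))).trans ?_
  have e2 : (2:ℝ≥0∞) = ENNReal.ofReal 2 := by simp
  have key : ∀ a : ℝ, a ≤ C k + ‖cl (F (x k))‖ + 2 →
      (2:ℝ≥0∞) * ENNReal.ofReal (a / 2 ^ e.1.1) ≤ ENNReal.ofReal (Cb C F x k / 2 ^ e.1.1) := by
    intro a ha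
    rw [e2, ← ENNReal.ofReal_mul (by norm_num)]
    apply ENNReal.ofReal_le_ofReal
    unfold Cb
    rw [← mul_div_assoc]
    gcongr
  by_cases hg : e.1.1 = n k + k₁ k
  · refine le_trans ?_ (key _ le_rfl)
    gcongr
    exact len_cell hp B NB G hN hN' hκ hC hδ hδN hk hz hg hsub
  · obtain ⟨q, hq, hE⟩ := he.1
    have hne : (dyc v q.1 q.2 ∩ dyc v (n k) z).Nonempty := by
      obtain ⟨y, hy⟩ := Gr.edge_nonempty v e
      exact ⟨y, Gr.edge_subset_dyc hE hy, hsub hy⟩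
    rcases G.touch1 hk hz hq hne with h1 | h1
    · exact absurd (hE.1.trans h1.1) hg
    · refine le_trans ?_ (key (‖cl (F (x k))‖ + 2) (by linarith [hC k hk]))
      gcongr
      exact len_N hp B NB G hN hκ hδ hδN hk (hE.1.trans h1.1) (hsub.trans hbox) ⟨q, h1.2.1, hE⟩
        (disj_box G h1.2 (Gr.edge_subset_dyc hE))

omit hN' in
/-- **(b)** the edges of generation `N k` in the box `k` -/
theorem len_gen_N {e : Idx × Fin 3} {q : Idx} (hq : q ∈ outI v K n (fun k => blk k (n k)) I)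
    (hE : EdgeOf e q) {k : Idx} (hk : k ∈ K) (hg : e.1.1 = N k)
    (hsub : edge v e ⊆ dyc v k.1 k.2) :
    len (onSeg h.toFun (segP v e)) (Icc 0 1) ≤ ENNReal.ofReal (Cb C F x k / 2 ^ e.1.1) := by
  refine (len_onSeg_le h (hsub.trans (G.box k hk))).trans ?_
  have e2 : (2:ℝ≥0∞) = ENNReal.ofReal 2 := by simp
  calc 2 * eInt v e (fun y => ENNReal.ofReal ‖lineDeriv ℝ h.toFun y (ev e.2)‖)
      ≤ 2 * ENNReal.ofReal ((‖cl (F (x k))‖ + 2) / 2 ^ e.1.1) := by
        gcongr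
        exact len_N hp B NB G hN hκ hδ hδN hk hg hsub ⟨q, hq.1, hE⟩
          (disj_box G hq (Gr.edge_subset_dyc hE))
    _ = ENNReal.ofReal (2 * ((‖cl (F (x k))‖ + 2) / 2 ^ e.1.1)) := by
        rw [e2, ← ENNReal.ofReal_mul (by norm_num)]
    _ ≤ _ := by
        apply ENNReal.ofReal_le_ofReal
        unfold Cb
        rw [← mul_div_assoc]
        have := hC k hk
        gcongr
        linarith

omit hN hκ hp hδ hδN hN' hC in
/-- **(c)** the minimal edges outside of the cells -/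
theorem len_out {e : Idx × Fin 3} {q : Idx} (hq : q ∈ outI v K n (fun k => blk k (n k)) I)
    (hE : EdgeOf e q) :
    len (onSeg h.toFun (segP v e)) (Icc 0 1) ≤
      2 * (ENNReal.ofReal (δ e) + eInt v e (fun y => ‖cl (F y)‖ₑ)) := by
  have hsub : edge v e ⊆ Ω := (Gr.edge_subset_dyc hE).trans (G.part.sub q hq.1)
  refine (len_onSeg_le h hsub).trans ?_
  gcongr
  refine (lineDeriv_le B.rat hsub h.toFun (NB.edges e ⟨q, hq.1, hE⟩
    (disj_box G hq (Gr.edge_subset_dyc hE))).2).trans ?_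
  gcongr
  exact eInt_cl_le v e F

omit hN hκ hp hδ hδN hN' hC B NB G in
/-- a minimal edge of the partition of Round 1 is in a cell or is an edge of a cube outside -/
theorem min_cases {e : Idx × Fin 3} (he : MinEdge v (part1 v K n k₁ I) e) :
    (∃ k ∈ K, ∃ z ∈ blk k (n k), edge v e ⊆ dyc v (n k) z) ∨
      ∃ q ∈ outI v K n (fun k => blk k (n k)) I, EdgeOf e q := by
  obtain ⟨q, hq, hE⟩ := he.1
  rcases hq with hq | ⟨k, hk, -, z, hz, hs⟩
  · exact Or.inr ⟨q, hq, hE⟩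
  · exact Or.inl ⟨k, hk, z, hz, (Gr.edge_subset_dyc hE).trans hs⟩

end block

/-- the energy from the length, first form -/
theorem pow_of_len {e : Idx × Fin 3} {ℓ : ℝ≥0∞} (hp : 1 ≤ p) {a : ℝ} (ha : 0 ≤ a)
    (h : ℓ ≤ ENNReal.ofReal (a / 2 ^ e.1.1)) :
    ENNReal.ofReal ((1 / 2 ^ e.1.1) ^ (1 - p)) * ℓ ^ p ≤ ENNReal.ofReal (a ^ p / 2 ^ e.1.1) := by
  have hr : (0:ℝ) < 1 / 2 ^ e.1.1 := by positivity
  calc ENNReal.ofReal ((1 / 2 ^ e.1.1) ^ (1 - p)) * ℓ ^ p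
      ≤ ENNReal.ofReal ((1 / 2 ^ e.1.1) ^ (1 - p)) * ENNReal.ofReal (a / 2 ^ e.1.1) ^ p := by
        gcongr
    _ = ENNReal.ofReal ((1 / 2 ^ e.1.1) ^ (1 - p) * (a / 2 ^ e.1.1) ^ p) := by
        rw [ENNReal.ofReal_rpow_of_nonneg (by positivity) (by linarith),
          ← ENNReal.ofReal_mul (by positivity)]
    _ = ENNReal.ofReal (a ^ p / 2 ^ e.1.1) := by
        congr 1
        have e1 : (a / 2 ^ e.1.1 : ℝ) ^ p = a ^ p * (1 / 2 ^ e.1.1) ^ p := by
          rw [← Real.mul_rpow ha hr.le]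
          congr 1
          ring
        have e2 : (1 / 2 ^ e.1.1 : ℝ) ^ (1 - p) * (1 / 2 ^ e.1.1) ^ p = 1 / 2 ^ e.1.1 := by
          rw [← Real.rpow_add hr]
          simp
        rw [e1]
        calc (1 / 2 ^ e.1.1 : ℝ) ^ (1 - p) * (a ^ p * (1 / 2 ^ e.1.1) ^ p)
            = a ^ p * ((1 / 2 ^ e.1.1 : ℝ) ^ (1 - p) * (1 / 2 ^ e.1.1) ^ p) := by ring
          _ = _ := by rw [e2]; ring

/-- the energy from the length, second form -/
theorem pow_of_len' {v : V} {e : Idx × Fin 3} {ℓ : ℝ≥0∞} (hp : 1 ≤ p) {g : V → ℝ≥0∞} {t : ℝ}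
    (h : ℓ ≤ 2 * (ENNReal.ofReal t + eInt v e g)) :
    ENNReal.ofReal ((1 / 2 ^ e.1.1) ^ (1 - p)) * ℓ ^ p ≤
      4 ^ p * (eInt v e (fun y => g y ^ p) +
        ENNReal.ofReal ((1 / 2 ^ e.1.1) ^ (1 - p)) * ENNReal.ofReal t ^ p) := by
  have hp0 : 0 ≤ p := by linarith
  have h1 : ℓ ^ p ≤ 4 ^ p * (ENNReal.ofReal t ^ p + eInt v e g ^ p) := by
    calc ℓ ^ p ≤ (2 * (ENNReal.ofReal t + eInt v e g)) ^ p := by gcongr
      _ = 2 ^ p * (ENNReal.ofReal t + eInt v e g) ^ p := ENNReal.mul_rpow_of_nonneg _ _ hp0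
      _ ≤ 2 ^ p * (2 ^ (p - 1) * (ENNReal.ofReal t ^ p + eInt v e g ^ p)) := by
          gcongr
          exact ENNReal.rpow_add_le_mul_rpow_add_rpow _ _ hp
      _ ≤ 2 ^ p * (2 ^ p * (ENNReal.ofReal t ^ p + eInt v e g ^ p)) := by
          gcongr
          · norm_num
          · linarith
      _ = _ := by
          rw [← mul_assoc, ← ENNReal.mul_rpow_of_nonneg _ _ hp0]
          norm_num
  calc ENNReal.ofReal ((1 / 2 ^ e.1.1) ^ (1 - p)) * ℓ ^ p
      ≤ ENNReal.ofReal ((1 / 2 ^ e.1.1) ^ (1 - p)) *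
        (4 ^ p * (ENNReal.ofReal t ^ p + eInt v e g ^ p)) := by gcongr
    _ = 4 ^ p * (ENNReal.ofReal ((1 / 2 ^ e.1.1) ^ (1 - p)) * eInt v e g ^ p +
        ENNReal.ofReal ((1 / 2 ^ e.1.1) ^ (1 - p)) * ENNReal.ofReal t ^ p) := by ring
    _ ≤ _ := by
        gcongr
        exact term_le hp v e g le_rfl

end Vale.Agent.P073.H803
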