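import Vale.Agent.P073.H803.Blk7
import Vale.Agent.P073.H803.Len0
import Vale.Agent.P073.H622.BlkM
import Vale.Agent.P073.H304.St1Sol
import Vale.Agent.P073.H234.ChainDef

/-!
# P073, block B09, [ST1]: the data of Round 1

`RD`: everything which is known after Round 1 (the homeomorphism `h` before Round 1, the blocks,
the output `h₁` of Round 1, the link), with tolerances `δ` (edges, for `h`) and `εs` (squares, for
`h₁`); `exists_rd`: existence for all tolerances.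
-/

namespace Vale.Agent.P073.H803

open MeasureTheory Set Filter Topology Metric Vale.Agent.P073.St
open Vale.Agent.P073.SQ (ev)
open Vale.Agent.P073.AB Vale.Agent.P073.AB.P86 Vale.Agent.P073.AB.S308
open Vale.Agent.P073.H73 (Mesh MinEdge segP onSeg ctr)
open Vale.Agent.P073.H687
open Vale.Agent.P073.H304 (af afi Blocks Link Zn R1Out K3C round1_all)
open Vale.Agent.P073.H622 (NetB thF kF CF κF LF bF af_LF exists_h0M CF_pos thF_pos κF_pos)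
open Vale.Agent.P073.H696 (Boxes HF am blk blkS solid deep part1 Dom IsNear)
open Vale.Agent.P073.H726 (LBOn)
open _root_.P073 (ConHomeo)
open _root_.P073.Net (dyc dyo len)
open scoped ENNReal

/-- The data of Round 1. `x`: centres of the boxes; `n`: generations of the cells; `k₁`: offsets of
the cubes in the cells; `c₀`: widths of the zones; `τ`: relative distance of `h` to the affine map;
`rσ`: bound for the distance of `h` and `f` outside of the cells. -/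
structure RD (p D : ℝ) (J : ℝ → ℕ) (Δ Mg : ℝ → ℝ) (Ω Λ : Set V) (f : V → V) (F : V → Mat) (v : V)
    (I K : Set Idx) (x : Idx → V) (n N N' : Idx → ℕ) (k₁ : V → ℕ) (c₀ τ rσ : V → ℝ)
    (δ εs : Idx × Fin 3 → ℝ) where
  /-- the partition -/
  G : BlkG Ω v I K n N N' (fun k => k₁ (x k)) fun k => blk k (n k)
  /-- the homeomorphism before Round 1 -/
  h : ConHomeo Ω Λ
  σ : V → ℝ
  σc : ContinuousOn σ Ω
  σ0 : ∀ y ∈ Ω, 0 < σ y ∧ σ y ≤ rσ y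
  σk : ∀ k ∈ K, ∀ y ∈ dyc v k.1 k.2, σ y ≤ thF F (x k) * τ (x k) / 2 / 2 ^ n k
  NB : NetB v I K x n (fun k => k₁ (x k)) (fun k => kF F k₁ (x k)) (fun k => CF F (x k)) f F Ω σ δ
    h.toFun
  /-- its metric properties -/
  T : BlkM Ω Λ v K n (fun k => k₁ (x k)) (fun k => blk k (n k)) f h.toFun (fun k => LF F (x k))
    (fun k => bF f F (x k)) (fun k => c₀ (x k)) (fun k => τ (x k)) J Δ
  /-- the tolerances of `K3C` -/
  ε : (G.mg1 T).mesh.κ → ℝ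
  ε0 : ∀ k, 0 < ε k
  ε2 : ∀ k s, (G.mg1 T).mesh.F k = squ v s → 2 * ε k = εs s
  /-- Round 1 -/
  h₁ : ConHomeo Ω Λ
  g : ∀ k, ConHomeo Ω (af ((G.blocks T).L k) ((G.blocks T).b k) ⁻¹' Λ)
  out : R1Out p D Mg (G.blocks T) ε h₁ g
  link : Link (G.blocks T) f F K x n N' (fun k => c₀ (x k)) (part1 v K n (fun k => k₁ (x k)) I)
    (G.mg1 T).U (fun k => k.1)

variable {p D : ℝ} {J : ℝ → ℕ} {Δ Mg : ℝ → ℝ} {Ω Λ : Set V} {f : V → V} {F : V → Mat} {v : V}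
  {I K : Set Idx} {x : Idx → V} {n N N' : Idx → ℕ} {k₁ : V → ℕ} {c₀ τ rσ : V → ℝ}
  {δ εs : Idx × Fin 3 → ℝ}

/-- the conclusion of `round1_all` -/
def R1All (p D : ℝ) (J : ℝ → ℕ) (Δ Mg : ℝ → ℝ) : Prop :=
  (∀ c₀, 0 < c₀ → c₀ ≤ 1 / 64 → 1 / 2 ^ J c₀ < c₀ ∧ 0 < Δ c₀ ∧ 0 < Mg c₀ ∧ Mg c₀ ≤ c₀) ∧
    ∀ (Ω Λ : Set V), St.IsBoundedDomain Ω → St.IsBoundedDomain Λ →
    ∀ (v : V) (M : Mesh Ω) (h : ConHomeo Ω Λ) (𝓑 : Blocks Λ J Δ v M h.toFun) (ε : M.κ → ℝ),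
      (∀ k, 0 < ε k) → ∃ h₁ g, R1Out p D Mg 𝓑 ε h₁ g

theorem exists_r1All (hK : K3C p) : ∃ (D : ℝ) (J : ℝ → ℕ) (Δ Mg : ℝ → ℝ), 0 < D ∧
    R1All p D J Δ Mg := by
  obtain ⟨D, J, Δ, Mg, h1, h2, h3⟩ := round1_all hK
  exact ⟨D, J, Δ, Mg, h1, h2, h3⟩

/-! ### The numbers at a point -/

/-- The numbers of Round 1 at the point `y`: `κ` is a bound for the closeness. -/
structure RN (p : ℝ) (J : ℝ → ℕ) (Δ : ℝ → ℝ) (F : V → Mat) (a k₁ : V → ℕ) (c₀ τ κ : V → ℝ)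
    (y : V) : Prop where
  k3 : 3 ≤ k₁ y
  J1 : 1 ≤ J (c₀ y) ∧ J (c₀ y) + 2 ≤ k₁ y
  c0 : 0 < c₀ y ∧ c₀ y ≤ 1 / 64
  kc : 1 / 2 ^ k₁ y ≤ c₀ y
  τ0 : 0 < τ y
  t1 : 2 * τ y + 1 / 2 ^ k₁ y ≤ Δ (c₀ y)
  t2 : τ y ≤ 1 / 2 / 2 ^ J (c₀ y)
  C1 : CF F y / 2 ^ k₁ y ≤ thF F y * τ y
  κ0 : 0 < κ y
  κ1 : κ y ≤ 1 / 2 ^ a y
  κF : κ y ≤ κF p F k₁ y
  κτ : κ y ≤ thF F y * τ y / 2

/-- **the numbers**; `τ₁`, `κ₁`: extra bounds -/
theorem exists_rn {J : ℝ → ℕ} {Δ : ℝ → ℝ} (F : V → Mat) {c₀ : V → ℝ}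
    (hc₀ : ∀ y, 0 < c₀ y ∧ c₀ y ≤ 1 / 64)
    (hJ : ∀ c₀, 0 < c₀ → c₀ ≤ 1 / 64 → 1 / 2 ^ J c₀ < c₀ ∧ 0 < Δ c₀) (a : V → ℕ) {τ₁ : V → ℝ}
    (hτ₁ : ∀ y, 0 < τ₁ y) (κ₁ : V → ℕ → ℝ → ℝ) (hκ₁ : ∀ y k t, 0 < t → 0 < κ₁ y k t) (p : ℝ) :
    ∃ (k₁ : V → ℕ) (τ κ : V → ℝ), ∀ y, RN p J Δ F a k₁ c₀ τ κ y ∧ τ y ≤ τ₁ y ∧
      κ y ≤ κ₁ y (k₁ y) (τ y) := by
  -- `τ` and `k₁`
  have h1 : ∀ y, ∃ (k : ℕ) (t : ℝ), 3 ≤ k ∧ (1 ≤ J (c₀ y) ∧ J (c₀ y) + 2 ≤ k) ∧ 0 < t ∧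
      2 * t + 1 / 2 ^ k ≤ Δ (c₀ y) ∧ t ≤ 1 / 2 / 2 ^ J (c₀ y) ∧ CF F y / 2 ^ k ≤ thF F y * t ∧
      t ≤ τ₁ y := by
    intro y
    obtain ⟨h1, h2⟩ := hJ (c₀ y) (hc₀ y).1 (hc₀ y).2
    have hJ1 : 1 ≤ J (c₀ y) := by
      by_contra hcon
      have h3 : J (c₀ y) = 0 := by omega
      rw [h3] at h1
      have := (hc₀ y).2
      norm_num at h1
      linarith
    set t := min (min (Δ (c₀ y) / 4) (1 / 2 / 2 ^ J (c₀ y))) (τ₁ y) with ht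
    have ht0 : 0 < t := lt_min (lt_min (by linarith) (by positivity)) (hτ₁ y)
    have hlim : Tendsto (fun k : ℕ => (1 / 2 : ℝ) ^ k) atTop (𝓝 0) :=
      tendsto_pow_atTop_nhds_zero_of_lt_one (by norm_num) (by norm_num)
    have hth := thF_pos F y
    have hCF := CF_pos F y
    have e1 : ∀ᶠ k : ℕ in atTop, (1 / 2 : ℝ) ^ k < Δ (c₀ y) / 2 :=
      hlim.eventually (gt_mem_nhds (by linarith))
    have e2 : ∀ᶠ k : ℕ in atTop, (1 / 2 : ℝ) ^ k < thF F y * t / CF F y :=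
      hlim.eventually (gt_mem_nhds (by positivity))
    obtain ⟨k, h3, h4, h5, h6⟩ :=
      (e1.and (e2.and ((eventually_ge_atTop 3).and (eventually_ge_atTop (J (c₀ y) + 2))))).exists
    have e3 : (1 / 2 : ℝ) ^ k = 1 / 2 ^ k := by rw [one_div_pow]
    rw [e3] at h3 h4
    refine ⟨k, t, h5, ⟨hJ1, h6⟩, ht0, ?_, (min_le_left _ _).trans (min_le_right _ _), ?_,
      min_le_right _ _⟩
    · have : t ≤ Δ (c₀ y) / 4 := (min_le_left _ _).trans (min_le_left _ _)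
      linarith
    · rw [lt_div_iff₀ hCF] at h4
      have e4 : CF F y / 2 ^ k = 1 / 2 ^ k * CF F y := by ring
      rw [e4]
      exact h4.le
  choose k₁ τ h1 using h1
  refine ⟨k₁, τ, fun y => min (min (1 / 2 ^ a y) (κF p F k₁ y))
    (min (thF F y * τ y / 2) (κ₁ y (k₁ y) (τ y))), fun y => ?_⟩
  obtain ⟨a1, a2, a3, a4, a5, a6, a7⟩ := h1 y
  have hth := thF_pos F y
  refine ⟨⟨a1, a2, hc₀ y, ?_, a3, a4, a5, a6, ?_, ?_, ?_, ?_⟩, a7, ?_⟩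
  · have h2 := (hJ (c₀ y) (hc₀ y).1 (hc₀ y).2).1
    refine le_trans ?_ h2.le
    exact one_div_le_one_div_of_le (by positivity) (pow_le_pow_right₀ (by norm_num) (by omega))
  · exact lt_min (lt_min (by positivity) (κF_pos _ _ _ _)) (lt_min (by positivity)
      (hκ₁ _ _ _ a3))
  · exact (min_le_left _ _).trans (min_le_left _ _)
  · exact (min_le_left _ _).trans (min_le_right _ _)
  · exact (min_le_right _ _).trans (min_le_left _ _)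
  · exact (min_le_right _ _).trans (min_le_right _ _)

/-! ### Existence -/

/-- **the data of Round 1 exist**, for all tolerances -/
theorem exists_rd (hp : 1 ≤ p) (hR : R1All p D J Δ Mg) (hΩ : St.IsBoundedDomain Ω)
    (hΛ : St.IsBoundedDomain Λ) (hf : St.IsHomeo Ω Λ f) {a : V → ℕ} (ha : ∀ y, 4 ≤ a y)
    {κ₀ : V → ℝ} (hN : ∀ y, RN p J Δ F a k₁ c₀ τ κ₀ y) {κ μ : V → ℝ}
    (hκ : ∀ y, 0 < κ y ∧ κ y ≤ κ₀ y) {ε M₀ : ℝ} {c : ℝ≥0∞} {τ' φ : V → ℝ} {nn : ℕ → ℕ}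
    {s : V → ℕ} (hs : ∀ y, s y = a y + k₁ y + kF F k₁ y)
    (B : Boxes p ε M₀ c τ' φ κ μ s Ω Λ f F v nn K x) {r : V → ℝ} {εD : ℝ≥0∞}
    {tolD : Idx → ℝ≥0∞}
    (Dm : Dom Ω v (HF p Ω F) K (fun k => k.1 + a (x k)) (fun k => k.1 + s (x k)) r εD tolD I N')
    {rσ : V → ℝ} (hr : LBOn Ω rσ) (hδ : ∀ e, 0 < δ e) (hεs : ∀ s, 0 < εs s) :
    Nonempty (RD p D J Δ Mg Ω Λ f F v I K x (fun k => k.1 + a (x k)) (fun k => k.1 + s (x k)) N'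
      k₁ c₀ τ rσ δ εs) := by
  have ha' : ∀ k : Idx, k.1 < k.1 + a (x k) := fun k => by have := ha (x k); omega
  have hNn : ∀ k ∈ K, k.1 + s (x k) = k.1 + a (x k) + k₁ (x k) + kF F k₁ (x k) :=
    fun k _ => by rw [hs]; omega
  have hG : BlkG Ω v I K (fun k => k.1 + a (x k)) (fun k => k.1 + s (x k)) N'
      (fun k => k₁ (x k)) (fun k => blk k (k.1 + a (x k))) :=
    blkG_of_dom (n := fun k => k.1 + a (x k)) hΩ.1 Dm
      (fun k hk => ⟨(B.pt k hk).2.1, (ha' k).le⟩) B.disj B.fin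
      (fun k hk => ⟨by have := (hN (x k)).k3; omega, by rw [hNn k hk]; omega⟩)
  obtain ⟨σ, h, hσc, hσ0, hσk, NB, T⟩ := exists_h0M (τ := fun k => τ (x k))
    (c₀ := fun k => c₀ (x k)) (L := fun k => LF F (x k)) (b := fun k => bF f F (x k))
    (n := fun k => k.1 + a (x k)) (J := J) (Δ := Δ) hp hΩ hΛ hf B
    hG.part Dm.near k₁ (fun k _ => (hN (x k)).k3) (fun k _ => ha' k) (fun k _ => rfl) hNn
    (fun k _ => (hκ _).2.trans (hN (x k)).κF) (fun k hk y => af_LF (B.pt k hk).2.2.1 y)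
    (fun k _ => by
      show κ (x k) / 2 ^ k.1 ≤ 1 / 2 ^ (k.1 + a (x k))
      calc κ (x k) / 2 ^ k.1 ≤ 1 / 2 ^ a (x k) / 2 ^ k.1 := by
            gcongr
            exact (hκ _).2.trans (hN (x k)).κ1
        _ = _ := by rw [pow_add]; ring)
    (fun k _ => (hN (x k)).C1)
    (fun k _ => by
      show κ (x k) / 2 ^ (k.1 + s (x k)) ≤ thF F (x k) * τ (x k) / 2 / 2 ^ (k.1 + a (x k))
      have h2 := (hκ (x k)).2.trans (hN (x k)).κτ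
      have h3 := (hκ (x k)).1
      calc κ (x k) / 2 ^ (k.1 + s (x k)) ≤ κ (x k) / 2 ^ (k.1 + a (x k)) := by
            refine div_le_div_of_nonneg_left h3.le (by positivity) ?_
            refine pow_le_pow_right₀ (by norm_num) ?_
            rw [hs]
            omega
        _ ≤ _ := by gcongr)
    (fun k _ => (hN (x k)).J1) (fun k _ => (hN (x k)).c0) (fun k _ => (hN (x k)).t1)
    (fun k _ => (hN (x k)).t2) hr hδ
  have lk := fun (G : BlkG Ω v I K (fun k => k.1 + a (x k)) (fun k => k.1 + s (x k)) N'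
      (fun k => k₁ (x k)) (fun k => blk k (k.1 + a (x k)))) =>
    G.link T (x := x) (F := F) fun k hk y => af_LF (B.pt k hk).2.2.1 y
  obtain ⟨ε', hε1, hε2⟩ := (lk hG).dy.exists_tol hεs
  obtain ⟨h₁, g, hg⟩ := hR.2 Ω Λ hΩ hΛ v (hG.mg1 T).mesh h (hG.blocks T) ε' hε1
  exact ⟨⟨hG, h, σ, hσc, hσ0, hσk, NB, T, ε', hε1, hε2, h₁, g, hg, lk hG⟩⟩

end Vale.Agent.P073.H803
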