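import Vale.Agent.P073.H687.MinSum
import Vale.Agent.P073.H193.Class
import Vale.Agent.P073.H304.SpecB

/-!
# P073, branch B, [MESH-B]: meshes with dyadic cells and the dyadic dictionary of `K3C`

`DyM M v I U`: the faces of the mesh `M` are the minimal squares of the partition `I` which lie in
a cube of `U ⊆ I`; the cubes of `U` are cells of `M`.
-/

namespace Vale.Agent.P073.H803

open MeasureTheory Set Filter Topology Metric Vale.Agent.P073.St
open Vale.Agent.P073.SQ (ev)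
open Vale.Agent.P073.AB Vale.Agent.P073.AB.P86
open Vale.Agent.P073.H73 (Mesh MinEdge segP onSeg)
open Vale.Agent.P073.H687
open Vale.Agent.P073.H304 (IsEdge)
open _root_.P073.Net (dyc dyo len)
open scoped ENNReal

variable {Ω : Set V} {v : V} {I U : Set Idx}

/-- `M` is the mesh of the partition `I`, where the cubes which are not in `U` may be merged. -/
structure DyM (M : Mesh Ω) (v : V) (I U : Set Idx) : Prop where
  opn : IsOpen Ω
  part : Part Ω v I
  sub : U ⊆ I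
  /-- the cubes of `U` are cells -/
  tile : ∀ q ∈ U, ∃ i, M.Q i = dyc v q.1 q.2
  /-- the faces are minimal squares -/
  face : ∀ k, ∃ s, MinSq v I s ∧ M.F k = squ v s ∧ ∃ q ∈ U, squ v s ⊆ dyc v q.1 q.2
  /-- the minimal squares in cubes of `U` are faces -/
  squ : ∀ s, MinSq v I s → (∃ q ∈ U, squ v s ⊆ dyc v q.1 q.2) → ∃ k, M.F k = AB.squ v s
  /-- adjacent to a cube of `U` the merged cubes have the same generation -/
  near : ∀ q ∈ I, q ∉ U → ∀ q' ∈ U, (dyc v q.1 q.2 ∩ dyc v q'.1 q'.2).Nonempty → q.1 = q'.1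

/-- three points on a segment -/
theorem exists_param {a b y c d : V} (ha : a ∈ segment ℝ c d) (hb : b ∈ segment ℝ c d)
    (hy : y ∈ segment ℝ c d) (hab : a ≠ b) : ∃ t : ℝ, y = a + t • (b - a) := by
  rw [segment_eq_image'] at ha hb hy
  obtain ⟨α, -, rfl⟩ := ha
  obtain ⟨β, -, rfl⟩ := hb
  obtain ⟨η, -, rfl⟩ := hy
  have hne : β - α ≠ 0 := by
    intro h
    apply hab
    have : β = α := by linarith
    rw [this]
  refine ⟨(η - α) / (β - α), ?_⟩
  have e1 : c + β • (d - c) - (c + α • (d - c)) = (β - α) • (d - c) := by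
    rw [sub_smul]; abel
  simp only
  rw [e1, smul_smul, div_mul_cancel₀ _ hne, sub_smul]
  abel

/-- the end points of a dyadic edge -/
theorem segP_snd (v : V) (e : Idx × Fin 3) :
    (segP v e).2 - (segP v e).1 = (1 / 2 ^ e.1.1 : ℝ) • ev e.2 := by
  simp [segP]

theorem mid_mem_openSegment (v : V) (e : Idx × Fin 3) :
    Gr.mid v e ∈ openSegment ℝ (segP v e).1 (segP v e).2 := by
  obtain ⟨h1, h2, h3⟩ := Gr.mid_spec v e
  have h4 : Gr.mid v e ∈ segment ℝ (segP v e).1 (segP v e).2 := h1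
  have hp : (0:ℝ) < 1 / 2 ^ e.1.1 := by positivity
  rw [← insert_endpoints_openSegment] at h4
  rcases h4 with h4 | h4 | h4
  · exfalso
    rw [h4] at h2
    exact lt_irrefl _ h2
  · exfalso
    have h4' : Gr.mid v e = pt v e.1.1 e.1.2 + (1 / 2 ^ e.1.1 : ℝ) • ev e.2 := h4
    rw [h4'] at h3
    simp only [pt, ev, Pi.add_apply, Pi.smul_apply, Pi.single_eq_same, smul_eq_mul, mul_one] at h3
    rw [add_div] at h3
    linarith
  · exact h4

/-- the middle of a nondegenerate subsegment is an inner point -/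
theorem mem_openSegment_of_sub {a b c d x : V} (hsub : segment ℝ a b ⊆ segment ℝ c d)
    (hx : x ∈ openSegment ℝ a b) (hab : a ≠ b) : x ∈ openSegment ℝ c d := by
  have hxs : x ∈ segment ℝ c d := hsub (openSegment_subset_segment ℝ _ _ hx)
  have ha := hsub (left_mem_segment ℝ a b)
  have hb := hsub (right_mem_segment ℝ a b)
  rw [segment_eq_image'] at ha hb
  obtain ⟨α, hα, rfl⟩ := ha
  obtain ⟨β, hβ, rfl⟩ := hb
  rw [openSegment_eq_image'] at hx ⊢
  obtain ⟨t, ht, rfl⟩ := hx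
  have hne : α ≠ β := by rintro rfl; exact hab rfl
  refine ⟨α + t * (β - α), ⟨?_, ?_⟩, ?_⟩
  · rcases lt_or_gt_of_ne hne with h | h
    · nlinarith [hα.1, ht.1]
    · nlinarith [hβ.1, ht.1, ht.2]
  · rcases lt_or_gt_of_ne hne with h | h
    · nlinarith [hβ.2, ht.1, ht.2]
    · nlinarith [hα.2, ht.1]
  · simp only
    have e1 : c + β • (d - c) - (c + α • (d - c)) = (β - α) • (d - c) := by
      rw [sub_smul]; abel
    rw [e1, smul_smul, add_smul]
    abel

/-- a minimal square which contains an inner point of a minimal edge contains the edge -/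
theorem edge_sub_squ (hΩ : IsOpen Ω) (hI : Part Ω v I) {s e : Idx × Fin 3} (hs : MinSq v I s)
    (he : MinEdge v I e) {x : V} (hx : x ∈ openSegment ℝ (segP v e).1 (segP v e).2)
    (hxs : x ∈ squ v s) : edge v e ⊆ squ v s := by
  obtain ⟨qp, qm, h2⟩ := two_of_minSq hΩ hI hs
  obtain ⟨g1, g2, g3⟩ := inner_of_openSegment hx
  rw [← inter_eq hI hs h2]
  exact subset_inter
    (edge_sub_of_inner he h2.memp g1 g2 g3 (h2.subp (squ_sub_hi hxs)))
    (edge_sub_of_inner he h2.memm g1 g2 g3 (h2.subm (squ_sub_lo hxs)))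

/-- a minimal edge in a minimal square is in its relative boundary -/
theorem edge_not_rel (hΩ : IsOpen Ω) (hI : Part Ω v I) {s e : Idx × Fin 3} (hs : MinSq v I s)
    (he : MinEdge v I e) (hes : edge v e ⊆ squ v s) {x : V} (hx : x ∈ edge v e) :
    x ∉ rel v s := by
  obtain ⟨E, hE, hsub⟩ := minEdge_sub hΩ hI hs he hes
  intro hr
  have h1 := Gr.mem_edge.1 (hsub hx)
  obtain ⟨j, hj1, hj2⟩ := fin3_third E.2 s.2 hE.2.1
  have h2 := h1.1 j hj2
  have h3 := hr.2 j hj1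
  rw [hE.1] at h2
  rcases hE.2.2.2.2 j hj2 hj1 with h4 | h4
  · rw [h2, h4] at h3
    exact lt_irrefl _ h3.1
  · rw [h2, h4] at h3
    push_cast at h3
    exact lt_irrefl _ h3.2

theorem pow_le_of_div {m n : ℕ} (h : (1:ℝ) / 2 ^ m ≤ 1 / 2 ^ n) : n ≤ m := by
  by_contra hlt
  rw [not_le] at hlt
  have : (1:ℝ) / 2 ^ n < 1 / 2 ^ m := by
    apply one_div_lt_one_div_of_lt (by positivity)
    exact pow_lt_pow_right₀ (by norm_num) hlt
  linarith

theorem dir_of_edge {s e : Idx × Fin 3} (h : edge v e ⊆ squ v s) : e.2 ≠ s.2 := by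
  intro hd
  have h3 := (h (left_mem_segment ℝ _ _)).1
  have h4 := (h (right_mem_segment ℝ _ _)).1
  rw [← hd] at h3 h4
  simp only [Pi.add_apply, Pi.smul_apply, ev, Pi.single_eq_same, smul_eq_mul, mul_one] at h4
  have : (0:ℝ) < 1 / 2 ^ e.1.1 := by positivity
  linarith

theorem edge_range {s e : Idx × Fin 3} (h : edge v e ⊆ squ v s) :
    v e.2 + (s.1.2 e.2 : ℝ) / 2 ^ s.1.1 ≤ v e.2 + e.1.2 e.2 / 2 ^ e.1.1 ∧
      v e.2 + ((e.1.2 e.2 : ℝ) + 1) / 2 ^ e.1.1 ≤ v e.2 + (s.1.2 e.2 + 1) / 2 ^ s.1.1 := by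
  have hd := dir_of_edge h
  have h3 := ((h (left_mem_segment ℝ _ _)).2 _ hd).1
  have h4 := ((h (right_mem_segment ℝ _ _)).2 _ hd).2
  simp only [pt, Pi.add_apply, Pi.smul_apply, ev, Pi.single_eq_same, smul_eq_mul, mul_one] at h3 h4
  refine ⟨h3, ?_⟩
  rw [add_div (e.1.2 e.2 : ℝ)]
  linarith

theorem gen_le_of_edge {s e : Idx × Fin 3} (h : edge v e ⊆ squ v s) : s.1.1 ≤ e.1.1 := by
  obtain ⟨h1, h2⟩ := edge_range h
  rw [add_div, add_div] at h2
  exact pow_le_of_div (by linarith)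

theorem gen_le_of_squ {s : Idx × Fin 3} {q : Idx} (h : squ v s ⊆ dyc v q.1 q.2) :
    q.1 ≤ s.1.1 := by
  obtain ⟨j, hj, -⟩ := fin3_third (s.2 + 1) s.2 (H194.fin3_ne1 s.2).symm
  have h1 := (H193.squ_dyc_ineq h).2 j hj
  have h2 := h1.2
  rw [add_div, add_div] at h2
  exact pow_le_of_div (by linarith [h1.1])

namespace DyM

variable {M : Mesh Ω}

theorem edge_prop (D : DyM M v I U) {e : Idx × Fin 3} (he : MinEdge v I e) (l : M.κ)
    (h : (M.F l ∩ openSegment ℝ (segP v e).1 (segP v e).2).Nonempty) :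
    segment ℝ (segP v e).1 (segP v e).2 ⊆ M.F l := by
  obtain ⟨x, hxl, hxe⟩ := h
  obtain ⟨s, hs, hF, -⟩ := D.face l
  rw [hF] at hxl ⊢
  exact edge_sub_squ D.opn D.part hs he hxe hxl

/-- **(D3)** the minimal edges are adapted -/
theorem adapted (D : DyM M v I U) {s : Idx × Fin 3} (hs : MinSq v I s) {k : M.κ}
    (hk : M.F k = AB.squ v s) : H73.Adapted M k (edges D.part hs) where
  ne := by
    intro e he
    obtain ⟨e', -, rfl⟩ := (mem_edges D.part hs).1 he
    exact segP_ne v e'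
  sub := by
    intro e he
    obtain ⟨e', ⟨-, h2⟩, rfl⟩ := (mem_edges D.part hs).1 he
    rw [segment_segP]
    exact h2.trans hk.ge
  cover := by
    rw [hk, intrinsicFrontier_squ]
    rintro x ⟨hx, hxr⟩
    obtain ⟨e, h1, h2, h3⟩ := exists_minEdge D.opn D.part hs hx hxr
    exact mem_iUnion₂.2 ⟨segP v e, (mem_edges D.part hs).2 ⟨e, ⟨h1, h2⟩, rfl⟩, h3⟩
  edge := by
    intro e he l hl
    obtain ⟨e', ⟨h1, -⟩, rfl⟩ := (mem_edges D.part hs).1 he
    exact D.edge_prop h1 l hl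

/-- a minimal edge in a cube of `U` is an edge of a cube of `U` -/
theorem exists_edgeOf (D : DyM M v I U) {e : Idx × Fin 3} (he : MinEdge v I e) {q : Idx}
    (hq : q ∈ U) (hsub : edge v e ⊆ dyc v q.1 q.2) : ∃ q' ∈ U, q'.1 = e.1.1 ∧
      edge v e ⊆ dyc v q'.1 q'.2 ∧ Gr.mid v e ∉ dyo v q'.1 q'.2 := by
  obtain ⟨q₀, hq₀, hf⟩ := he.1
  have hmid := (Gr.mid_spec v e).1
  have hsub₀ := Gr.edge_subset_dyc (v := v) hf
  have hno₀ : Gr.mid v e ∉ dyo v q₀.1 q₀.2 := by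
    intro h
    have h1 := h (e.2 + 1)
    have h2 := (Gr.mem_edge.1 hmid).1 (e.2 + 1) (H194.fin3_ne1 e.2).symm
    rw [hf.1] at h2
    rcases hf.2.2 (e.2 + 1) (H194.fin3_ne1 e.2).symm with h3 | h3
    · rw [h2, h3] at h1
      exact lt_irrefl _ h1.1
    · rw [h2, h3] at h1
      push_cast at h1
      exact lt_irrefl _ h1.2
  by_cases hU : q₀ ∈ U
  · exact ⟨q₀, hU, hf.1.symm, hsub₀, hno₀⟩
  · refine ⟨q, hq, ?_, hsub, ?_⟩
    · rw [hf.1]
      exact (D.near q₀ hq₀ hU q hq ⟨_, hsub₀ hmid, hsub hmid⟩).symm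
    · intro h
      exact hU ((eq_of_mem D.part (D.sub hq) hq₀ h (hsub₀ hmid)) ▸ hq)

/-- a face with full side -/
theorem exists_full (D : DyM M v I U) {e : Idx × Fin 3} (he : MinEdge v I e) {q : Idx}
    (hq : q ∈ U) (hsub : edge v e ⊆ dyc v q.1 q.2) : ∃ s, MinSq v I s ∧ s.1.1 = e.1.1 ∧
      edge v e ⊆ AB.squ v s ∧ ∃ q' ∈ U, AB.squ v s ⊆ dyc v q'.1 q'.2 := by
  obtain ⟨q', hq', hg, hsub', hno⟩ := D.exists_edgeOf he hq hsub
  have hmid := (Gr.mid_spec v e).1
  obtain ⟨l, hl⟩ : ∃ l, Gr.mid v e l = v l + q'.2 l / 2 ^ q'.1 ∨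
      Gr.mid v e l = v l + (q'.2 l + 1) / 2 ^ q'.1 := by
    by_contra hcon
    push Not at hcon
    exact hno fun l => ⟨lt_of_le_of_ne (hsub' hmid l).1 (hcon l).1.symm,
      lt_of_le_of_ne (hsub' hmid l).2 (hcon l).2⟩
  obtain ⟨s, hs, h1, h2⟩ := bd_cover D.opn D.part (D.sub hq') (hsub' hmid) hl
  have h3 := edge_sub_squ D.opn D.part hs he (mid_mem_openSegment v e) h1
  refine ⟨s, hs, le_antisymm (gen_le_of_edge h3) (hg ▸ gen_le_of_squ h2), h3, q', hq', h2⟩

end DyM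

end Vale.Agent.P073.H803
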