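import Vale.Agent.P073.H803.Dya2

/-!
# P073, branch B, [MESH-B]: partitions with merged cubes
-/

namespace Vale.Agent.P073.H803

open MeasureTheory Set Filter Topology Metric Vale.Agent.P073.St Module
open Vale.Agent.P073.SQ (ev)
open Vale.Agent.P073.AB Vale.Agent.P073.AB.P86
open Vale.Agent.P073.H73 (Mesh MinEdge segP onSeg Fat)
open Vale.Agent.P073.H687
open Vale.Agent.P073.H304 (IsEdge)
open _root_.P073.Net (dyc dyo len)
open scoped ENNReal

variable {Ω : Set V} {v : V} {I : Set Idx}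

/-- the mesh of a partition is dyadic -/
theorem dyM_part (hΩ : IsOpen Ω) (hI : Part Ω v I) : DyM (H194.partMesh hΩ hI) v I I where
  opn := hΩ
  part := hI
  sub := Subset.rfl
  tile := fun q hq => ⟨⟨q, hq⟩, rfl⟩
  face := fun k => by
    obtain ⟨q, hq, hf⟩ := k.2.1
    exact ⟨k.1, k.2, rfl, q, hq, H194.face_sub hf⟩
  squ := fun s hs _ => ⟨⟨s, hs⟩, rfl⟩
  near := fun q hq hn => absurd hq hn

/-- A partition with a family of sets `G b` of cubes which are merged to boxes. -/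
structure Merge (Ω : Set V) (v : V) (I : Set Idx) (β : Type) where
  opn : IsOpen Ω
  part : Part Ω v I
  /-- merged cubes -/
  G : β → Set Idx
  /-- lower corner -/
  lo : β → V
  /-- upper corner -/
  hi : β → V
  sub : ∀ b, G b ⊆ I
  lt : ∀ b k, lo b k < hi b k
  box : ∀ b, (⋃ q ∈ G b, dyc v q.1 q.2) = Icc (lo b) (hi b)
  disj : ∀ b b', b ≠ b' → Disjoint (Icc (lo b) (hi b)) (Icc (lo b') (hi b'))
  near : ∀ b, ∀ q ∈ I, q ∉ G b → ∀ q' ∈ G b, (dyc v q.1 q.2 ∩ dyc v q'.1 q'.2).Nonempty →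
    q.1 = q'.1

namespace Merge

variable {β : Type} (T : Merge Ω v I β)

/-- the cubes which are not merged -/
def U : Set Idx := {q | q ∈ I ∧ ∀ b, q ∉ T.G b}

theorem sub_box {b : β} {q : Idx} (hq : q ∈ T.G b) : dyc v q.1 q.2 ⊆ Icc (T.lo b) (T.hi b) := by
  rw [← T.box b]
  exact subset_iUnion₂ (s := fun q (_ : q ∈ T.G b) => dyc v q.1 q.2) q hq

theorem box_sub (b : β) : Icc (T.lo b) (T.hi b) ⊆ Ω := by
  rw [← T.box b]
  exact iUnion₂_subset fun q hq => T.part.sub q (T.sub b hq)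

theorem exists_mem {b : β} {x : V} (hx : x ∈ Icc (T.lo b) (T.hi b)) :
    ∃ q ∈ T.G b, x ∈ dyc v q.1 q.2 := by
  rw [← T.box b] at hx
  obtain ⟨q, hq, hxq⟩ := mem_iUnion₂.1 hx
  exact ⟨q, hq, hxq⟩

theorem uniq {b b' : β} {q : Idx} (h : q ∈ T.G b) (h' : q ∈ T.G b') : b = b' := by
  by_contra hne
  have hx : cen v q.1 q.2 ∈ dyc v q.1 q.2 := dyo_sub_dyc (cen_mem v _ _)
  exact disjoint_left.1 (T.disj b b' hne) (T.sub_box h hx) (T.sub_box h' hx)

/-- an unmerged or differently merged cube does not meet the interior of the box -/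
theorem dyo_disj {b : β} {q : Idx} (hq : q ∈ I) (hn : q ∉ T.G b) :
    Disjoint (dyo v q.1 q.2) (Icc (T.lo b) (T.hi b)) := by
  rw [disjoint_left]
  intro x hx hx'
  obtain ⟨q', hq', hxq'⟩ := T.exists_mem hx'
  exact hn ((eq_of_mem T.part hq (T.sub b hq') hx hxq') ▸ hq')

theorem poly_Icc {lo hi : V} (h : ∀ k, lo k < hi k) : H73.Poly (Icc lo hi) where
  cpt := isCompact_Icc
  int := by
    rw [← Set.pi_univ_Icc, interior_pi_set finite_univ]
    refine ⟨fun k => (lo k + hi k) / 2, fun k _ => ?_⟩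
    show (lo k + hi k) / 2 ∈ interior (Icc (lo k) (hi k))
    rw [interior_Icc]
    constructor <;> linarith [h k]
  half := by
    obtain ⟨n, ν, t, h1⟩ := H194.box_half lo hi
    refine ⟨n, ν, t, ?_⟩
    rw [← h1]
    ext x
    constructor
    · intro hx
      exact fun k => ⟨hx.1 k, hx.2 k⟩
    · intro hx
      exact ⟨fun k => (hx k).1, fun k => (hx k).2⟩

/-- the tiling by the unmerged cubes and the boxes -/
def tiling : Tiling Ω where
  ι := {q : Idx // q ∈ T.U} ⊕ β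
  Q := Sum.elim (fun q => dyc v q.1.1 q.1.2) fun b => Icc (T.lo b) (T.hi b)
  poly := by
    rintro (q | b)
    · exact H194.poly_dyc v _ _
    · exact poly_Icc (T.lt b)
  sub := by
    rintro (q | b)
    · exact T.part.sub _ q.2.1
    · exact T.box_sub b
  cover := by
    intro x hx
    obtain ⟨q, hq, hxq⟩ := T.part.cover x hx
    by_cases h : ∃ b, q ∈ T.G b
    · obtain ⟨b, hb⟩ := h
      exact ⟨Sum.inr b, T.sub_box hb hxq⟩
    · push Not at h
      exact ⟨Sum.inl ⟨q, hq, h⟩, hxq⟩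
  disj := by
    rintro (q | b) (q' | b') hne
    · show Disjoint (interior (dyc v q.1.1 q.1.2)) (dyc v q'.1.1 q'.1.2)
      rw [H194.interior_dyc]
      exact T.part.disj _ q.2.1 _ q'.2.1 fun h => hne (by rw [Subtype.ext h])
    · show Disjoint (interior (dyc v q.1.1 q.1.2)) (Icc (T.lo b') (T.hi b'))
      rw [H194.interior_dyc]
      exact T.dyo_disj q.2.1 (q.2.2 b')
    · show Disjoint (interior (Icc (T.lo b) (T.hi b))) (dyc v q'.1.1 q'.1.2)
      rw [disjoint_left]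
      intro x hx hx'
      have h1 : x ∈ closure (dyo v q'.1.1 q'.1.2) := by
        rw [← H194.interior_dyc, (H194.poly_dyc v q'.1.1 q'.1.2).closure_interior]
        exact hx'
      obtain ⟨y, hy, hyq⟩ := mem_closure_iff_nhds.1 h1 _ (isOpen_interior.mem_nhds hx)
      exact disjoint_left.1 (T.dyo_disj q'.2.1 (q'.2.2 b)) hyq (interior_subset hy)
    · exact (T.disj b b' fun h => hne (by rw [h])).mono_left interior_subset
  fin := by
    intro K hK hKc
    have h := T.part.fin K hK hKc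
    have h1 : ∀ b ∈ {b : β | (Icc (T.lo b) (T.hi b) ∩ K).Nonempty}, ∃ q ∈ T.G b,
        q ∈ {q | q ∈ I ∧ (dyc v q.1 q.2 ∩ K).Nonempty} := by
      rintro b ⟨x, hx, hxK⟩
      obtain ⟨q, hq, hxq⟩ := T.exists_mem hx
      exact ⟨q, hq, T.sub b hq, x, hxq, hxK⟩
    choose! f hf1 hf2 using h1
    have h2 : {b : β | (Icc (T.lo b) (T.hi b) ∩ K).Nonempty}.Finite := by
      refine Set.Finite.of_finite_image (f := f) (h.subset ?_) ?_
      · rintro _ ⟨b, hb, rfl⟩
        exact hf2 b hb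
      · intro b hb b' hb' he
        exact T.uniq (hf1 b hb) (he ▸ hf1 b' hb')
    have h3 : {q : {q : Idx // q ∈ T.U} | (dyc v q.1.1 q.1.2 ∩ K).Nonempty}.Finite := by
      refine Set.Finite.of_finite_image (f := Subtype.val) (h.subset ?_)
        Subtype.val_injective.injOn
      rintro _ ⟨i, hi, rfl⟩
      exact ⟨i.2.1, hi⟩
    refine ((h3.image Sum.inl).union (h2.image Sum.inr)).subset ?_
    rintro (q | b) hq
    · exact Or.inl ⟨q, hq, rfl⟩
    · exact Or.inr ⟨b, hq, rfl⟩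

/-- the two-dimensional intersection of a cube and a box is the intersection with a cube -/
theorem exists_rect {b : β} {q : Idx} (hq : q ∈ I) (hn : q ∉ T.G b)
    (h2 : H687.Two (dyc v q.1 q.2 ∩ Icc (T.lo b) (T.hi b))) :
    ∃ q' ∈ T.G b, dyc v q.1 q.2 ∩ Icc (T.lo b) (T.hi b) = dyc v q.1 q.2 ∩ dyc v q'.1 q'.2 := by
  have hpos : (0:ℝ) < 1 / 2 ^ q.1 := by positivity
  have hαβ : ∀ j, v j + (q.2 j : ℝ) / 2 ^ q.1 < v j + ((q.2 j : ℝ) + 1) / 2 ^ q.1 := fun j => by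
    rw [add_div (q.2 j : ℝ)]; linarith
  have hlt := T.lt b
  -- a separating coordinate
  obtain ⟨l, hl⟩ : ∃ l, v l + ((q.2 l : ℝ) + 1) / 2 ^ q.1 ≤ T.lo b l ∨
      T.hi b l ≤ v l + (q.2 l : ℝ) / 2 ^ q.1 := by
    by_contra hcon
    push Not at hcon
    have h3 : ∀ l, max (v l + (q.2 l : ℝ) / 2 ^ q.1) (T.lo b l) <
        min (v l + ((q.2 l : ℝ) + 1) / 2 ^ q.1) (T.hi b l) := fun l =>
      max_lt (lt_min (hαβ l) (hcon l).2) (lt_min (hcon l).1 (hlt l))
    have h4 : ∀ l, _ ∧ _ := fun l => ⟨max_lt_iff.1 (left_lt_add_div_two.2 (h3 l)),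
      lt_min_iff.1 (add_div_two_lt_right.2 (h3 l))⟩
    have h6 : (fun l => (max (v l + (q.2 l : ℝ) / 2 ^ q.1) (T.lo b l) +
        min (v l + ((q.2 l : ℝ) + 1) / 2 ^ q.1) (T.hi b l)) / 2 : V) ∈ dyo v q.1 q.2 :=
      fun l => ⟨(h4 l).1.1, (h4 l).2.1⟩
    exact disjoint_left.1 (T.dyo_disj hq hn) h6
      ⟨fun l => (h4 l).1.2.le, fun l => (h4 l).2.2.le⟩
  obtain ⟨x₀, hx₀, hx₀'⟩ := h2.nonempty
  obtain ⟨c, hc⟩ : ∃ c, ∀ x ∈ dyc v q.1 q.2 ∩ Icc (T.lo b) (T.hi b), x l = c := by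
    rcases hl with hl | hl
    · exact ⟨T.lo b l, fun x hx => le_antisymm ((hx.1 l).2.trans hl) (hx.2.1 l)⟩
    · exact ⟨T.hi b l, fun x hx => le_antisymm (hx.2.2 l) (hl.trans (hx.1 l).1)⟩
  have h5 : ∀ j, j ≠ l → max (v j + (q.2 j : ℝ) / 2 ^ q.1) (T.lo b j) <
      min (v j + ((q.2 j : ℝ) + 1) / 2 ^ q.1) (T.hi b j) := by
    intro j hj
    by_contra hcon
    rw [not_lt] at hcon
    refine not_two_of_coords (F := dyc v q.1 q.2 ∩ Icc (T.lo b) (T.hi b)) (j := j) (k := l) hj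
      (a := max (v j + (q.2 j : ℝ) / 2 ^ q.1) (T.lo b j)) (b := c) (fun x hx => ?_) hc h2
    exact le_antisymm ((le_min (hx.1 j).2 (hx.2.2 j)).trans hcon) (max_le (hx.1 j).1 (hx.2.1 j))
  have h4 : ∀ j, j ≠ l → _ ∧ _ := fun j hj => ⟨max_lt_iff.1 (left_lt_add_div_two.2 (h5 j hj)),
    lt_min_iff.1 (add_div_two_lt_right.2 (h5 j hj))⟩
  -- an inner point
  set x : V := fun j => if j = l then c else (max (v j + (q.2 j : ℝ) / 2 ^ q.1) (T.lo b j) +
    min (v j + ((q.2 j : ℝ) + 1) / 2 ^ q.1) (T.hi b j)) / 2 with hx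
  have hcl := hc x₀ ⟨hx₀, hx₀'⟩
  have hxl : x l = c := if_pos rfl
  have hxj : ∀ j, j ≠ l → x j = (max (v j + (q.2 j : ℝ) / 2 ^ q.1) (T.lo b j) +
    min (v j + ((q.2 j : ℝ) + 1) / 2 ^ q.1) (T.hi b j)) / 2 := fun j hj => if_neg hj
  have hxI : x ∈ Icc (T.lo b) (T.hi b) := by
    constructor
    · intro j
      by_cases hj : j = l
      · rw [hj, hxl, ← hcl]; exact hx₀'.1 l
      · rw [hxj j hj]; exact (h4 j hj).1.2.le
    · intro j
      by_cases hj : j = l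
      · rw [hj, hxl, ← hcl]; exact hx₀'.2 l
      · rw [hxj j hj]; exact (h4 j hj).2.2.le
  have hxq : x ∈ dyc v q.1 q.2 := by
    intro j
    by_cases hj : j = l
    · rw [hj, hxl, ← hcl]; exact hx₀ l
    · rw [hxj j hj]; exact ⟨(h4 j hj).1.1.le, (h4 j hj).2.1.le⟩
  obtain ⟨q', hq', hxq'⟩ := T.exists_mem hxI
  have hm := T.near b q hq hn q' hq' ⟨x, hxq, hxq'⟩
  refine ⟨q', hq', Subset.antisymm (fun y hy => ⟨hy.1, fun j => ?_⟩)
    (inter_subset_inter_right _ (T.sub_box hq'))⟩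
  by_cases hj : j = l
  · have h6 := hxq' j
    rw [hj, hxl] at h6
    rw [hj, hc y hy]
    exact h6
  · have h6 := hxq' j
    rw [hxj j hj, ← hm] at h6
    have h7 := (h4 j hj).1.1
    have h8 := (h4 j hj).2.1
    have hp : (0:ℝ) < 2 ^ q.1 := by positivity
    have h9 : (q.2 j : ℝ) < q'.2 j + 1 := by
      have : (q.2 j : ℝ) / 2 ^ q.1 < (q'.2 j + 1) / 2 ^ q.1 := by linarith [h6.2]
      exact (div_lt_div_iff_of_pos_right hp).1 this
    have h10 : (q'.2 j : ℝ) < q.2 j + 1 := by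
      have : (q'.2 j : ℝ) / 2 ^ q.1 < (q.2 j + 1) / 2 ^ q.1 := by linarith [h6.1]
      exact (div_lt_div_iff_of_pos_right hp).1 this
    have h11 : q'.2 j = q.2 j := by
      have h12 : q.2 j < q'.2 j + 1 := by exact_mod_cast h9
      have h13 : q'.2 j < q.2 j + 1 := by exact_mod_cast h10
      omega
    rw [← hm, h11]
    exact hy.1 j

/-- the mesh -/
noncomputable def mesh : Mesh Ω :=
  T.tiling.mesh T.opn _ _ T.tiling.diam_F_pos T.tiling.fat_F

theorem two_of_squ {i j : T.tiling.ι} (hij : i ≠ j) {s : Idx × Fin 3}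
    (h : squ v s ⊆ T.tiling.Q i ∩ T.tiling.Q j) : H687.Two (T.tiling.Q i ∩ T.tiling.Q j) := by
  obtain ⟨f, u, hf, h1, -, h2, -⟩ := T.tiling.sep hij
  have h3 := vectorSpan_le_ker (f := f) (u := u) (F := T.tiling.Q i ∩ T.tiling.Q j)
    fun x hx => le_antisymm (h1 x hx.1) (h2 x hx.2)
  have h4 := Submodule.finrank_mono h3
  rw [finrank_ker hf] at h4
  have h5 := Submodule.finrank_mono (vectorSpan_mono ℝ h)
  have h6 : finrank ℝ (vectorSpan ℝ (squ v s)) = 2 := two_squ v s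
  rw [h6] at h5
  exact le_antisymm h4 h5

theorem face_aux {q : Idx} (hq : q ∈ T.U) {b : β}
    (h2 : H687.Two (dyc v q.1 q.2 ∩ Icc (T.lo b) (T.hi b))) :
    ∃ s, MinSq v I s ∧ dyc v q.1 q.2 ∩ Icc (T.lo b) (T.hi b) = squ v s := by
  obtain ⟨q', hq', he⟩ := T.exists_rect hq.1 (hq.2 b) h2
  rw [he] at h2 ⊢
  exact exists_squ T.part hq.1 (T.sub b hq') (fun h => hq.2 b (h ▸ hq')) h2

/-- **the mesh of a partition with merged cubes is dyadic** -/
theorem dyM : DyM T.mesh v I T.U where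
  opn := T.opn
  part := T.part
  sub := fun q hq => hq.1
  tile := fun q hq => ⟨Sum.inl ⟨q, hq⟩, rfl⟩
  face := by
    rintro ⟨⟨i, j⟩, hw, h2⟩
    have hne : i ≠ j := T.tiling.ne_of_face ⟨⟨i, j⟩, hw, h2⟩
    rcases i with q | b <;> rcases j with q' | b'
    · obtain ⟨s, hs, he⟩ := exists_squ T.part q.2.1 q'.2.1
        (fun h => hne (by rw [Subtype.ext h])) h2
      exact ⟨s, hs, he, q.1, q.2, he ▸ inter_subset_left⟩
    · obtain ⟨s, hs, he⟩ := T.face_aux q.2 h2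
      exact ⟨s, hs, he, q.1, q.2, he ▸ inter_subset_left⟩
    · have h3 : H687.Two (dyc v q'.1.1 q'.1.2 ∩ Icc (T.lo b) (T.hi b)) := by
        rw [inter_comm]; exact h2
      obtain ⟨s, hs, he⟩ := T.face_aux q'.2 h3
      exact ⟨s, hs, (inter_comm _ _).trans he, q'.1, q'.2, he ▸ inter_subset_left⟩
    · exfalso
      obtain ⟨x, hx, hx'⟩ := h2.nonempty
      exact disjoint_left.1 (T.disj b b' fun h => hne (by rw [h])) hx hx'
  squ := by
    rintro s hs ⟨q, hq, hsq⟩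
    obtain ⟨qp, qm, h2⟩ := two_of_minSq T.opn T.part hs
    -- the other cube
    obtain ⟨q', hq', hsq', hne⟩ : ∃ q' ∈ I, AB.squ v s ⊆ dyc v q'.1 q'.2 ∧ q' ≠ q := by
      have h3 := ne_of_two T.part hs h2
      rcases eq_of_squ_sub T.part h2 hq.1 hsq with h | h
      · exact ⟨qm, h2.memm, squ_sub_lo.trans h2.subm, by rw [h]; exact h3.symm⟩
      · exact ⟨qp, h2.memp, squ_sub_hi.trans h2.subp, by rw [h]; exact h3⟩
    by_cases h : ∃ b, q' ∈ T.G b
    · obtain ⟨b, hb⟩ := h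
      have h3 : AB.squ v s ⊆ T.tiling.Q (Sum.inl ⟨q, hq⟩) ∩ T.tiling.Q (Sum.inr b) :=
        subset_inter hsq (hsq'.trans (T.sub_box hb))
      have hij : (Sum.inl ⟨q, hq⟩ : T.tiling.ι) ≠ Sum.inr b := by
        intro h; cases h
      have h4 := T.two_of_squ hij h3
      obtain ⟨k, hk, -⟩ := T.tiling.exists_κ hij h4
      refine ⟨k, hk.trans ?_⟩
      obtain ⟨s', hs', he⟩ := T.face_aux hq h4
      have h5 : T.tiling.Q (Sum.inl ⟨q, hq⟩) ∩ T.tiling.Q (Sum.inr b) = AB.squ v s' := he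
      rw [h5] at h3 ⊢
      rw [sq_disj T.opn T.part hs hs' sc_mem (h3 (rel_sub sc_mem))]
    · push Not at h
      have h3 : AB.squ v s ⊆ T.tiling.Q (Sum.inl ⟨q, hq⟩) ∩ T.tiling.Q (Sum.inl ⟨q', hq', h⟩) :=
        subset_inter hsq hsq'
      have hij : (Sum.inl ⟨q, hq⟩ : T.tiling.ι) ≠ Sum.inl ⟨q', hq', h⟩ := by
        intro h
        exact hne (congrArg Subtype.val (Sum.inl_injective h)).symm
      have h4 := T.two_of_squ hij h3
      obtain ⟨k, hk, -⟩ := T.tiling.exists_κ hij h4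
      refine ⟨k, hk.trans ?_⟩
      obtain ⟨s', hs', he⟩ := exists_squ T.part hq.1 hq' hne.symm h4
      have h5 : T.tiling.Q (Sum.inl ⟨q, hq⟩) ∩ T.tiling.Q (Sum.inl ⟨q', hq', h⟩) =
        AB.squ v s' := he
      rw [h5] at h3 ⊢
      rw [sq_disj T.opn T.part hs hs' sc_mem (h3 (rel_sub sc_mem))]
  near := by
    intro q hq hn q' hq' hne
    have : ∃ b, q ∈ T.G b := by
      by_contra hcon
      push Not at hcon
      exact hn ⟨hq, hcon⟩
    obtain ⟨b, hb⟩ := this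
    rw [inter_comm] at hne
    exact (T.near b q' hq'.1 (hq'.2 b) q hb hne).symm

end Merge

end Vale.Agent.P073.H803
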