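import Vale.Agent.P073.H803.Blk2

/-!
# P073, block B09, [ST1-IN]: geometry of the boxes
-/

namespace Vale.Agent.P073.H803

open MeasureTheory Set Filter Topology Metric Vale.Agent.P073.St
open Vale.Agent.P073.SQ (ev)
open Vale.Agent.P073.AB Vale.Agent.P073.AB.P86 Vale.Agent.P073.AB.S308
open Vale.Agent.P073.H73 (Mesh MinEdge segP onSeg ctr)
open Vale.Agent.P073.H687
open Vale.Agent.P073.H304 (dyc_eq_closedBall)
open _root_.P073.Net (dyc dyo len)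
open scoped ENNReal

variable {Ω : Set V} {v : V} {I K : Set Idx} {n N N' k₁ : Idx → ℕ} {Bk : Idx → Set (Fin 3 → ℤ)}

/-- the union of the block cells of the box `k` -/
def bS (v : V) (n : Idx → ℕ) (Bk : Idx → Set (Fin 3 → ℤ)) (k : Idx) : Set V :=
  ⋃ z ∈ Bk k, dyc v (n k) z

/-- the cubes which touch a block cell -/
def sol (v : V) (K : Set Idx) (n : Idx → ℕ) (Bk : Idx → Set (Fin 3 → ℤ)) (I₁ : Set Idx) :
    Set Idx :=
  {q | q ∈ I₁ ∧ ∃ k ∈ K, (dyc v q.1 q.2 ∩ bS v n Bk k).Nonempty}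

/-- the setting, with the partition outside of the blocks and margins of three cells -/
structure BlkG (Ω : Set V) (v : V) (I K : Set Idx) (n N N' k₁ : Idx → ℕ)
    (Bk : Idx → Set (Fin 3 → ℤ)) : Prop extends BlkD Ω v I K n N k₁ Bk where
  gen : ∀ k ∈ K, N k ≤ N' k
  cmp : ∀ q ∈ I, ∀ k ∈ K, dyc v q.1 q.2 ⊆ dyc v k.1 k.2 ∨ Disjoint (dyo v q.1 q.2) (dyc v k.1 k.2)
  out : ∀ k ∈ K, ∀ q ∈ I, dyc v q.1 q.2 ⊆ dyc v k.1 k.2 →
    (q.1 = N k ∧ (dyc v q.1 q.2 ∩ bS v n Bk k).Nonempty) ∨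
      (q.1 = N' k ∧ Disjoint (dyc v q.1 q.2) (bS v n Bk k))
  mg : ∀ k ∈ K, ∀ z ∈ Bk k, ∀ y ∈ dyc v (n k) z,
    ‖y - ctr v k.1 k.2‖ ≤ 1 / 2 / 2 ^ k.1 - 3 / 2 ^ n k
  k2 : ∀ k ∈ K, 2 ≤ k₁ k

theorem mem_dyo_of_lt {m : ℕ} {z : Fin 3 → ℤ} {y : V} (h : ‖y - ctr v m z‖ < 1 / 2 / 2 ^ m) :
    y ∈ dyo v m z := by
  rw [← _root_.P073.Gauge.C110.interior_dyc, dyc_eq_closedBall]
  exact ball_subset_interior_closedBall (by rwa [mem_ball, dist_eq_norm])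

theorem dist_dyc {m : ℕ} {z : Fin 3 → ℤ} {x y : V} (hx : x ∈ dyc v m z) (hy : y ∈ dyc v m z) :
    ‖x - y‖ ≤ 1 / 2 ^ m := by
  rw [pi_norm_le_iff_of_nonneg (by positivity)]
  intro i
  have h1 := hx i
  have h2 := hy i
  have e : ((z i : ℝ) + 1) / 2 ^ m = z i / 2 ^ m + 1 / 2 ^ m := add_div _ _ _
  rw [Pi.sub_apply, Real.norm_eq_abs, abs_le]
  constructor <;> linarith [h1.1, h1.2, h2.1, h2.2]

theorem exists_dyo_near {m : ℕ} {z : Fin 3 → ℤ} {y : V} (hy : y ∈ dyc v m z) {O : Set V}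
    (hO : O ∈ 𝓝 y) : (dyo v m z ∩ O).Nonempty := by
  have hc : Continuous fun t : ℝ => y + t • (cen v m z - y) := by fun_prop
  have h1 : Tendsto (fun t : ℝ => y + t • (cen v m z - y)) (𝓝[>] 0) (𝓝 y) := by
    have := hc.tendsto 0
    simp only [zero_smul, add_zero] at this
    exact this.mono_left nhdsWithin_le_nhds
  have h2 : ∀ᶠ t : ℝ in 𝓝[>] 0, t ∈ Ioc (0:ℝ) 1 := Ioc_mem_nhdsGT one_pos
  obtain ⟨t, ht, ht'⟩ := ((h1.eventually hO).and h2).exists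
  exact ⟨_, seg_mem hy ht'.1 ht'.2, ht⟩

theorem isOpen_dyo (v : V) (m : ℕ) (z : Fin 3 → ℤ) : IsOpen (dyo v m z) := by
  rw [← _root_.P073.Gauge.C110.interior_dyc]; exact isOpen_interior

/-- distinct boxes -/
theorem BlkD.box_uniq (D : BlkD Ω v I K n N k₁ Bk) {k k' : Idx} (hk : k ∈ K) (hk' : k' ∈ K) {y : V}
    (hy : y ∈ dyo v k.1 k.2) (hy' : y ∈ dyc v k'.1 k'.2) : k = k' := by
  by_contra hne
  obtain ⟨u, h1, h2⟩ := exists_dyo_near hy' ((isOpen_dyo v _ _).mem_nhds hy)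
  exact disjoint_left.1 (D.dis k hk k' hk' hne) h2 h1

namespace BlkG

variable (G : BlkG Ω v I K n N N' k₁ Bk)

include G

/-- (G) the cubes of the partition which have a point in the open box -/
theorem in_box {k : Idx} (hk : k ∈ K) {q : Idx} (hq : q ∈ pt1 v K n k₁ Bk I) {y : V}
    (hy : y ∈ dyc v q.1 q.2) (hyk : y ∈ dyo v k.1 k.2) :
    dyc v q.1 q.2 ⊆ dyc v k.1 k.2 ∧ n k + k₁ k ≤ q.1 ∧ q.1 ≤ N' k := by
  rcases hq with ⟨hq, -⟩ | ⟨k', hk', hg, z', hz', hs'⟩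
  · have h1 : dyc v q.1 q.2 ⊆ dyc v k.1 k.2 := by
      rcases G.cmp q hq k hk with h | h
      · exact h
      · exfalso
        obtain ⟨u, h1, h2⟩ := exists_dyo_near hy ((isOpen_dyo v _ _).mem_nhds hyk)
        exact disjoint_left.1 h h1 (dyo_sub_dyc h2)
    have h2 := G.le k hk
    have h3 := G.gen k hk
    rcases G.out k hk q hq h1 with h | h <;> exact ⟨h1, by omega, by omega⟩
  · have h1 := G.inn k' hk' z' hz' (hs' hy)
    have h2 := G.toBlkD.box_uniq hk hk' hyk (dyo_sub_dyc h1)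
    subst h2
    have h2 := G.le k hk
    have h3 := G.gen k hk
    exact ⟨(hs'.trans (G.inn k hk z' hz')).trans dyo_sub_dyc, by omega, by omega⟩

/-- a cube of the partition which touches a block cell lies in the box, with a margin -/
theorem sol_in {k : Idx} (hk : k ∈ K) {q : Idx} (hq : q ∈ pt1 v K n k₁ Bk I)
    (h : (dyc v q.1 q.2 ∩ bS v n Bk k).Nonempty) :
    (dyc v q.1 q.2 ⊆ dyc v k.1 k.2 ∧ n k + k₁ k ≤ q.1 ∧ q.1 ≤ N' k) ∧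
      ∀ y ∈ dyc v q.1 q.2, ‖y - ctr v k.1 k.2‖ ≤ 1 / 2 / 2 ^ k.1 - 11 / 4 / 2 ^ n k := by
  obtain ⟨x, hx, hxb⟩ := h
  obtain ⟨z, hz, hxz⟩ := mem_iUnion₂.1 hxb
  have h1 := G.in_box hk hq hx (G.inn k hk z hz hxz)
  refine ⟨h1, fun y hy => ?_⟩
  have h2 := dist_dyc hy hx
  have h3 := G.mg k hk z hz x hxz
  have h4 : (1:ℝ) / 2 ^ q.1 ≤ 1 / 4 / 2 ^ n k := by
    have h5 := G.k2 k hk
    have h6 : (2:ℝ) ^ (n k + 2) ≤ 2 ^ q.1 := pow_le_pow_right₀ (by norm_num) (by omega)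
    calc (1:ℝ) / 2 ^ q.1 ≤ 1 / 2 ^ (n k + 2) := one_div_le_one_div_of_le (by positivity) h6
      _ = 1 / 4 / 2 ^ n k := by rw [pow_add]; ring
  calc ‖y - ctr v k.1 k.2‖ = ‖(y - x) + (x - ctr v k.1 k.2)‖ := by congr 1; abel
    _ ≤ ‖y - x‖ + ‖x - ctr v k.1 k.2‖ := norm_add_le _ _
    _ ≤ 1 / 4 / 2 ^ n k + (1 / 2 / 2 ^ k.1 - 3 / 2 ^ n k) := by linarith
    _ = _ := by ring

omit G in
theorem dyo_of_margin {k : Idx} {y : V} {c : ℝ} (hc : 0 < c)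
    (h : ‖y - ctr v k.1 k.2‖ ≤ 1 / 2 / 2 ^ k.1 - c / 2 ^ n k) : y ∈ dyo v k.1 k.2 :=
  mem_dyo_of_lt (by have : (0:ℝ) < c / 2 ^ n k := by positivity
                    linarith)

/-- a cube outside of the solid set in the box has generation `N' k` -/
theorem gen_out {k : Idx} (hk : k ∈ K) {q : Idx} (hq : q ∈ pt1 v K n k₁ Bk I)
    (hns : q ∉ sol v K n Bk (pt1 v K n k₁ Bk I)) (h : dyc v q.1 q.2 ⊆ dyc v k.1 k.2) :
    q.1 = N' k := by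
  rcases hq with hq | ⟨k', hk', hg, z', hz', hs'⟩
  · rcases G.out k hk q hq.1 h with h1 | h1
    · exact absurd ⟨Or.inl hq, k, hk, h1.2⟩ hns
    · exact h1.1
  · exfalso
    refine hns ⟨Or.inr ⟨k', hk', hg, z', hz', hs'⟩, k', hk', ?_⟩
    have hx : cen v q.1 q.2 ∈ dyc v q.1 q.2 := dyo_sub_dyc (cen_mem v _ _)
    exact ⟨_, hx, mem_iUnion₂.2 ⟨z', hz', hs' hx⟩⟩

/-- generations of the minimal edges at an inner point of the box -/
theorem edge_gen {k : Idx} (hk : k ∈ K) {e : Idx × Fin 3}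
    (he : MinEdge v (pt1 v K n k₁ Bk I) e) {y : V} (hy : y ∈ edge v e)
    (hyk : y ∈ dyo v k.1 k.2) : e.1.1 ≤ N' k := by
  obtain ⟨q, hq, hf⟩ := he.1
  rw [hf.1]
  exact (G.in_box hk hq (Gr.edge_subset_dyc hf hy) hyk).2.2

/-- interface squares -/
theorem uni {s : Idx × Fin 3} (_hs : MinSq v (pt1 v K n k₁ Bk I) s)
    (h1 : ∃ q ∈ pt1 v K n k₁ Bk I \ sol v K n Bk (pt1 v K n k₁ Bk I), squ v s ⊆ dyc v q.1 q.2)
    (h2 : ∃ q ∈ sol v K n Bk (pt1 v K n k₁ Bk I), squ v s ⊆ dyc v q.1 q.2) {e : Idx × Fin 3}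
    (he : MinEdge v (pt1 v K n k₁ Bk I) e) (hes : edge v e ⊆ squ v s) : e.1.1 = s.1.1 := by
  obtain ⟨q, ⟨hq, hqn⟩, hsq⟩ := h1
  obtain ⟨q', ⟨hq', k, hk, hne⟩, hsq'⟩ := h2
  obtain ⟨h3, h4⟩ := G.sol_in hk hq' hne
  have hin : ∀ y ∈ squ v s, y ∈ dyo v k.1 k.2 := fun y hy =>
    BlkG.dyo_of_margin (c := 11 / 4) (by norm_num) (h4 y (hsq' hy))
  have hx : sc v s ∈ squ v s := rel_sub sc_mem
  have h5 := G.in_box hk hq (hsq hx) (hin _ hx)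
  have h6 := G.gen_out hk hq hqn h5.1
  have h7 : N' k ≤ s.1.1 := h6 ▸ gen_le_of_squ hsq
  obtain ⟨y, hy⟩ := Gr.edge_nonempty v e
  have h8 := G.edge_gen hk he hy (hin y (hes hy))
  have h9 := gen_le_of_edge hes
  omega

end BlkG

end Vale.Agent.P073.H803
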