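import Vale.Agent.P073.H803.St1Top
import Vale.Agent.P073.H732.St1Close
import Vale.Agent.P073.H73.HSolidRD
import Vale.Agent.P073.H73.DomNN
import Vale.Agent.P073.H490.SmallR
import Vale.Agent.P073.H490.SegB
import Vale.Agent.P073.H304.St1Num

/-!
# P073, block B09, [ST1]: Round 1 in the form of the chain

* `St1C' p GX`: Round 1 for generic origins `GX`;
* `st1C`: `St1C' p GX` from (K3C) and from the homeomorphism before Round 1 with short segments.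
-/

namespace Vale.Agent.P073.H803

open MeasureTheory Set Filter Topology Metric Vale.Agent.P073.St
open Vale.Agent.P073.SQ (ev)
open Vale.Agent.P073.AB Vale.Agent.P073.AB.P86 Vale.Agent.P073.AB.S308
open Vale.Agent.P073.H73 (Mesh MinEdge segP onSeg ctr)
open Vale.Agent.P073.H687
open Vale.Agent.P073.H304 (af afi Blocks Link Zn R1Out K3C round1_all nL elen LipBd)
open Vale.Agent.P073.H622 (NetB thF kF CF κF LF bF af_LF exists_h0M CF_pos thF_pos κF_pos LF_apply)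
open Vale.Agent.P073.H696 (Boxes HF am blk blkS solid deep part1 Dom IsNear St1)
open Vale.Agent.P073.H726 (LBOn)
open Vale.Agent.P073.H732 (μC μC_pos rC lbOn_rC)
open Vale.Agent.P073.H234.Ch (St1C blk4)
open _root_.P073 (ConHomeo)
open _root_.P073.Net (dyc dyo len)
open scoped ENNReal

/-! ### The constants of a point -/

/-- the constant of `sol` -/
noncomputable def E0f (p D : ℝ) (E' : V → ℝ) (F : V → Mat) (y : V) : ℝ :=
  ‖cl (F y)‖ ^ p + nL (LF F y) ^ p * (2 ^ (p - 1) * D *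
    ((2 * nL (LF F y).symm) ^ p * E' y + 1)) + (D * nL (LF F y)) ^ p

section
variable {p D : ℝ} {E' : V → ℝ} {F : V → Mat} (hD : 0 ≤ D) (hE' : ∀ y, 0 ≤ E' y) (y : V)

include hD hE'

theorem E0f_aux : 0 ≤ ‖cl (F y)‖ ^ p ∧ 0 ≤ nL (LF F y) ^ p * (2 ^ (p - 1) * D *
    ((2 * nL (LF F y).symm) ^ p * E' y + 1)) ∧ 0 ≤ (D * nL (LF F y)) ^ p := by
  have h1 : 0 ≤ nL (LF F y) := norm_nonneg _
  have h2 : 0 ≤ nL (LF F y).symm := norm_nonneg _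
  have h3 : 0 ≤ (2 * nL (LF F y).symm) ^ p * E' y :=
    mul_nonneg (Real.rpow_nonneg (by positivity) _) (hE' y)
  exact ⟨by positivity, by positivity, by positivity⟩

theorem E0f_1 : ‖cl (F y)‖ ^ p ≤ E0f p D E' F y := by
  obtain ⟨h1, h2, h3⟩ := E0f_aux (p := p) (F := F) hD hE' y
  unfold E0f
  linarith

theorem E0f_2 : nL (LF F y) ^ p * (2 ^ (p - 1) * D *
    ((2 * nL (LF F y).symm) ^ p * E' y + 1)) ≤ E0f p D E' F y := by
  obtain ⟨h1, h2, h3⟩ := E0f_aux (p := p) (F := F) hD hE' y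
  unfold E0f
  linarith

theorem E0f_3 : (D * nL (LF F y)) ^ p ≤ E0f p D E' F y := by
  obtain ⟨h1, h2, h3⟩ := E0f_aux (p := p) (F := F) hD hE' y
  unfold E0f
  linarith

end

open Classical in
/-- the constants of the cubes -/
noncomputable def Eqf (v : V) (K S : Set Idx) (x : Idx → V) (C₂ : ℝ) (Eb : V → ℝ) (q : Idx) : ℝ :=
  if h : ∃ k ∈ K, dyc v q.1 q.2 ⊆ dyc v k.1 k.2 then
    if q ∈ S then 0 else Eb (x h.choose)
  else C₂

section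
variable {v : V} {K S : Set Idx} {x : Idx → V} {C₂ : ℝ} {Eb : V → ℝ}

theorem Eqf_nonneg (hC : 0 ≤ C₂) (hE : ∀ y, 0 ≤ Eb y) (q : Idx) : 0 ≤ Eqf v K S x C₂ Eb q := by
  unfold Eqf
  split_ifs
  · exact le_rfl
  · exact hE _
  · exact hC

theorem Eqf_out {q : Idx} (h : ∀ k ∈ K, ¬ dyc v q.1 q.2 ⊆ dyc v k.1 k.2) :
    Eqf v K S x C₂ Eb q = C₂ := by
  unfold Eqf
  rw [dif_neg]
  rintro ⟨k, hk, hs⟩
  exact h k hk hs

theorem Eqf_solid {q : Idx} {k : Idx} (hk : k ∈ K) (hs : dyc v q.1 q.2 ⊆ dyc v k.1 k.2)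
    (hq : q ∈ S) : Eqf v K S x C₂ Eb q = 0 := by
  unfold Eqf
  rw [dif_pos ⟨k, hk, hs⟩, if_pos hq]

theorem Eqf_in (hK : ∀ k ∈ K, ∀ k' ∈ K, k ≠ k' → Disjoint (dyo v k.1 k.2) (dyo v k'.1 k'.2))
    {q : Idx} {k : Idx} (hk : k ∈ K) (hs : dyc v q.1 q.2 ⊆ dyc v k.1 k.2)
    (hq : q ∉ S) : Eqf v K S x C₂ Eb q = Eb (x k) := by
  have h : ∃ k ∈ K, dyc v q.1 q.2 ⊆ dyc v k.1 k.2 := ⟨k, hk, hs⟩
  unfold Eqf
  rw [dif_pos h, if_neg hq]
  congr 2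
  exact (H304.box_unique hK hk h.choose_spec.1 hs h.choose_spec.2).symm

open Classical in
theorem Eqf_congr {q : Idx} (hq : q ∉ S) :
    Eqf v K S x C₂ Eb q = Eqf v K ∅ x C₂ Eb q := by
  unfold Eqf
  by_cases h : ∃ k ∈ K, dyc v q.1 q.2 ⊆ dyc v k.1 k.2
  · rw [dif_pos h, dif_pos h, if_neg hq, if_neg (notMem_empty q)]
  · rw [dif_neg h, dif_neg h]

end

theorem blk4_sub {k : Idx} {m : ℕ} : blk4 k m ⊆ blk k m := by
  intro z hz i
  have := hz i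
  constructor <;> linarith [this.1, this.2]

end Vale.Agent.P073.H803

namespace Vale.Agent.P073.H803

open MeasureTheory Set Filter Topology Metric Vale.Agent.P073.St
open Vale.Agent.P073.SQ (ev)
open Vale.Agent.P073.AB Vale.Agent.P073.AB.P86 Vale.Agent.P073.AB.S308
open Vale.Agent.P073.H73 (Mesh MinEdge segP onSeg ctr)
open Vale.Agent.P073.H687
open Vale.Agent.P073.H304 (af afi Blocks Link Zn R1Out K3C round1_all nL elen LipBd)
open Vale.Agent.P073.H622 (NetB thF kF CF κF LF bF af_LF exists_h0M CF_pos thF_pos κF_pos LF_apply)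
open Vale.Agent.P073.H696 (Boxes HF am blk blkS solid deep part1 Dom IsNear St1)
open Vale.Agent.P073.H726 (LBOn)
open Vale.Agent.P073.H732 (μC μC_pos rC lbOn_rC)
open Vale.Agent.P073.H234.Ch (St1C blk4)
open _root_.P073 (ConHomeo)
open _root_.P073.Net (dyc dyo len)
open scoped ENNReal

variable {p D : ℝ} {J : ℝ → ℕ} {Δ Mg : ℝ → ℝ} {Ω Λ : Set V} {f : V → V} {F : V → Mat} {v : V}
  {I K : Set Idx} {x : Idx → V} {n N N' : Idx → ℕ} {k₁ : V → ℕ} {c₀ τ rσ : V → ℝ}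
  {δ εs : Idx × Fin 3 → ℝ}

theorem lint_HF_ne_top {p : ℝ} {Ω : Set V} {f : V → V} {F : V → Mat} (hp : 1 ≤ p)
    (hΩ : St.IsBoundedDomain Ω) (hF : St.IsSobolev p Ω f F) : ∫⁻ y, HF p Ω F y ≠ ⊤ := by
  have e : ∫⁻ y, HF p Ω F y = ∫⁻ y in Ω, ‖cl (F y)‖ₑ ^ p := by
    rw [← lintegral_indicator hΩ.1.measurableSet]
    refine lintegral_congr fun y => ?_
    by_cases hy : y ∈ Ω
    · simp only [HF, indicator_of_mem hy]
    · have h0 : ‖Ω.indicator (fun y => cl (F y)) y‖ₑ = 0 := by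
        rw [indicator_of_notMem hy]
        exact enorm_zero (E := V →L[ℝ] V)
      rw [HF, h0, indicator_of_notMem hy]
      exact ENNReal.zero_rpow_of_pos (by linarith)
  rw [e]
  exact PK.IsSob.lintegral_ne_top hp hF

/-- passive cubes are not drawn cells -/
theorem RD.notMem_Z (X : RD p D J Δ Mg Ω Λ f F v I K x n N N' k₁ c₀ τ rσ δ εs)
    (k : (X.G.blocks X.T).K) {q : Idx} (hq : q ∈ part1 v K n (fun k => k₁ (x k)) I \
      solid v K n (part1 v K n (fun k => k₁ (x k)) I)) :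
    ∀ i ∈ (X.G.blocks X.T).Z k, (X.G.mg1 X.T).mesh.Q i ≠ dyc v q.1 q.2 := by
  rintro i ⟨q', rfl, hne⟩ hQ
  have h1 : (X.G.mg1 X.T).mesh.Q (Sum.inl q') = dyc v q'.1.1 q'.1.2 := X.G.mesh_inl X.T q'
  rw [h1] at hQ
  have h2 : q'.1 = q := by
    by_contra hcon
    have h3 := X.part.disj q'.1 q'.2.1 q hq.1 hcon
    rw [← hQ] at h3
    exact disjoint_left.1 h3 (cen_mem v _ _) (dyo_sub_dyc (cen_mem v _ _))
  refine hq.2 ⟨hq.1, k.1, k.2, ?_⟩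
  rw [← h2]
  exact hne

end Vale.Agent.P073.H803

namespace Vale.Agent.P073.H803

open MeasureTheory Set Filter Topology Metric Vale.Agent.P073.St
open Vale.Agent.P073.SQ (ev)
open Vale.Agent.P073.AB Vale.Agent.P073.AB.P86 Vale.Agent.P073.AB.S308
open Vale.Agent.P073.H73 (Mesh MinEdge segP onSeg ctr)
open Vale.Agent.P073.H687
open Vale.Agent.P073.H304 (af afi Blocks Link Zn R1Out K3C round1_all nL elen LipBd)
open Vale.Agent.P073.H622 (NetB thF kF CF κF LF bF af_LF exists_h0M CF_pos thF_pos κF_pos LF_apply)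
open Vale.Agent.P073.H696 (Boxes HF am blk blkS solid deep part1 Dom IsNear St1)
open Vale.Agent.P073.H726 (LBOn)
open Vale.Agent.P073.H732 (μC μC_pos rC lbOn_rC)
open Vale.Agent.P073.H234.Ch (St1C blk4)
open _root_.P073 (ConHomeo)
open _root_.P073.Net (dyc dyo len)
open scoped ENNReal

variable {p D : ℝ} {J : ℝ → ℕ} {Δ Mg : ℝ → ℝ} {Ω Λ : Set V} {f : V → V} {F : V → Mat} {v : V}
  {I K : Set Idx} {x : Idx → V} {n N N' : Idx → ℕ} {k₁ : V → ℕ} {c₀ τ rσ : V → ℝ}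
  {δ εs : Idx × Fin 3 → ℝ}

/-- `exists_tolS` with an upper bound -/
theorem exists_tolS2 {I : Set Idx} (hI : Part Ω v I) {p : ℝ} (hp : 0 < p) {δ : Idx × Fin 3 → ℝ}
    (hδ : ∀ e, 0 < δ e) (τ' : Idx × Fin 3 → ℝ) (hτ' : ∀ s, 0 < τ' s) :
    ∃ εs : Idx × Fin 3 → ℝ, (∀ s, 0 < εs s ∧ εs s ≤ τ' s) ∧
      (∀ s, MinSq v I s → ∀ e, MinEdge v I e → edge v e ⊆ squ v s → εs s ≤ δ e) ∧
      (∀ q ∈ I, tinyT v I p εs q ≤ volume (dyc v q.1 q.2)) := by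
  classical
  have key : ∀ s : Idx × Fin 3, ∃ d > 0, MinSq v I s → ∀ e, MinEdge v I e →
      edge v e ⊆ squ v s → d ≤ δ e := by
    intro s
    by_cases hs : MinSq v I s
    · obtain ⟨d, hd, h⟩ := exists_le_finite (finite_edges_squ hI hs) δ fun e _ => hδ e
      exact ⟨d, hd, fun _ e he hes => h e ⟨he, hes⟩⟩
    · exact ⟨1, one_pos, fun h => absurd h hs⟩
  choose d hd h1 using key
  have hvol : ∀ q : Idx, volume (dyc v q.1 q.2) = ENNReal.ofReal ((1 / 2 ^ q.1) ^ 3) :=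
    fun q => H687.volume_dyc v q.1 q.2
  obtain ⟨εs, h2, h3⟩ := exists_tiny hI hp (fun q => (1 / 2 ^ q.1) ^ 3)
    (fun q => by positivity) (fun s => min (d s) (τ' s)) fun s => lt_min (hd s) (hτ' s)
  refine ⟨εs, fun s => ⟨(h2 s).1, (h2 s).2.trans (min_le_right _ _)⟩,
    fun s hs e he hes => (((h2 s).2).trans (min_le_left _ _)).trans (h1 s hs e he hes),
    fun q hq => ?_⟩
  rw [hvol]
  exact h3 q hq

/-- the constant of the edges -/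
noncomputable def EBf (p D : ℝ) (F : V → Mat) (y : V) : ℝ :=
  4 ^ p + 2 ^ (p - 1) * ((4 * D * nL (LF F y) * nL (LF F y).symm) ^ p * 4 ^ p + 1)

theorem EBf_1 {p D : ℝ} (hD : 0 ≤ D) (F : V → Mat) (y : V) :
    0 ≤ 2 ^ (p - 1) * ((4 * D * nL (LF F y) * nL (LF F y).symm) ^ p * 4 ^ p + 1) := by
  have h1 : 0 ≤ nL (LF F y) := norm_nonneg _
  have h2 : 0 ≤ nL (LF F y).symm := norm_nonneg _
  have h3 : 0 ≤ (4 * D * nL (LF F y) * nL (LF F y).symm) ^ p :=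
    Real.rpow_nonneg (by positivity) _
  positivity

theorem EBf_2 {p D : ℝ} (hD : 0 ≤ D) (F : V → Mat) (y : V) : (4:ℝ) ^ p ≤ EBf p D F y := by
  have := EBf_1 (p := p) hD F y
  unfold EBf
  linarith

theorem EBf_3 {p D : ℝ} (F : V → Mat) (y : V) :
    2 ^ (p - 1) * ((4 * D * nL (LF F y) * nL (LF F y).symm) ^ p * 4 ^ p + 1) ≤ EBf p D F y := by
  have : (0:ℝ) ≤ 4 ^ p := by positivity
  unfold EBf
  linarith

theorem EBf_nonneg {p D : ℝ} (hD : 0 ≤ D) (F : V → Mat) (y : V) : 0 ≤ EBf p D F y :=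
  (by positivity : (0:ℝ) ≤ 4 ^ p).trans (EBf_2 hD F y)

/-- Round 1 in the form of the chain, for generic origins `GX` -/
def St1C' (p : ℝ) (GX : Set V → (V → V) → (V → Mat) → V → (ℕ → ℕ) → Prop) : Prop :=
  ∃ C₂ : ℝ, 0 < C₂ ∧
  ∀ (Ω Λ : Set V) (f : V → V) (F : V → Mat), St.IsBoundedDomain Ω → St.IsBoundedDomain Λ →
    St.IsHomeo Ω Λ f → St.IsSobolev p Ω f F →
  ∃ E₀ : V → ℝ, (∀ y, ‖cl (F y)‖ ^ p ≤ E₀ y) ∧
  ∀ c₀ : V → ℝ, (∀ y, 0 < c₀ y ∧ c₀ y ≤ 1 / 64) →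
  ∃ Eb : V → ℝ, (∀ y, E₀ y ≤ Eb y) ∧
  ∀ (a : V → ℕ) (ε₁ b : ℝ), (∀ y, 4 ≤ a y) → 0 < ε₁ → 0 < b →
  ∃ (k₁ s : V → ℕ) (κ₀ μ₀ : V → ℝ), (∀ y, 0 < κ₀ y ∧ 0 < μ₀ y ∧ 1 / 2 ^ k₁ y ≤ c₀ y ∧
    2 ≤ k₁ y ∧ a y + k₁ y ≤ s y) ∧
  ∀ (κ μ : V → ℝ), (∀ y, 0 < κ y ∧ κ y ≤ κ₀ y ∧ 0 < μ y ∧ μ y ≤ μ₀ y) →
  ∀ (ε M₀ : ℝ) (c : ℝ≥0∞) (τ φ : V → ℝ) (v : V) (nn : ℕ → ℕ) (K : Set Idx) (x : Idx → V),
    Boxes p ε M₀ c τ φ κ μ s Ω Λ f F v nn K x → GX Ω f F v nn →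
  ∀ δs : V → ℝ, LBOn Ω δs → ∃ r : V → ℝ, LBOn Ω r ∧
  ∀ (εD : ℝ≥0∞) (tolD : Idx → ℝ≥0∞) (I : Set Idx) (N' : Idx → ℕ),
    Dom Ω v (HF p Ω F) K (fun k => k.1 + a (x k)) (fun k => k.1 + s (x k)) r εD tolD I N' →
    (∀ k ∈ K, N' k ∈ range nn) →
    (∀ k ∈ K, tolD k ≤ ENNReal.ofReal ((1 / 2 ^ (k.1 + s (x k))) ^ 3)) →
  ∀ tol : Idx → ℝ≥0∞, (∀ q, tol q ≠ 0) →
  ∃ (Eq : Idx → ℝ) (h₁ : ConHomeo Ω Λ), (∀ q, 0 ≤ Eq q) ∧
    (∀ q, (∀ k ∈ K, ¬ dyc v q.1 q.2 ⊆ dyc v k.1 k.2) → Eq q ≤ C₂) ∧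
    (∀ k ∈ K, ∀ q : Idx, dyc v q.1 q.2 ⊆ dyc v k.1 k.2 → Eq q ≤ Eb (x k)) ∧
    (∀ k ∈ K, ∀ z ∈ blk4 k (k.1 + a (x k)), ∀ q : Idx, q.1 = k.1 + a (x k) + k₁ (x k) →
      dyc v q.1 q.2 ⊆ dyc v (k.1 + a (x k)) z → Eq q ≤ E₀ (x k)) ∧
    St1 p ε₁ Ω Λ f F v (HF p Ω F) K x (fun k => k.1 + a (x k)) (fun k => c₀ (x k))
      (fun k => E₀ (x k)) Eq δs tol
      (part1 v K (fun k => k.1 + a (x k)) (fun k => k₁ (x k)) I)
      (solid v K (fun k => k.1 + a (x k))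
        (part1 v K (fun k => k.1 + a (x k)) (fun k => k₁ (x k)) I)) h₁ ∧
    (∀ y ∈ Ω, (∀ k ∈ K, y ∉ dyc v k.1 k.2) → ‖h₁.toFun y - f y‖ ≤ b) ∧
    ∀ e, MinEdge v (part1 v K (fun k => k.1 + a (x k)) (fun k => k₁ (x k)) I) e →
      (∀ k ∈ K, Disjoint (edge v e) (dyc v k.1 k.2)) →
      eInt v e (fun x => ENNReal.ofReal ‖lineDeriv ℝ h₁.toFun x (ev e.2) - cl (F x) (ev e.2)‖) ≤
        ENNReal.ofReal (b / 2 ^ e.1.1)

/-- **[ST1]** -/
theorem st1C {GX : Set V → (V → V) → (V → Mat) → V → (ℕ → ℕ) → Prop} (hp : 3 ≤ p)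
    (hK : K3C p) (hG : SpecSegNet p GX) : St1C' p GX := by
  have hp1 : 1 ≤ p := by linarith
  have hp0 : 0 < p := by linarith
  set E' : (V → Mat) → V → ℝ := fun F => H73.E0F p F with hE'def
  have hE' : ∀ F y, 0 ≤ E' F y := fun F y => H73.E0F_nonneg F y
  obtain ⟨D, J, Δ, Mg, hD, hR⟩ := exists_r1All hK
  obtain ⟨C₂, hC₂, hC₂'⟩ : ∃ C₂ : ℝ, 0 < C₂ ∧ (4:ℝ) ^ p ≤ C₂ := ⟨4 ^ p, by positivity, le_rfl⟩
  set EB : (V → Mat) → V → ℝ := EBf p D with hEBdef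
  have hEB : ∀ F y, 0 ≤ EB F y := fun F y => EBf_nonneg hD.le F y
  refine ⟨C₂, hC₂, ?_⟩
  intro Ω Λ f F hΩ hΛ hf hF
  refine ⟨E0f p D (E' F) F, E0f_1 hD.le (hE' F), ?_⟩
  intro c₀ hc₀
  refine ⟨fun y => E0f p D (E' F) F y + EB F y, fun y => by linarith [hEB F y], ?_⟩
  intro a ε₁ b ha hε₁ hb
  obtain ⟨k₁, τ, κ₀, hN⟩ := exists_rn (J := J) (Δ := Δ) F hc₀
    (fun c h1 h2 => ⟨(hR.1 c h1 h2).1, (hR.1 c h1 h2).2.1⟩) a (τ₁ := fun _ => 1)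
    (fun _ => one_pos) (fun _ _ _ => 1) (fun _ _ _ _ => one_pos) p
  have hE0 : ∀ y, 0 ≤ E0f p D (E' F) F y := fun y =>
    (Real.rpow_nonneg (norm_nonneg _) _).trans (E0f_1 hD.le (hE' F) y)
  refine ⟨k₁, fun y => a y + k₁ y + kF F k₁ y, κ₀, μC D ε₁ Λ f F (CF F), fun y =>
    ⟨(hN y).1.κ0, μC_pos hD.le hε₁ (CF_pos F y).le, (hN y).1.kc, by
      have := (hN y).1.k3; omega, Nat.le_add_right _ _⟩, ?_⟩
  intro κ μ hκμ ε M₀ c τ' φ v nn K x B hGX δs hδs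
  -- the choice of `r`
  have hgen : ∀ k ∈ K, ∀ ω : ℝ≥0∞, ω ≠ 0 → ∃ l₀ : ℕ, ∀ l ≥ l₀, ∀ e : Idx × Fin 3, e.1.1 = nn l →
      edge v e ⊆ dyc v k.1 k.2 →
      ENNReal.ofReal ((1 / 2 ^ e.1.1) ^ 2) * eInt v e (HF p Ω F) ≤ ω := fun k _ ω hω =>
    H73.gen_edge_small B.mono B.gen k (ne_top_of_le_ne_top (lint_HF_ne_top hp1 hΩ hF)
      (setLIntegral_le_lintegral _ _)) hω
  obtain ⟨r, rσ₁, δ₁, β, hr, hrσ, hδ₁, hβ, hsmall⟩ := H490.exists_small_rd hp hΩ hf B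
    hgen hD hδs
  obtain ⟨r', hr', hseg⟩ := hG Ω Λ f F hΩ hΛ hf hF κ μ (fun y => a y + k₁ y + kF F k₁ y) ε M₀ c τ'
    φ v nn K x B hGX a k₁ β ha (fun y => (hN y).1.k3) (fun y => rfl)
    (fun y => (hκμ y).2.1.trans (hN y).1.κF) hβ
  refine ⟨fun y => min (r y) (r' y), hr.min hr', ?_⟩
  intro εD tolD I N' Dm hNN htolD tol htol
  set n : Idx → ℕ := fun k => k.1 + a (x k) with hn
  set N : Idx → ℕ := fun k => k.1 + (a (x k) + k₁ (x k) + kF F k₁ (x k)) with hNdef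
  have hG : BlkG Ω v I K n N N' (fun k => k₁ (x k)) (fun k => blk k (n k)) :=
    blkG_of_dom (n := n) hΩ.1 Dm (fun k hk => ⟨(B.pt k hk).2.1, by simp only [hn]; omega⟩) B.disj
      B.fin (fun k hk => ⟨by have := (hN (x k)).1.k3; omega, by simp only [hn, hNdef]; omega⟩)
  have hI₁ : Part Ω v (part1 v K n (fun k => k₁ (x k)) I) := part_part1 hG
  -- tolerances
  obtain ⟨δ, hδ, hδtol⟩ := exists_tolE hI₁ hp0 htol
    (δ₁ := fun e => min (δ₁ e) (min (b / 2 ^ e.1.1) (1 / 2 ^ e.1.1)))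
    (fun e => lt_min (hδ₁ e) (lt_min (by positivity) (by positivity)))
  obtain ⟨A, hA, hA1⟩ := H304.exists_boxfn B.disj (fun k => (2 + D) * nL (LF F (x k))) 1
  have hA0 : ∀ q, 0 ≤ A q := by
    intro q
    by_cases h : ∃ k ∈ K, dyc v q.1 q.2 ⊆ dyc v k.1 k.2
    · obtain ⟨k, hk, hqk⟩ := h
      rw [hA k hk q hqk]
      have h1 : 0 ≤ nL (LF F (x k)) := norm_nonneg _
      positivity
    · rw [hA1 q fun k hk hqk => h ⟨k, hk, hqk⟩]
      exact zero_le_one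
  have hbb : ∀ (q : Idx) (e : Idx × Fin 3), ∃ b > 0, ENNReal.ofReal ((1 / 2 ^ e.1.1) ^ (1 - p)) *
      ENNReal.ofReal (A q * b) ^ p ≤ tol q := fun q (e : Idx × Fin 3) =>
    H304.exists_small_pow hp0 _ _ (htol q)
  choose bb hbb0 hbb using hbb
  obtain ⟨τs, hτs, hτsb⟩ := H304.exists_epsS hI₁ bb hbb0
  obtain ⟨εs, hεs', hεδ, htiny⟩ := exists_tolS2 hI₁ hp0 (fun e => (hδ e).1) τs hτs
  have hεs : ∀ s, 0 < εs s := fun s => (hεs' s).1
  obtain ⟨X, hXS⟩ := exists_rdQ (rσ := fun y => min (rσ₁ y) (rC b ε₁ Λ f y)) (s := fun y =>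
    a y + k₁ y + kF F k₁ y) (δ := δ) hR hΩ hΛ hf ha (fun y => (hN y).1)
    (fun y => ⟨(hκμ y).1, (hκμ y).2.1⟩) (fun y => rfl) B Dm
    (hrσ.min (lbOn_rC hΩ.1 hΛ hf hb hε₁)) hεs (Q := SegS v K n N' β)
    (fun σ hσc hσ0 => hseg _ εD tolD I N' Dm (fun y => min_le_right _ _) hNN σ δ hσc hσ0
      fun e => (hδ e).1)
  have hJ : ∀ k, 1 / 2 ^ J ((X.G.blocks X.T).c₀ k) < (X.G.blocks X.T).c₀ k := fun k =>
    (hR.1 _ ((X.G.blocks X.T).pos k) ((X.G.blocks X.T).le k)).1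
  have hκ1 : ∀ y, κ y ≤ 1 := fun y => by
    refine (hκμ y).2.1.trans ((hN y).1.κ1.trans ?_)
    rw [div_le_one (by positivity)]
    exact one_le_pow₀ (by norm_num)
  have hnk : ∀ k ∈ K, k.1 ≤ n k := fun k _ => by simp only [hn]; omega
  have hσ : ∀ y ∈ Ω, X.σ y ≤ rC b ε₁ Λ f y := fun y hy =>
    (X.σ0 y hy).2.trans (min_le_right _ _)
  set S := solid v K n (part1 v K n (fun k => k₁ (x k)) I) with hS
  set Eb : V → ℝ := fun y => E0f p D (E' F) F y + EB F y with hEb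
  -- the input of the edges
  have G0 := H304.rd_eIn (A := A) (Eq := Eqf v K ∅ x C₂ Eb) hp1 hD X B (tol := tol)
    (fun q hq e _ hes => hδtol q hq e hes)
    (fun q hq e he hes s hs hess => by
      refine le_trans ?_ (hbb q e)
      have h1 : A q * εs s ≤ A q * bb q e :=
        mul_le_mul_of_nonneg_left ((hεs' s).2.trans (hτsb s hs q hq e he hess hes)) (hA0 q)
      exact mul_le_mul_right (ENNReal.rpow_le_rpow (ENNReal.ofReal_le_ofReal h1) hp0.le) _)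
    (fun k hk q hqk => (hA k hk q hqk).ge)
    (fun q => by
      by_cases h : ∃ k ∈ K, dyc v q.1 q.2 ⊆ dyc v k.1 k.2
      · obtain ⟨k, hk, hqk⟩ := h
        rw [Eqf_in B.disj hk hqk (notMem_empty q)]
        have h1 := EBf_2 (p := p) hD.le F (x k)
        have h2 := hE0 (x k)
        simp only [hEb, hEBdef]
        linarith
      · rw [Eqf_out fun k hk hqk => h ⟨k, hk, hqk⟩]
        exact hC₂')
    (fun k hk q hqk => by
      rw [Eqf_in B.disj hk hqk (notMem_empty q)]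
      have h1 := EBf_3 (p := p) (D := D) F (x k)
      have h2 := hE0 (x k)
      simp only [hEb, hEBdef]
      linarith)
  have G1 : H304.EIn p D (X.G.blocks X.T) X.ε (HF p Ω F) tol (fun _ => 4 ^ p)
      (Eqf v K S x C₂ Eb) (part1 v K n (fun k => k₁ (x k)) I)
      (part1 v K n (fun k => k₁ (x k)) I \
        solid v K n (part1 v K n (fun k => k₁ (x k)) I)) (fun k => k.1) :=
    ⟨G0.ε0, G0.C0, G0.len, G0.tol, fun q hq => by
      rw [Eqf_congr hq.2]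
      exact G0.E0 q hq, fun j q hq hqj => by
      rw [Eqf_congr hq.2]
      exact G0.Ez j q hq hqj⟩
  refine ⟨Eqf v K S x C₂ Eb, X.h₁,
    Eqf_nonneg hC₂.le fun y => add_nonneg (hE0 y) (hEB F y), fun q hq => (Eqf_out hq).le, ?_, ?_,
    ?_, ?_, ?_⟩
  · intro k hk q hq
    by_cases hqS : q ∈ S
    · rw [Eqf_solid hk hq hqS]
      exact add_nonneg (hE0 _) (hEB F _)
    · exact (Eqf_in B.disj hk hq hqS).le
  · intro k hk z hz q hq1 hq2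
    have hz' := blk4_sub hz
    have hqS : q ∈ S := by
      refine ⟨Or.inr ⟨k, hk, hq1, z, hz', hq2⟩, k, hk, ?_⟩
      obtain ⟨y, hy⟩ := H304.dyc_nonempty v q.1 q.2
      exact ⟨y, hy, mem_iUnion₂.2 ⟨z, hz', hq2 hy⟩⟩
    have hqk : dyc v q.1 q.2 ⊆ dyc v k.1 k.2 :=
      hq2.trans ((X.G.inn k hk z hz').trans dyo_sub_dyc)
    rw [Eqf_solid hk hqk hqS]
    exact hE0 _
  · refine ⟨X.part, fun q hq => hq.1, X.cov, X.inBox, ?_, ?_, ?_, ?_, ?_, ?_, ?_⟩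
    · exact H732.st1_close hΛ hf hD.le hε₁ X.link X.out B X.NB (fun k _ => (CF_pos F _).le) hnk
        (fun k _ => hκ1 _) (fun k _ => (hκμ _).2.2.2) hσ
    · exact fun k hk y hy => H304.st1_kept X.link X.out hJ hk hy
    · refine H304.st1_sol X.link X.out hp1 hD hJ B.disj (fun k => (X.ε0 k).le)
        (fun k s hk => (X.ε2 k s hk).le) (E₀ := fun k => E' F (x k)) (fun k => hE' F _) htiny ?_
        (fun k => E0f_2 hD.le (hE' F) _) (fun k => E0f_3 hD.le (hE' F) _)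
      exact fun q _ hq k hqk => H73.hsolid_rd X hp1 B (fun _ _ => rfl)
        (fun k _ => by
          show k.1 + (a (x k) + k₁ (x k) + kF F k₁ (x k)) =
            k.1 + a (x k) + k₁ (x k) + kF F k₁ (x k)
          omega) (fun k _ => hκ1 _) (fun e => (hδ e).1.le)
        (fun e => (hδ e).2.trans ((min_le_right _ _).trans (min_le_right _ _))) Dm htolD hq
        k.2 hqk
    · exact H304.st1_elen X.link X.out hp1 hD G1
    · exact H304.st1_elip X.link X.out hp1 hD hJ G1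
    · exact H304.st1_face X.link X.out hp1 hD hJ G1
    · exact hsmall Dm (fun _ => min_le_left _ _) hNN X (fun y _ => min_le_left _ _)
        (fun e => (hδ e).2.trans (min_le_left _ _))
        fun k q hq _ hz => H490.hseg_of_segS X hXS k hq hz
  · exact H732.st1_clo X.link X.out X.NB hnk hσ
  · intro e he hd
    refine (X.edges_off he hd).trans (ENNReal.ofReal_le_ofReal ?_)
    exact ((hδ e).2.trans (min_le_right _ _)).trans (min_le_left _ _)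

end Vale.Agent.P073.H803
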