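import Vale.Agent.P073.H803.Mrg
import Vale.Agent.P073.AB.Sum308a
import Vale.Agent.P073.Net.NC

/-!
# P073, block B09, [ST1-IN]: the partition of Round 1

`Bk k` are the block cells (generation `n k`) of the box `k ∈ K`. In the cells the partition consists
of the cubes of generation `n k + k₁ k`, elsewhere of the cubes of `I`.
-/

namespace Vale.Agent.P073.H803

open MeasureTheory Set Filter Topology Metric Vale.Agent.P073.St
open Vale.Agent.P073.SQ (ev)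
open Vale.Agent.P073.AB Vale.Agent.P073.AB.P86 Vale.Agent.P073.AB.S308
open Vale.Agent.P073.H73 (Mesh MinEdge segP onSeg ctr)
open Vale.Agent.P073.H687
open _root_.P073.Net (dyc dyo len)
open scoped ENNReal

variable {Ω : Set V} {v : V} {I K : Set Idx} {n N k₁ : Idx → ℕ} {Bk : Idx → Set (Fin 3 → ℤ)}

theorem eq_of_dyo {m : ℕ} {z z' : Fin 3 → ℤ} {x : V} (hx : x ∈ dyo v m z) (hx' : x ∈ dyc v m z') :
    z = z' := by
  have h3 : dyc v m z ⊆ dyc v m z' := by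
    rw [dyc_eq_gbox v m z'] at hx' ⊢
    exact dyc_sub_of_mem_dyo le_rfl hx hx'
  exact eq_of_sub_same h3

theorem sub_of_dyo {m m' : ℕ} (h : m ≤ m') {z z' : Fin 3 → ℤ} {x : V} (hx : x ∈ dyo v m' z')
    (hx' : x ∈ dyc v m z) : dyc v m' z' ⊆ dyc v m z := by
  rw [dyc_eq_gbox v m z] at hx' ⊢
  exact dyc_sub_of_mem_dyo h hx hx'

theorem sub_of_dyo' {m m' : ℕ} (h : m ≤ m') {z z' : Fin 3 → ℤ} {x : V} (hx : x ∈ dyc v m' z')
    (hx' : x ∈ dyo v m z) : dyc v m' z' ⊆ dyc v m z := by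
  have h1 : x ∈ obox v m z (fun k => z k + 1) := by
    intro k
    have := hx' k
    push_cast
    exact this
  rw [dyc_eq_gbox v m z]
  exact dyc_sub_of_mem_obox h hx h1

/-- finitely many cubes of one generation meet a bounded set -/
theorem finite_meet (v : V) (m : ℕ) {C : Set V} (hC : Bornology.IsBounded C) :
    {z | (dyc v m z ∩ C).Nonempty}.Finite := by
  obtain ⟨R, hR⟩ := hC.subset_closedBall v
  have hp : (0:ℝ) < 2 ^ m := by positivity
  refine (Set.Finite.pi' fun _ : Fin 3 => (Set.finite_Icc (⌊-(R * 2 ^ m) - 1⌋) (⌈R * 2 ^ m⌉))).subset ?_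
  rintro z ⟨x, hx, hxC⟩
  have h1 := hR hxC
  rw [mem_closedBall, dist_eq_norm] at h1
  intro k
  have h2 : |x k - v k| ≤ R := (norm_le_pi_norm (x - v) k).trans h1
  rw [abs_le] at h2
  have h3 := hx k
  constructor
  · rw [Int.floor_le_iff]
    have h4 : -R * 2 ^ m ≤ z k + 1 := by
      have : -R ≤ ((z k : ℝ) + 1) / 2 ^ m := by linarith [h3.2, h2.1]
      rwa [le_div_iff₀ hp] at this
    linarith
  · rw [← Int.cast_le (R := ℝ)]
    refine le_trans ?_ (Int.le_ceil _)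
    have : (z k : ℝ) / 2 ^ m ≤ R := by linarith [h3.1, h2.2]
    rwa [div_le_iff₀ hp] at this

/-- all cubes of one generation -/
theorem part_univ (v : V) (m : ℕ) : Part univ v {q | q.1 = m} where
  sub := fun q _ => subset_univ _
  cover := fun x _ => by
    obtain ⟨z, hz⟩ := _root_.P073.Net.NC.exists_mem v m x
    exact ⟨(m, z), rfl, hz⟩
  disj := by
    rintro ⟨m1, z⟩ h1 ⟨m2, z'⟩ h2 hne
    have h1' : m1 = m := h1
    have h2' : m2 = m := h2
    subst h1'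
    subst h2'
    rw [Set.disjoint_left]
    intro x hx hx'
    have h3 : z = z' := eq_of_dyo hx hx'
    exact hne (by rw [h3])
  fin := by
    intro C _ hC
    refine ((finite_meet v m hC.isBounded).image fun z => (m, z)).subset ?_
    rintro ⟨m', z⟩ ⟨h1, h2⟩
    have h1' : m' = m := h1
    subst h1'
    exact ⟨z, h2, rfl⟩

/-- a cube of the partition which touches a set whose touching cubes of generation `N` are in `I` -/
theorem gen_of_touch (hI : Part Ω v I) {q : Idx} (hq : q ∈ I) {m : ℕ} {x : V}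
    (hx : x ∈ dyc v q.1 q.2) (h : ∀ w, x ∈ dyc v m w → ((m, w) : Idx) ∈ I) : q.1 = m := by
  obtain ⟨q', h1, h2, y, h3, h4⟩ := cross isOpen_univ (part_univ v m) (mem_univ x) hx
  have h1' : q'.1 = m := h1
  have h5 : q' ∈ I := by
    have := h q'.2 (h1' ▸ h2)
    rwa [← h1'] at this
  rw [eq_of_mem hI hq h5 h3 h4]
  exact h1'

/-- The setting: boxes `K`, cells `Bk k` of generation `n k` inside the box `k`, all cubes of
generation `N k` which touch the cells are in `I`. -/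
structure BlkD (Ω : Set V) (v : V) (I K : Set Idx) (n N k₁ : Idx → ℕ)
    (Bk : Idx → Set (Fin 3 → ℤ)) : Prop where
  opn : IsOpen Ω
  part : Part Ω v I
  box : ∀ k ∈ K, dyc v k.1 k.2 ⊆ Ω
  inn : ∀ k ∈ K, ∀ z ∈ Bk k, dyc v (n k) z ⊆ dyo v k.1 k.2
  dis : ∀ k ∈ K, ∀ k' ∈ K, k ≠ k' → Disjoint (dyo v k.1 k.2) (dyo v k'.1 k'.2)
  fin : ∀ C ⊆ Ω, IsCompact C → {k ∈ K | (dyc v k.1 k.2 ∩ C).Nonempty}.Finite
  le : ∀ k ∈ K, n k + k₁ k ≤ N k
  near : ∀ k ∈ K, ∀ z ∈ Bk k, ∀ w, (dyc v (N k) w ∩ dyc v (n k) z).Nonempty →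
    ((N k, w) : Idx) ∈ I

/-- the cubes of `I` which are not in a block cell -/
def outI (v : V) (K : Set Idx) (n : Idx → ℕ) (Bk : Idx → Set (Fin 3 → ℤ)) (I : Set Idx) :
    Set Idx :=
  {q | q ∈ I ∧ ∀ k ∈ K, ∀ z ∈ Bk k, ¬ dyc v q.1 q.2 ⊆ dyc v (n k) z}

/-- the cubes in the block cells -/
def inI (v : V) (K : Set Idx) (n k₁ : Idx → ℕ) (Bk : Idx → Set (Fin 3 → ℤ)) : Set Idx :=
  {q | ∃ k ∈ K, q.1 = n k + k₁ k ∧ ∃ z ∈ Bk k, dyc v q.1 q.2 ⊆ dyc v (n k) z}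

/-- the partition of Round 1 -/
def pt1 (v : V) (K : Set Idx) (n k₁ : Idx → ℕ) (Bk : Idx → Set (Fin 3 → ℤ)) (I : Set Idx) :
    Set Idx := outI v K n Bk I ∪ inI v K n k₁ Bk

namespace BlkD

variable (D : BlkD Ω v I K n N k₁ Bk)

include D

theorem ne_of_mem {k k' : Idx} (hk : k ∈ K) (hk' : k' ∈ K) {z z' : Fin 3 → ℤ} (hz : z ∈ Bk k)
    (hz' : z' ∈ Bk k') {x : V} (hx : x ∈ dyc v (n k) z) (hx' : x ∈ dyc v (n k') z') : k = k' := by
  by_contra hne
  exact disjoint_left.1 (D.dis k hk k' hk' hne) (D.inn k hk z hz hx) (D.inn k' hk' z' hz' hx')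

/-- a cube of `I` which meets the open cell or whose interior meets the cell lies in the cell -/
theorem sub_cell {k : Idx} (hk : k ∈ K) {z : Fin 3 → ℤ} (hz : z ∈ Bk k) {q : Idx} (hq : q ∈ I)
    {x : V} (hx : x ∈ dyc v q.1 q.2) (hxz : x ∈ dyo v (n k) z) :
    dyc v q.1 q.2 ⊆ dyc v (n k) z := by
  have h1 : q.1 = N k := gen_of_touch D.part hq hx fun w hw =>
    D.near k hk z hz w ⟨x, hw, dyo_sub_dyc hxz⟩
  exact sub_of_dyo' (by rw [h1]; exact (Nat.le_add_right _ _).trans (D.le k hk)) hx hxz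

theorem sub_cell' {k : Idx} (hk : k ∈ K) {z : Fin 3 → ℤ} (hz : z ∈ Bk k) {q : Idx} (hq : q ∈ I)
    {x : V} (hx : x ∈ dyo v q.1 q.2) (hxz : x ∈ dyc v (n k) z) :
    dyc v q.1 q.2 ⊆ dyc v (n k) z := by
  have h1 : q.1 = N k := gen_of_touch D.part hq (dyo_sub_dyc hx) fun w hw =>
    D.near k hk z hz w ⟨x, hw, hxz⟩
  exact sub_of_dyo (by rw [h1]; exact (Nat.le_add_right _ _).trans (D.le k hk)) hx hxz

theorem gen_touch {k : Idx} (hk : k ∈ K) {z : Fin 3 → ℤ} (hz : z ∈ Bk k) {q : Idx} (hq : q ∈ I)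
    (h : (dyc v q.1 q.2 ∩ dyc v (n k) z).Nonempty) : q.1 = N k := by
  obtain ⟨x, hx, hxz⟩ := h
  exact gen_of_touch D.part hq hx fun w hw => D.near k hk z hz w ⟨x, hw, hxz⟩

theorem cell_sub {k : Idx} (hk : k ∈ K) {z : Fin 3 → ℤ} (hz : z ∈ Bk k) : dyc v (n k) z ⊆ Ω :=
  ((D.inn k hk z hz).trans dyo_sub_dyc).trans (D.box k hk)

/-- **the partition of Round 1** -/
theorem part1 : Part Ω v (pt1 v K n k₁ Bk I) where
  sub := by
    rintro q (⟨hq, -⟩ | ⟨k, hk, -, z, hz, hs⟩)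
    · exact D.part.sub q hq
    · exact hs.trans (D.cell_sub hk hz)
  cover := by
    intro x hx
    obtain ⟨q, hq, hxq⟩ := D.part.cover x hx
    by_cases h : ∀ k ∈ K, ∀ z ∈ Bk k, ¬ dyc v q.1 q.2 ⊆ dyc v (n k) z
    · exact ⟨q, Or.inl ⟨hq, h⟩, hxq⟩
    · push Not at h
      obtain ⟨k, hk, z, hz, hs⟩ := h
      have h1 := hs hxq
      rw [dyc_coarse v (n k) (k₁ k)] at h1
      obtain ⟨w, h2, h3⟩ := exists_dyc_of_mem_gbox (fun j => by
        have : (0:ℤ) < 2 ^ k₁ k := by positivity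
        nlinarith) h1
      rw [← dyc_coarse v (n k) (k₁ k)] at h3
      exact ⟨(n k + k₁ k, w), Or.inr ⟨k, hk, rfl, z, hz, h3⟩, h2⟩
  disj := by
    intro q hq q' hq' hne
    rw [disjoint_left]
    intro x hx hx'
    rcases hq with ⟨hq, hn⟩ | ⟨k, hk, hg, z, hz, hs⟩ <;>
      rcases hq' with ⟨hq', hn'⟩ | ⟨k', hk', hg', z', hz', hs'⟩
    · exact hne (eq_of_mem D.part hq hq' hx hx')
    · exact hn k' hk' z' hz' (D.sub_cell' hk' hz' hq hx (hs' hx'))
    · have h1 : x ∈ dyo v (n k) z := by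
        have h2 := interior_mono hs
        rw [_root_.P073.Gauge.C110.interior_dyc, _root_.P073.Gauge.C110.interior_dyc] at h2
        exact h2 hx
      exact hn' k hk z hz (D.sub_cell hk hz hq' hx' h1)
    · have h1 := D.ne_of_mem hk hk' hz hz' (hs (dyo_sub_dyc hx)) (hs' hx')
      subst h1
      obtain ⟨m, w⟩ := q
      obtain ⟨m', w'⟩ := q'
      have h2 : m = m' := hg.trans hg'.symm
      subst h2
      have h3 : w = w' := eq_of_dyo hx hx'
      exact hne (by rw [h3])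
  fin := by
    intro C hC hCc
    have h1 := D.part.fin C hC hCc
    have h2 : (⋃ k ∈ {k ∈ K | (dyc v k.1 k.2 ∩ C).Nonempty},
        (fun z => ((n k + k₁ k, z) : Idx)) '' {z | (dyc v (n k + k₁ k) z ∩ C).Nonempty}).Finite :=
      (D.fin C hC hCc).biUnion fun k _ => (finite_meet v _ hCc.isBounded).image _
    refine (h1.union h2).subset ?_
    rintro q ⟨hq | ⟨k, hk, hg, z, hz, hs⟩, hne⟩
    · exact Or.inl ⟨hq.1, hne⟩
    · right
      obtain ⟨m, w⟩ := q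
      have hg' : m = n k + k₁ k := hg
      subst hg'
      refine mem_biUnion (x := k) ⟨hk, ?_⟩ ⟨w, hne, rfl⟩
      exact hne.mono (inter_subset_inter_left _ ((hs.trans (D.inn k hk z hz)).trans dyo_sub_dyc))

/-- (C1) a cube of the partition in a cell has generation `n k + k₁ k` -/
theorem gen_in {k : Idx} (hk : k ∈ K) {z : Fin 3 → ℤ} (hz : z ∈ Bk k) {q : Idx}
    (hq : q ∈ pt1 v K n k₁ Bk I) (hs : dyc v q.1 q.2 ⊆ dyc v (n k) z) : q.1 = n k + k₁ k := by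
  rcases hq with ⟨-, hn⟩ | ⟨k', hk', hg, z', hz', hs'⟩
  · exact absurd hs (hn k hk z hz)
  · have hx : cen v q.1 q.2 ∈ dyc v q.1 q.2 := dyo_sub_dyc (cen_mem v _ _)
    rw [D.ne_of_mem hk hk' hz hz' (hs hx) (hs' hx)]
    exact hg

/-- (C2) a cube of the partition which meets an open cell -/
theorem sub_cell1 {k : Idx} (hk : k ∈ K) {z : Fin 3 → ℤ} (hz : z ∈ Bk k) {q : Idx}
    (hq : q ∈ pt1 v K n k₁ Bk I) {x : V} (hx : x ∈ dyc v q.1 q.2) (hxz : x ∈ dyo v (n k) z) :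
    dyc v q.1 q.2 ⊆ dyc v (n k) z ∧ q.1 = n k + k₁ k := by
  have h1 : dyc v q.1 q.2 ⊆ dyc v (n k) z := by
    rcases hq with ⟨hq, -⟩ | ⟨k', hk', hg, z', hz', hs'⟩
    · exact D.sub_cell hk hz hq hx hxz
    · have h2 := D.ne_of_mem hk hk' hz hz' (dyo_sub_dyc hxz) (hs' hx)
      subst h2
      exact sub_of_dyo' (by rw [hg]; exact Nat.le_add_right _ _) hx hxz
  exact ⟨h1, D.gen_in hk hz hq h1⟩

/-- (C3) a cube of the partition which touches a cell lies in a cell of the same box, or is a cube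
of `I` of generation `N k` -/
theorem touch1 {k : Idx} (hk : k ∈ K) {z : Fin 3 → ℤ} (hz : z ∈ Bk k) {q : Idx}
    (hq : q ∈ pt1 v K n k₁ Bk I) (h : (dyc v q.1 q.2 ∩ dyc v (n k) z).Nonempty) :
    (q.1 = n k + k₁ k ∧ ∃ z' ∈ Bk k, dyc v q.1 q.2 ⊆ dyc v (n k) z') ∨
      (q.1 = N k ∧ q ∈ outI v K n Bk I) := by
  rcases hq with hq | ⟨k', hk', hg, z', hz', hs'⟩
  · exact Or.inr ⟨D.gen_touch hk hz hq.1 h, hq⟩
  · left
    obtain ⟨x, hx, hxz⟩ := h
    have h2 := D.ne_of_mem hk hk' hz hz' hxz (hs' hx)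
    subst h2
    exact ⟨hg, z', hz', hs'⟩

end BlkD

end Vale.Agent.P073.H803
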