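import Vale.Agent.P073.H803.Blk1
import Vale.Agent.P073.H304.R1Deep

/-!
# P073, block B09, [ST1-IN]: the mesh of Round 1 (merged middle cubes)
-/

namespace Vale.Agent.P073.H803

open MeasureTheory Set Filter Topology Metric Vale.Agent.P073.St
open Vale.Agent.P073.SQ (ev)
open Vale.Agent.P073.AB Vale.Agent.P073.AB.P86 Vale.Agent.P073.AB.S308
open Vale.Agent.P073.H73 (Mesh MinEdge segP onSeg ctr)
open Vale.Agent.P073.H687
open _root_.P073.Net (dyc dyo len)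
open scoped ENNReal

variable {Ω : Set V} {v : V} {I K : Set Idx} {n N k₁ j : Idx → ℕ} {Bk : Idx → Set (Fin 3 → ℤ)}

/-- the middle cube of a cell as a union of cubes of generation `n + k₁` -/
theorem midcube_eq (v : V) {n k₁ j : ℕ} (hj : j + 1 ≤ k₁) (z : Fin 3 → ℤ) :
    closedBall (ctr v n z) ((1 - 1 / 2 ^ j) / 2 / 2 ^ n) =
      gbox v (n + k₁) (fun i => z i * 2 ^ k₁ + 2 ^ (k₁ - j - 1))
        (fun i => (z i + 1) * 2 ^ k₁ - 2 ^ (k₁ - j - 1)) := by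
  have hp : (0:ℝ) < 2 ^ n := by positivity
  have h1j : (1:ℝ) ≤ 2 ^ j := one_le_pow₀ (by norm_num)
  have h0 : (0:ℝ) ≤ (1 - 1 / 2 ^ j) / 2 / 2 ^ n := by
    have : (1:ℝ) / 2 ^ j ≤ 1 := by
      rw [div_le_one (by positivity)]; exact h1j
    have h2 : (0:ℝ) ≤ 1 - 1 / 2 ^ j := by linarith
    positivity
  have hk : k₁ = (k₁ - j - 1) + (j + 1) := by omega
  set d := k₁ - j - 1 with hd
  have e1 : ∀ c : ℝ, (c * 2 ^ k₁ + 2 ^ d) / 2 ^ (n + k₁) = c / 2 ^ n + 1 / 2 / 2 ^ j / 2 ^ n := by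
    intro c
    rw [hk, pow_add 2 n, pow_add 2 d, pow_succ 2 j]
    field_simp
  have e2 : ∀ c : ℝ, (c * 2 ^ k₁ - 2 ^ d) / 2 ^ (n + k₁) = c / 2 ^ n - 1 / 2 / 2 ^ j / 2 ^ n := by
    intro c
    rw [hk, pow_add 2 n, pow_add 2 d, pow_succ 2 j]
    field_simp
  ext x
  rw [mem_closedBall, dist_pi_le_iff h0]
  refine forall_congr' fun i => ?_
  rw [Real.dist_eq, abs_le]
  push_cast
  rw [e1, e2]
  have e3 : ctr v n z i = v i + (z i + 1 / 2) / 2 ^ n := rfl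
  have e4 : ((z i : ℝ) + 1 / 2) / 2 ^ n = z i / 2 ^ n + 1 / 2 / 2 ^ n := add_div _ _ _
  have e5 : ((z i : ℝ) + 1) / 2 ^ n = z i / 2 ^ n + 1 / 2 / 2 ^ n + 1 / 2 / 2 ^ n := by
    rw [add_div]; ring
  have e6 : (1 - 1 / 2 ^ j : ℝ) / 2 / 2 ^ n = 1 / 2 / 2 ^ n - 1 / 2 / 2 ^ j / 2 ^ n := by ring
  rw [e3, e4, e5, e6]
  constructor
  · rintro ⟨h1, h2⟩; constructor <;> linarith
  · rintro ⟨h1, h2⟩; constructor <;> linarith

/-- the corners of the middle cube -/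
noncomputable def mlo (v : V) (n : ℕ) (j : ℕ) (z : Fin 3 → ℤ) : V :=
  fun i => ctr v n z i - (1 - 1 / 2 ^ j) / 2 / 2 ^ n

noncomputable def mhi (v : V) (n : ℕ) (j : ℕ) (z : Fin 3 → ℤ) : V :=
  fun i => ctr v n z i + (1 - 1 / 2 ^ j) / 2 / 2 ^ n

theorem two_le_pow {j : ℕ} (hj : 1 ≤ j) : (2:ℝ) ≤ 2 ^ j := by
  calc (2:ℝ) = 2 ^ 1 := (pow_one _).symm
    _ ≤ 2 ^ j := pow_le_pow_right₀ (by norm_num) hj

theorem half_pos' {n j : ℕ} (hj : 1 ≤ j) : (0:ℝ) < (1 - 1 / 2 ^ j) / 2 / 2 ^ n := by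
  have h1 := two_le_pow hj
  have h2 : (1:ℝ) / 2 ^ j ≤ 1 / 2 := one_div_le_one_div_of_le (by norm_num) h1
  have h3 : (0:ℝ) < 1 - 1 / 2 ^ j := by linarith
  positivity

theorem closedBall_eq_Icc (v : V) {n j : ℕ} (hj : 1 ≤ j) (z : Fin 3 → ℤ) :
    closedBall (ctr v n z) ((1 - 1 / 2 ^ j) / 2 / 2 ^ n) = Icc (mlo v n j z) (mhi v n j z) := by
  ext x
  rw [mem_closedBall, dist_pi_le_iff (half_pos' hj).le]
  constructor
  · intro h
    refine ⟨fun i => ?_, fun i => ?_⟩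
    · have := h i
      rw [Real.dist_eq, abs_le] at this
      simp only [mlo]
      linarith [this.1]
    · have := h i
      rw [Real.dist_eq, abs_le] at this
      simp only [mhi]
      linarith [this.2]
  · rintro ⟨h1, h2⟩ i
    have h3 := h1 i
    have h4 := h2 i
    simp only [mlo, mhi] at h3 h4
    rw [Real.dist_eq, abs_le]
    constructor <;> linarith

theorem mid_sub_dyo (v : V) {n j : ℕ} (z : Fin 3 → ℤ) :
    closedBall (ctr v n z) ((1 - 1 / 2 ^ j) / 2 / 2 ^ n) ⊆ dyo v n z := by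
  intro x hx i
  have h0 := dist_nonneg.trans (mem_closedBall.1 hx)
  have h1 := (dist_pi_le_iff h0).1 (mem_closedBall.1 hx) i
  rw [Real.dist_eq, abs_le] at h1
  have e3 : ctr v n z i = v i + (z i + 1 / 2) / 2 ^ n := rfl
  have e4 : ((z i : ℝ) + 1 / 2) / 2 ^ n = z i / 2 ^ n + 1 / 2 / 2 ^ n := add_div _ _ _
  have e5 : ((z i : ℝ) + 1) / 2 ^ n = z i / 2 ^ n + 1 / 2 / 2 ^ n + 1 / 2 / 2 ^ n := by
    rw [add_div]; ring
  have e6 : (1 - 1 / 2 ^ j : ℝ) / 2 / 2 ^ n = 1 / 2 / 2 ^ n - 1 / 2 / 2 ^ j / 2 ^ n := by ring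
  have e7 : (0:ℝ) < 1 / 2 / 2 ^ j / 2 ^ n := by positivity
  rw [e3, e4, e6] at h1
  rw [e5]
  constructor <;> linarith [h1.1, h1.2]

/-- the cells of all blocks -/
abbrev CellIx (K : Set Idx) (Bk : Idx → Set (Fin 3 → ℤ)) : Type :=
  {b : Idx × (Fin 3 → ℤ) // b.1 ∈ K ∧ b.2 ∈ Bk b.1}

/-- the cubes of the middle cube of the cell `z` of the box `k` -/
def midI (v : V) (n k₁ j : Idx → ℕ) (k : Idx) (z : Fin 3 → ℤ) : Set Idx :=
  {q | q.1 = n k + k₁ k ∧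
    dyc v q.1 q.2 ⊆ closedBall (ctr v (n k) z) ((1 - 1 / 2 ^ j k) / 2 / 2 ^ n k)}

namespace BlkD

variable (D : BlkD Ω v I K n N k₁ Bk)

/-- **the merged partition of Round 1** -/
noncomputable def mrg (hj : ∀ k ∈ K, 1 ≤ j k ∧ j k + 1 ≤ k₁ k) :
    Merge Ω v (pt1 v K n k₁ Bk I) (CellIx K Bk) where
  opn := D.opn
  part := D.part1
  G := fun b => midI v n k₁ j b.1.1 b.1.2
  lo := fun b => mlo v (n b.1.1) (j b.1.1) b.1.2
  hi := fun b => mhi v (n b.1.1) (j b.1.1) b.1.2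
  sub := fun b q hq => Or.inr ⟨b.1.1, b.2.1, hq.1, b.1.2, b.2.2,
    hq.2.trans ((mid_sub_dyo v _).trans dyo_sub_dyc)⟩
  lt := fun b i => by
    have := half_pos' (n := n b.1.1) (hj _ b.2.1).1
    simp only [mlo, mhi]
    linarith
  box := fun b => by
    rw [← closedBall_eq_Icc v (hj _ b.2.1).1]
    apply Subset.antisymm
    · exact iUnion₂_subset fun q hq => hq.2
    · intro x hx
      have h1 := midcube_eq v (n := n b.1.1) (hj _ b.2.1).2 b.1.2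
      rw [h1] at hx
      have hlt : ∀ i, b.1.2 i * 2 ^ k₁ b.1.1 + 2 ^ (k₁ b.1.1 - j b.1.1 - 1) <
          (b.1.2 i + 1) * 2 ^ k₁ b.1.1 - 2 ^ (k₁ b.1.1 - j b.1.1 - 1) := by
        intro i
        have h2 : k₁ b.1.1 = (k₁ b.1.1 - j b.1.1 - 1) + (j b.1.1 + 1) := by
          have := (hj _ b.2.1).2
          omega
        have h3 : (2:ℤ) ^ k₁ b.1.1 = 2 ^ (k₁ b.1.1 - j b.1.1 - 1) * 2 ^ (j b.1.1 + 1) := by
          rw [← pow_add, ← h2]
        have h4 : (4:ℤ) ≤ 2 ^ (j b.1.1 + 1) := by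
          calc (4:ℤ) = 2 ^ 2 := by norm_num
            _ ≤ _ := pow_le_pow_right₀ (by norm_num) (by have := (hj _ b.2.1).1; omega)
        have h5 : (0:ℤ) < 2 ^ (k₁ b.1.1 - j b.1.1 - 1) := by positivity
        nlinarith
      obtain ⟨w, h2, h3⟩ := exists_dyc_of_mem_gbox hlt hx
      rw [← h1] at h3
      exact mem_biUnion (x := (n b.1.1 + k₁ b.1.1, w)) ⟨rfl, h3⟩ h2
  disj := fun b b' hne => by
    rw [← closedBall_eq_Icc v (hj _ b.2.1).1, ← closedBall_eq_Icc v (hj _ b'.2.1).1, disjoint_left]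
    intro x hx hx'
    have h1 := mid_sub_dyo v _ hx
    have h2 := mid_sub_dyo v _ hx'
    have h3 := D.ne_of_mem b.2.1 b'.2.1 b.2.2 b'.2.2 (dyo_sub_dyc h1) (dyo_sub_dyc h2)
    rw [← h3] at h2
    have h4 := eq_of_dyo h1 (dyo_sub_dyc h2)
    exact hne (Subtype.ext (Prod.ext h3 h4))
  near := by
    rintro b q hq - q' hq' ⟨x, hx, hx'⟩
    rw [(D.sub_cell1 b.2.1 b.2.2 hq hx (mid_sub_dyo v _ (hq'.2 hx'))).2, hq'.1]

end BlkD

end Vale.Agent.P073.H803
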