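import Vale.Agent.P073.H803.Blk4
import Vale.Agent.P073.H803.Dict2

/-!
# P073, block B09, [ST1-IN]: the input of Round 1
-/

namespace Vale.Agent.P073.H803

open MeasureTheory Set Filter Topology Metric Vale.Agent.P073.St
open Vale.Agent.P073.SQ (ev)
open Vale.Agent.P073.AB Vale.Agent.P073.AB.P86 Vale.Agent.P073.AB.S308
open Vale.Agent.P073.H73 (Mesh MinEdge segP onSeg ctr)
open Vale.Agent.P073.H687
open Vale.Agent.P073.H304 (af afi af_afi afi_af Nb bl In1 Blocks dyc_eq_closedBall)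
open _root_.P073.Net (dyc dyo len)
open scoped ENNReal

variable {Ω Λ : Set V} {v : V} {I K : Set Idx} {n N N' k₁ j : Idx → ℕ}
  {Bk : Idx → Set (Fin 3 → ℤ)} {f h : V → V} {L : Idx → V ≃L[ℝ] V} {b : Idx → V}
  {c₀ τ : Idx → ℝ} {J : ℝ → ℕ} {Δ : ℝ → ℝ}

namespace BlkG

variable (G : BlkG Ω v I K n N N' k₁ Bk) (T : BlkM Ω Λ v K n k₁ Bk f h L b c₀ τ J Δ)

include G T

theorem mem_af {k : Idx} (hk : k ∈ K) {x : V} (hx : x ∈ closedBall (ctr v k.1 k.2) (rB n k)) :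
    af (L k) (b k) x ∈ Λ := by
  obtain ⟨u, hu, hux⟩ := T.img k hk ⟨x, hx, rfl⟩
  obtain ⟨g, h1, -, -⟩ := T.homeo
  rw [← hux]
  exact (h1.1 u (G.box k hk (dyo_sub_dyc hu))).1

omit G in
theorem mesh_inr (H : BlkG Ω v I K n N N' k₁ Bk) (c : CellIx K Bk) :
    (H.mg1 T).mesh.Q (Sum.inr c : (H.mg1 T).tiling.ι) =
      closedBall (ctr v (n c.1.1) c.1.2) ((1 - 1 / 2 ^ J (c₀ c.1.1)) / 2 / 2 ^ n c.1.1) :=
  (closedBall_eq_Icc v (T.j1 _ c.2.1).1 c.1.2).symm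

theorem mesh_inl (q : {q : Idx // q ∈ (G.mg1 T).U}) :
    (G.mg1 T).mesh.Q (Sum.inl q : (G.mg1 T).tiling.ι) = dyc v q.1.1 q.1.2 := rfl

/-- a protected cell of another box does not meet the zone -/
theorem other {k : Idx} (hk : k ∈ K) {c : CellIx K Bk} (hc : c.1.1 ≠ k) {y : V}
    (hy : y ∈ (G.mg1 T).mesh.Q (Sum.inr c : (G.mg1 T).tiling.ι)) (hyk : y ∈ dyo v k.1 k.2) :
    False := by
  rw [mesh_inr T G] at hy
  have h1 := G.inn _ c.2.1 _ c.2.2 (dyo_sub_dyc (mid_sub_dyo v _ hy))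
  exact hc (G.toBlkD.box_uniq c.2.1 hk h1 (dyo_sub_dyc hyk))

/-- drawn cells are mapped into the shells -/
theorem drawn_aux {k : Idx} (hk : k ∈ K) {q : Idx} (hq : q ∈ (G.mg1 T).U)
    (hne : (dyc v q.1 q.2 ∩ bS v n Bk k).Nonempty) {x : V} (hx : x ∈ dyc v q.1 q.2) :
    afi (L k) (b k) (h x) ∈ Nb v (bl (n k) (Bk k)) (1 / 2 ^ J (c₀ k)) := by
  have hin := G.sol_in hk hq.1 hne
  obtain ⟨u, hu, hub⟩ := hne
  obtain ⟨z, hz, huz⟩ := mem_iUnion₂.1 hub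
  have hp : (0:ℝ) < 2 ^ n k := by positivity
  -- a point of the frontier of a cell near `x`
  obtain ⟨z', hz', y, hy, hxy⟩ : ∃ z' ∈ Bk k, ∃ y ∈ frontier (dyc v (n k) z'),
      ‖x - y‖ ≤ 1 / 2 / 2 ^ J (c₀ k) / 2 ^ n k := by
    rcases G.touch1 hk hz hq.1 ⟨u, hu, huz⟩ with ⟨hg, z', hz', hs⟩ | ⟨hg, hI, hn⟩
    · obtain ⟨y, hy, hxy⟩ := exists_frontier (hs hx) (fun hxb => by
        have h1 := midcube_eq v (n := n k) (T.j1 k hk).2 z'
        have h2 : x ∈ obox v (n k + k₁ k)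
            (fun i => z' i * 2 ^ k₁ k + 2 ^ (k₁ k - J (c₀ k) - 1))
            (fun i => (z' i + 1) * 2 ^ k₁ k - 2 ^ (k₁ k - J (c₀ k) - 1)) := by
          rw [← interior_gbox, ← h1]
          exact ball_subset_interior_closedBall hxb
        have h3 := dyc_sub_of_mem_obox (by rw [hg]) hx h2
        rw [← h1] at h3
        exact hq.2 ⟨(k, z'), hk, hz'⟩ ⟨hg, h3⟩) (T.j1 k hk).1
      exact ⟨z', hz', y, hy, hxy⟩
    · refine ⟨z, hz, u, ?_, ?_⟩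
      · rw [frontier_dyc]
        exact ⟨huz, fun h1 => hn k hk z hz (G.sub_cell hk hz hI hu h1)⟩
      · have h1 := dist_dyc hx hu
        have h2 := size_le hin.1.2.1
        have h3 := T.pw hk
        calc ‖x - u‖ ≤ 1 / 2 ^ k₁ k / 2 ^ n k := h1.trans h2
          _ ≤ _ := by gcongr
  refine ⟨(n k, z'), ⟨rfl, hz'⟩, y, hy, ?_⟩
  have h4 := T.close k hk x (hin.1.1 hx)
  have h5 := T.t2 k hk
  calc ‖afi (L k) (b k) (h x) - y‖ = ‖(afi (L k) (b k) (h x) - x) + (x - y)‖ := by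
        congr 1; abel
    _ ≤ ‖afi (L k) (b k) (h x) - x‖ + ‖x - y‖ := norm_add_le _ _
    _ ≤ τ k / 2 ^ n k + 1 / 2 / 2 ^ J (c₀ k) / 2 ^ n k := add_le_add h4 hxy
    _ ≤ 1 / 2 / 2 ^ J (c₀ k) / 2 ^ n k + 1 / 2 / 2 ^ J (c₀ k) / 2 ^ n k := by gcongr
    _ = 1 / 2 ^ J (c₀ k) / 2 ^ n k := by ring

/-- **the input of Round 1** -/
theorem in1 {k : Idx} (hk : k ∈ K) : In1 (1 / 2 ^ J (c₀ k)) (Δ (c₀ k)) (c₀ k) v (n k) (Bk k)
    (af (L k) (b k) ⁻¹' Λ) (G.mg1 T).mesh (afi (L k) (b k) ∘ h) (G.Pk T k) (G.Zk T k) where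
  room := by
    intro z hz x hx
    refine G.mem_af T hk ?_
    rw [mem_closedBall, dist_eq_norm] at hx ⊢
    have h1 := G.near_mg hk (mem_iUnion₂.2 ⟨z, hz, ctr_mem v (n k) z⟩) (x := x) (c := 5 / 2) hx
    refine h1.trans (le_of_eq ?_)
    unfold rB
    ring
  prot := by
    rintro i ⟨c, hc, rfl⟩
    refine ⟨c.1.2, by rw [← hc]; exact c.2.2, ?_⟩
    rw [mesh_inr T G, hc]
  surj := by
    intro z hz
    exact ⟨_, ⟨⟨(k, z), hk, hz⟩, rfl, rfl⟩, mesh_inr T G _⟩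
  id := by
    rintro i ⟨c, hc, rfl⟩ x hx
    rw [mesh_inr T G] at hx
    show afi (L k) (b k) (h x) = x
    subst hc
    rw [T.mid _ c.2.1 _ c.2.2 x hx, afi_af]
  cube := by
    rintro (q | c) hi ⟨_, ⟨y, hy, rfl⟩, hz⟩
    · exact ⟨_, _, rfl⟩
    · exfalso
      have hc : c.1.1 ≠ k := fun hc => hi ⟨c, hc, rfl⟩
      have h1 := G.Nb_mg hk hz
      have hyΩ : y ∈ Ω := (G.mg1 T).mesh.sub _ hy
      exact G.other T hk hc hy (T.back hk hyΩ (c := 3 - c₀ k)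
        (by linarith [(T.c0 k hk).2]) h1).1
  small := by
    rintro (q | c) hi ⟨_, ⟨y, hy, rfl⟩, hz⟩
    · obtain ⟨h1, h2⟩ := G.zone_cube T hk q.2.1 hy hz
      intro x hx x' hx'
      have h3 : ‖x - x'‖ ≤ 1 / 2 ^ k₁ k / 2 ^ n k := (dist_dyc hx hx').trans (size_le h1.2.1)
      have h4 := T.close k hk x (h1.1 hx)
      have h5 := T.close k hk x' (h1.1 hx')
      have h6 := T.t1 k hk
      calc ‖afi (L k) (b k) (h x) - afi (L k) (b k) (h x')‖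
          = ‖(afi (L k) (b k) (h x) - x) + (x - x') - (afi (L k) (b k) (h x') - x')‖ := by
            congr 1; abel
        _ ≤ ‖(afi (L k) (b k) (h x) - x) + (x - x')‖ + ‖afi (L k) (b k) (h x') - x'‖ :=
            norm_sub_le _ _
        _ ≤ ‖afi (L k) (b k) (h x) - x‖ + ‖x - x'‖ + ‖afi (L k) (b k) (h x') - x'‖ := by
            gcongr; exact norm_add_le _ _
        _ ≤ τ k / 2 ^ n k + 1 / 2 ^ k₁ k / 2 ^ n k + τ k / 2 ^ n k := by gcongr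
        _ = (2 * τ k + 1 / 2 ^ k₁ k) / 2 ^ n k := by ring
        _ ≤ _ := by gcongr
    · exfalso
      have hc : c.1.1 ≠ k := fun hc => hi ⟨c, hc, rfl⟩
      have h1 := G.Nb_mg hk hz
      have hyΩ : y ∈ Ω := (G.mg1 T).mesh.sub _ hy
      exact G.other T hk hc hy (T.back hk hyΩ (c := 3 - c₀ k)
        (by linarith [(T.c0 k hk).2]) h1).1
  face := fun l _ => (G.mg1 T).dyM.in_face l
  drawn := by
    rintro i ⟨q, rfl, hne⟩
    refine ⟨?_, ?_⟩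
    · rintro ⟨c, -, hc⟩
      exact absurd hc (by simp)
    · rintro _ ⟨x, hx, rfl⟩
      exact G.drawn_aux T hk q.2 hne hx

end BlkG

end Vale.Agent.P073.H803
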