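import Vale.Agent.P073.H803.Blk5
import Vale.Agent.P073.H304.St1Link

/-!
# P073, block B09, [ST1-IN]: the blocks of Round 1 and their link to the partition
-/

namespace Vale.Agent.P073.H803

open MeasureTheory Set Filter Topology Metric Vale.Agent.P073.St
open Vale.Agent.P073.SQ (ev)
open Vale.Agent.P073.AB Vale.Agent.P073.AB.P86 Vale.Agent.P073.AB.S308
open Vale.Agent.P073.H73 (Mesh MinEdge segP onSeg ctr)
open Vale.Agent.P073.H687
open Vale.Agent.P073.H304 (af afi af_afi afi_af Nb bl In1 Blocks dyc_eq_closedBall Link Zn)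
open Vale.Agent.P073.H696 (am blk blkS solid deep part1)
open _root_.P073.Net (dyc dyo len)
open scoped ENNReal

variable {Ω Λ : Set V} {v : V} {I K : Set Idx} {n N N' k₁ j : Idx → ℕ}
  {Bk : Idx → Set (Fin 3 → ℤ)} {f h : V → V} {L : Idx → V ≃L[ℝ] V} {b : Idx → V}
  {c₀ τ : Idx → ℝ} {J : ℝ → ℕ} {Δ : ℝ → ℝ}

namespace BlkG

section blocks

variable (G : BlkG Ω v I K n N N' k₁ Bk) (T : BlkM Ω Λ v K n k₁ Bk f h L b c₀ τ J Δ)

include T in
theorem rB_pos {k : Idx} (hk : k ∈ K) : 0 < rB n k := by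
  have h1 := T.lt k hk
  have h2 : (2:ℝ) ^ k.1 < 2 ^ n k := pow_lt_pow_right₀ (by norm_num) h1
  have h3 : (1:ℝ) / 2 / 2 ^ n k < 1 / 2 / 2 ^ k.1 :=
    div_lt_div_of_pos_left (by norm_num) (by positivity) h2
  unfold rB
  linarith

/-- **the blocks of Round 1** -/
noncomputable def blocks : Blocks Λ J Δ v (G.mg1 T).mesh h where
  K := {k : Idx // k ∈ K}
  L := fun k => L k.1
  b := fun k => b k.1
  n := fun k => n k.1
  B := fun k => Bk k.1
  c₀ := fun k => c₀ k.1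
  a := fun k => ctr v k.1.1 k.1.2
  r := fun k => rB n k.1
  P := fun k => G.Pk T k.1
  Z := fun k => G.Zk T k.1
  pos := fun k => (T.c0 k.1 k.2).1
  le := fun k => (T.c0 k.1 k.2).2
  inp := fun k => G.in1 T k.2
  rpos := fun k => rB_pos T k.2
  zone := fun k x hx => by
    have h1 := G.Nb_mg k.2 hx
    rw [mem_ball, dist_eq_norm]
    refine h1.trans_lt ?_
    have h2 := (T.c0 k.1 k.2).2
    have h3 : (1:ℝ) / 2 / 2 ^ n k.1 < (3 - c₀ k.1) / 2 ^ n k.1 := by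
      gcongr
      linarith
    unfold rB
    linarith
  sub := fun k x hx => G.mem_af T k.2 hx
  dis := fun k l hkl => by
    rw [disjoint_left]
    intro y hy hy'
    obtain ⟨u, hu, hux⟩ := T.img k.1 k.2 hy
    obtain ⟨u', hu', hux'⟩ := T.img l.1 l.2 hy'
    obtain ⟨g, h1, -, -⟩ := T.homeo
    have h2 : u = u' := by
      rw [← (h1.1 u (G.box _ k.2 (dyo_sub_dyc hu))).2, ← (h1.1 u' (G.box _ l.2 (dyo_sub_dyc hu'))).2,
        hux, hux']
    subst h2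
    exact disjoint_left.1 (G.dis _ k.2 _ l.2 fun h => hkl (Subtype.ext h)) hu hu'
  lf := fun y hy => by
    obtain ⟨g, h1, -, h3⟩ := T.homeo
    have hx : g y ∈ Ω := (h1.2 y hy).1
    obtain ⟨C, hC, hxC, hCΩ⟩ := exists_compact_subset G.opn hx
    refine ⟨Λ ∩ g ⁻¹' interior C, ?_, ?_⟩
    · have h4 : ContinuousAt g y := (h3 y hy).continuousAt (T.Λo.mem_nhds hy)
      exact inter_mem (T.Λo.mem_nhds hy) (h4 (isOpen_interior.mem_nhds hxC))
    · have h5 := (G.fin C hCΩ hC).preimage (f := fun k : {k : Idx // k ∈ K} => k.1)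
        Subtype.val_injective.injOn
      refine h5.subset ?_
      rintro k ⟨w, hw, hw', hwC⟩
      obtain ⟨u, hu, hux⟩ := T.img k.1 k.2 hw
      refine ⟨k.2, u, dyo_sub_dyc hu, ?_⟩
      have h6 : g w = u := by
        rw [← hux]; exact (h1.1 u (G.box _ k.2 (dyo_sub_dyc hu))).2
      rw [← h6]
      exact interior_subset hwC

theorem mem_U_iff {q : Idx} : q ∈ (G.mg1 T).U ↔ q ∈ pt1 v K n k₁ Bk I ∧
    ∀ c : CellIx K Bk, q ∉ midI v n k₁ (fun k => J (c₀ k)) c.1.1 c.1.2 := Iff.rfl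

include G in
/-- a solid cube touches the cells of the box in which it lies -/
theorem sol_box {q : Idx} {k : Idx} (hk : k ∈ K)
    (hs : q ∈ sol v K n Bk (pt1 v K n k₁ Bk I)) {y : V} (hy : y ∈ dyc v q.1 q.2)
    (hyk : y ∈ dyo v k.1 k.2) : (dyc v q.1 q.2 ∩ bS v n Bk k).Nonempty := by
  obtain ⟨hq, k', hk', hne⟩ := hs
  have h1 := G.sol_in hk' hq hne
  have h2 := G.toBlkD.box_uniq hk hk' hyk (h1.1.1 hy)
  rw [h2]
  exact hne

end blocks

/-- **the link** -/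
theorem link {F : V → Mat} {x : Idx → V}
    (G : BlkG Ω v I K n N N' k₁ fun k => blk k (n k))
    (T : BlkM Ω Λ v K n k₁ (fun k => blk k (n k)) f h L b c₀ τ J Δ)
    (hL : ∀ k ∈ K, ∀ y, af (L k) (b k) y = am f F (x k) y) :
    Link (G.blocks T) f F K x n N' c₀ (part1 v K n k₁ I) (G.mg1 T).U (fun k => k.1) where
  dy := (G.mg1 T).dyM
  mem := fun k => k.2
  surj := fun k hk => ⟨⟨k, hk⟩, rfl⟩
  am := fun k y => hL k.1 k.2 y
  n_eq := fun _ => rfl
  B_eq := fun _ => rfl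
  c_eq := fun _ => rfl
  drawn := by
    rintro q hq ⟨hq1, k, hk, hne⟩
    exact ⟨⟨k, hk⟩, (G.sol_in hk hq1 hne).1.1, _, ⟨⟨q, hq⟩, rfl, hne⟩, rfl⟩
  prot := by
    intro q hq hU
    have h1 : ∃ c : CellIx K fun k => blk k (n k), q ∈ midI v n k₁ (fun k => J (c₀ k)) c.1.1 c.1.2 := by
      by_contra hcon
      push Not at hcon
      exact hU ⟨hq, hcon⟩
    obtain ⟨c, hc⟩ := h1
    have h2 : dyc v q.1 q.2 ⊆ dyc v (n c.1.1) c.1.2 :=
      hc.2.trans ((mid_sub_dyo v _).trans dyo_sub_dyc)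
    refine ⟨⟨c.1.1, c.2.1⟩, ?_, ?_, _, ⟨c, rfl, rfl⟩, ?_⟩
    · exact h2.trans (subset_iUnion₂ (s := fun z (_ : z ∈ blk c.1.1 (n c.1.1)) =>
        dyc v (n c.1.1) z) c.1.2 c.2.2)
    · exact (h2.trans (G.inn _ c.2.1 _ c.2.2)).trans dyo_sub_dyc
    · rw [mesh_inr T G]
      exact hc.2
  zone := by
    rintro k q hq ⟨y, hy, hz⟩
    obtain ⟨h1, h2⟩ := G.zone_cube T k.2 hq.1 hy hz
    refine ⟨h1.1, fun u hu => ?_⟩
    rw [mem_closedBall, dist_eq_norm]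
    refine (h2 u hu).2.2.trans ?_
    show _ ≤ rB n k.1
    unfold rB
    have h3 : (1:ℝ) / 2 / 2 ^ n k.1 ≤ 3 / 2 / 2 ^ n k.1 := by
      gcongr
      norm_num
    linarith
  uni := fun s hs h1 h2 e he hes => G.uni hs h1 h2 he hes
  nbd := by
    rintro k q ⟨hq, hqn⟩ ⟨y₀, hy₀, hz⟩ i' hP hZ ⟨y, hy, y', hy', hd⟩
    obtain ⟨h1, h2⟩ := G.zone_cube T k.2 hq hy₀ hz
    have hc := (T.c0 k.1 k.2).2
    have hp : (0:ℝ) < 2 ^ n k.1 := by positivity
    have hd' : ‖afi (L k.1) (b k.1) (h y) - afi (L k.1) (b k.1) (h y')‖ ≤ c₀ k.1 / 2 ^ n k.1 := hd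
    have h3 : ‖afi (L k.1) (b k.1) (h y') - ctr v k.1.1 k.1.2‖ ≤
        1 / 2 / 2 ^ k.1.1 - 5 / 4 / 2 ^ n k.1 := by
      have h4 : c₀ k.1 / 2 ^ n k.1 ≤ 1 / 4 / 2 ^ n k.1 := by
        gcongr
        linarith
      calc ‖afi (L k.1) (b k.1) (h y') - ctr v k.1.1 k.1.2‖ =
            ‖(afi (L k.1) (b k.1) (h y) - ctr v k.1.1 k.1.2) -
              (afi (L k.1) (b k.1) (h y) - afi (L k.1) (b k.1) (h y'))‖ := by congr 1; abel
        _ ≤ _ := norm_sub_le _ _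
        _ ≤ (1 / 2 / 2 ^ k.1.1 - 3 / 2 / 2 ^ n k.1) + 1 / 4 / 2 ^ n k.1 :=
          add_le_add (h2 y hy).2.2 (hd'.trans h4)
        _ = _ := by ring
    have hyΩ : y' ∈ Ω := (G.mg1 T).mesh.sub i' hy'
    obtain ⟨h5, h6⟩ := T.back k.2 hyΩ (c := 5 / 4) (by norm_num) h3
    rcases i' with q' | c
    · have hq' : q'.1 ∈ part1 v K n k₁ I := q'.2.1
      have h7 := G.in_box k.2 hq' hy' h5
      refine ⟨q'.1, ⟨hq', fun hs => ?_⟩, rfl, h7.1, fun e he hes => ?_⟩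
      · exact hZ ⟨q', rfl, G.sol_box k.2 hs hy' h5⟩
      · obtain ⟨u, hu⟩ := Gr.edge_nonempty v e
        refine G.edge_gen k.2 he hu (BlkG.dyo_of_margin (c := 1 / 4) (by norm_num) (n := n) ?_)
        have h8 : ‖u - y'‖ ≤ 1 / 4 / 2 ^ n k.1 := by
          refine ((dist_dyc (hes hu) hy').trans (size_le h7.2.1)).trans ?_
          have h9 := T.pw k.2
          have h10 := T.jq k.2
          have h12 : (1:ℝ) / 2 ^ k₁ k.1 ≤ 1 / 4 := h9.trans h10
          exact div_le_div_of_nonneg_right h12 hp.le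
        have h11 : τ k.1 ≤ 1 / 4 := (T.t2 k.1 k.2).trans (T.jq k.2)
        calc ‖u - ctr v k.1.1 k.1.2‖ = ‖(u - y') + (y' - ctr v k.1.1 k.1.2)‖ := by congr 1; abel
          _ ≤ ‖u - y'‖ + ‖y' - ctr v k.1.1 k.1.2‖ := norm_add_le _ _
          _ ≤ 1 / 4 / 2 ^ n k.1 + (1 / 2 / 2 ^ k.1.1 - (5 / 4 - τ k.1) / 2 ^ n k.1) :=
            add_le_add h8 h6
          _ = 1 / 2 / 2 ^ k.1.1 - (1 - τ k.1) / 2 ^ n k.1 := by ring
          _ ≤ _ := by
            have : (1:ℝ) / 4 / 2 ^ n k.1 ≤ (1 - τ k.1) / 2 ^ n k.1 := by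
              gcongr
              linarith
            linarith
    · exfalso
      by_cases hck : c.1.1 = k.1
      · exact hP ⟨c, hck, rfl⟩
      · exact G.other T k.2 hck hy' h5

end BlkG

end Vale.Agent.P073.H803
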