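import Vale.Agent.P073.H803.Blk6

/-!
# P073, block B09, [ST1-IN]: the setting of Round 1 from the partition of the domain
-/

namespace Vale.Agent.P073.H803

open MeasureTheory Set Filter Topology Metric Vale.Agent.P073.St
open Vale.Agent.P073.SQ (ev)
open Vale.Agent.P073.AB Vale.Agent.P073.AB.P86 Vale.Agent.P073.AB.S308
open Vale.Agent.P073.H73 (Mesh MinEdge segP onSeg ctr)
open Vale.Agent.P073.H687
open Vale.Agent.P073.H304 (af afi af_afi afi_af dyc_eq_closedBall)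
open Vale.Agent.P073.H696 (am blk blkS solid deep part1 Dom IsNear)
open _root_.P073.Net (dyc dyo len)
open scoped ENNReal

variable {Ω : Set V} {v : V} {I K : Set Idx} {n N N' k₁ : Idx → ℕ}

/-- the margin of the cells of the inner block -/
theorem blk_mg {k : Idx} {m : ℕ} (hk : k.1 ≤ m) {z : Fin 3 → ℤ} (hz : z ∈ blk k m) {y : V}
    (hy : y ∈ dyc v m z) : ‖y - ctr v k.1 k.2‖ ≤ 1 / 2 / 2 ^ k.1 - 3 / 2 ^ m := by
  have hp : (0:ℝ) < 2 ^ m := by positivity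
  have hpk : (0:ℝ) < 2 ^ k.1 := by positivity
  have hm : (2:ℝ) ^ m = 2 ^ (m - k.1) * 2 ^ k.1 := by rw [← pow_add]; congr 1; omega
  have hpm : (0:ℝ) < 2 ^ (m - k.1) := by positivity
  have key : ∀ i, |y i - ctr v k.1 k.2 i| ≤ 1 / 2 / 2 ^ k.1 - 3 / 2 ^ m := by
    intro i
    have h1 := (hz i).1
    have h2 := (hz i).2
    have h3 : (2:ℝ) ^ (m - k.1) * k.2 i + 3 ≤ z i := by exact_mod_cast h1
    have h4 : (z i : ℝ) + 4 ≤ 2 ^ (m - k.1) * (k.2 i + 1) := by exact_mod_cast h2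
    have h5 : (k.2 i : ℝ) / 2 ^ k.1 + 3 / 2 ^ m ≤ z i / 2 ^ m := by
      have e : (k.2 i : ℝ) / 2 ^ k.1 + 3 / 2 ^ m = (2 ^ (m - k.1) * k.2 i + 3) / 2 ^ m := by
        rw [add_div, hm]
        field_simp
      rw [e]
      gcongr
    have h6 : ((z i : ℝ) + 1) / 2 ^ m ≤ (k.2 i + 1) / 2 ^ k.1 - 3 / 2 ^ m := by
      have e : ((k.2 i : ℝ) + 1) / 2 ^ k.1 - 3 / 2 ^ m =
          (2 ^ (m - k.1) * (k.2 i + 1) - 3) / 2 ^ m := by
        rw [sub_div, hm]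
        field_simp
      rw [e]
      gcongr
      linarith
    have h7 := hy i
    have e3 : ctr v k.1 k.2 i = v i + (k.2 i + 1 / 2) / 2 ^ k.1 := rfl
    have e4 : ((k.2 i : ℝ) + 1 / 2) / 2 ^ k.1 = k.2 i / 2 ^ k.1 + 1 / 2 / 2 ^ k.1 := add_div _ _ _
    have e5 : ((k.2 i : ℝ) + 1) / 2 ^ k.1 = k.2 i / 2 ^ k.1 + 1 / 2 / 2 ^ k.1 + 1 / 2 / 2 ^ k.1 := by
      rw [add_div]; ring
    rw [e3, e4, abs_le]
    rw [e5] at h6
    constructor <;> linarith [h7.1, h7.2]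
  have h0 : 0 ≤ 1 / 2 / 2 ^ k.1 - (3:ℝ) / 2 ^ m := (abs_nonneg _).trans (key 0)
  rw [pi_norm_le_iff_of_nonneg h0]
  exact key

/-- **the setting of Round 1** -/
theorem blkG_of_dom {H : V → ℝ≥0∞} {r : V → ℝ} {ε : ℝ≥0∞} {tol : Idx → ℝ≥0∞} (hΩ : IsOpen Ω)
    (Dm : Dom Ω v H K n N r ε tol I N') (hbox : ∀ k ∈ K, dyc v k.1 k.2 ⊆ Ω ∧ k.1 ≤ n k)
    (hdis : ∀ k ∈ K, ∀ k' ∈ K, k ≠ k' → Disjoint (dyo v k.1 k.2) (dyo v k'.1 k'.2))
    (hfin : ∀ C ⊆ Ω, IsCompact C → {k ∈ K | (dyc v k.1 k.2 ∩ C).Nonempty}.Finite)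
    (hk₁ : ∀ k ∈ K, 2 ≤ k₁ k ∧ n k + k₁ k ≤ N k) :
    BlkG Ω v I K n N N' k₁ fun k => blk k (n k) where
  opn := hΩ
  part := Dm.part
  box := fun k hk => (hbox k hk).1
  inn := fun k hk z hz y hy => BlkG.dyo_of_margin (n := n) (c := 3) (by norm_num)
    (blk_mg (hbox k hk).2 hz hy)
  dis := hdis
  fin := hfin
  le := fun k hk => (hk₁ k hk).2
  near := by
    rintro k hk z hz w ⟨x, hx, hxz⟩
    exact Dm.near k hk w ⟨x, hx, mem_iUnion₂.2 ⟨z, hz, hxz⟩⟩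
  gen := Dm.gen
  cmp := Dm.box
  out := Dm.out
  mg := fun k hk z hz y hy => blk_mg (hbox k hk).2 hz hy
  k2 := fun k hk => (hk₁ k hk).1

/-- **the partition of Round 1** (literal form) -/
theorem part_part1 (G : BlkG Ω v I K n N N' k₁ fun k => blk k (n k)) :
    Part Ω v (part1 v K n k₁ I) := G.part1

/-- an invertible linear map as a continuous linear equivalence -/
theorem exists_equiv (A : V →L[ℝ] V) (hA : A.det ≠ 0) :
    ∃ L : V ≃L[ℝ] V, ∀ x, L x = A x := by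
  refine ⟨(LinearEquiv.ofIsUnitDet (f := (A : V →ₗ[ℝ] V)) (v := Pi.basisFun ℝ (Fin 3))
    (v' := Pi.basisFun ℝ (Fin 3)) ?_).toContinuousLinearEquiv, fun x => rfl⟩
  rw [LinearMap.det_toMatrix]
  exact isUnit_iff_ne_zero.2 hA

/-- the affine maps of the boxes -/
theorem exists_af {f : V → V} {F : V → Mat} {x : Idx → V}
    (hx : ∀ k ∈ K, (cl (F (x k))).det ≠ 0) :
    ∃ (L : Idx → V ≃L[ℝ] V) (b : Idx → V), ∀ k ∈ K,
      (∀ y, L k y = cl (F (x k)) y) ∧ ∀ y, af (L k) (b k) y = am f F (x k) y := by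
  classical
  have h1 : ∀ k, ∃ (L : V ≃L[ℝ] V) (b : V), k ∈ K →
      (∀ y, L y = cl (F (x k)) y) ∧ ∀ y, af L b y = am f F (x k) y := by
    intro k
    by_cases hk : k ∈ K
    · obtain ⟨L, hL⟩ := exists_equiv (cl (F (x k))) (hx k hk)
      refine ⟨L, f (x k) - cl (F (x k)) (x k), fun _ => ⟨hL, fun y => ?_⟩⟩
      simp only [af, am, H911.aff, hL, map_sub]
      abel
    · exact ⟨ContinuousLinearEquiv.refl ℝ V, 0, fun h => absurd h hk⟩
  choose L b h using h1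
  exact ⟨L, b, fun k hk => h k hk⟩

end Vale.Agent.P073.H803
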