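import Vale.Agent.P073.H803.Dya2
import Vale.Agent.P073.H304.OutB

/-!
# P073, branch B, [MESH-B] (D4): the output of `K3C` in dyadic form

For a mesh `M` with `DyM M v I U` (the faces are the minimal squares of the partition `I` in the
cubes of `U`).
-/

namespace Vale.Agent.P073.H803

open MeasureTheory Set Filter Topology Metric Vale.Agent.P073.St
open Vale.Agent.P073.SQ (ev)
open Vale.Agent.P073.AB Vale.Agent.P073.AB.P86
open Vale.Agent.P073.H73 (Mesh MinEdge segP onSeg ctr sqr)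
open Vale.Agent.P073.H194 (cellT)
open Vale.Agent.P073.H687
open Vale.Agent.P073.H304 (IsEdge Nb Cst Small LipBd OutB)
open _root_.P073 (ConHomeo)
open _root_.P073.Net (dyc dyo len SizeFn)
open scoped ENNReal

variable {Ω Λ : Set V} {v : V} {I U : Set Idx}

/-- the length does not depend on the orientation -/
theorem len_swap (h : V → V) (e : V × V) :
    len (onSeg h (e.2, e.1)) (Icc 0 1) = len (onSeg h e) (Icc 0 1) := by
  unfold len
  have h1 : (fun t => (WithLp.toLp 2 (onSeg h (e.2, e.1) t) : EuclideanSpace ℝ (Fin 3))) =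
      (fun t => (WithLp.toLp 2 (onSeg h e t) : EuclideanSpace ℝ (Fin 3))) ∘ fun t => 1 - t := by
    funext t
    simp only [Function.comp, onSeg]
    have h2 : e.2 + t • (e.1 - e.2) = e.1 + (1 - t) • (e.2 - e.1) := by module
    rw [h2]
  rw [h1, eVariationOn.comp_eq_of_antitoneOn]
  · simp
  · intro a _ b _ hab
    simp only
    linarith

theorem squ_injective (v : V) : Function.Injective (AB.squ v) := by
  have key : ∀ s s' : Idx × Fin 3, AB.squ v s = AB.squ v s' → s.2 = s'.2 ∧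
      ∀ j, j ≠ s.2 → v j + (s'.1.2 j : ℝ) / 2 ^ s'.1.1 ≤ v j + s.1.2 j / 2 ^ s.1.1 ∧
        v j + ((s.1.2 j : ℝ) + 1) / 2 ^ s.1.1 ≤ v j + (s'.1.2 j + 1) / 2 ^ s'.1.1 := by
    intro s s' h
    have hpos : (0:ℝ) < 1 / 2 ^ s.1.1 := by positivity
    have h0 : (fun j => v j + (s.1.2 j : ℝ) / 2 ^ s.1.1) ∈ AB.squ v s := by
      refine ⟨rfl, fun j _ => ⟨le_rfl, ?_⟩⟩
      rw [add_div]; linarith
    have h1 : (fun j => if j = s.2 then v j + (s.1.2 j : ℝ) / 2 ^ s.1.1 else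
        v j + (s.1.2 j + 1) / 2 ^ s.1.1) ∈ AB.squ v s := by
      refine ⟨?_, fun j hj => ?_⟩
      · simp
      · simp only [hj, if_false]
        refine ⟨?_, le_rfl⟩
        rw [add_div]; linarith
    rw [h] at h0 h1
    have hd : s.2 = s'.2 := by
      by_contra hne
      have a := h0.1
      have b := h1.1
      simp only [Ne.symm hne, if_false] at a b
      rw [add_div] at b
      linarith
    refine ⟨hd, fun j hj => ?_⟩
    have a := h0.2 j (hd ▸ hj)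
    have b := h1.2 j (hd ▸ hj)
    simp only [hj, if_false] at a b
    exact ⟨a.1, b.2⟩
  intro s s' h
  obtain ⟨hd, h1⟩ := key s s' h
  obtain ⟨-, h2⟩ := key s' s h.symm
  rw [← hd] at h2
  have h3 : ∀ j, j ≠ s.2 → (s.1.2 j : ℝ) / 2 ^ s.1.1 = s'.1.2 j / 2 ^ s'.1.1 ∧
      ((s.1.2 j : ℝ) + 1) / 2 ^ s.1.1 = (s'.1.2 j + 1) / 2 ^ s'.1.1 := fun j hj =>
    ⟨by linarith [(h1 j hj).1, (h2 j hj).1], by linarith [(h1 j hj).2, (h2 j hj).2]⟩
  have hg : s.1.1 = s'.1.1 := by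
    have h4 := h3 (s.2 + 1) (H194.fin3_ne1 s.2).symm
    have h5 : (1:ℝ) / 2 ^ s.1.1 = 1 / 2 ^ s'.1.1 := by
      have := h4.2
      rw [add_div, add_div] at this
      linarith [h4.1]
    exact le_antisymm (pow_le_of_div h5.ge) (pow_le_of_div h5.le)
  have hz : s.1.2 = s'.1.2 := by
    funext j
    have h4 : (s.1.2 j : ℝ) / 2 ^ s.1.1 = s'.1.2 j / 2 ^ s'.1.1 := by
      by_cases hj : j = s.2
      · subst hj
        have a : (fun j => v j + (s.1.2 j : ℝ) / 2 ^ s.1.1) ∈ AB.squ v s := by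
          refine ⟨rfl, fun j _ => ⟨le_rfl, ?_⟩⟩
          have hpos : (0:ℝ) < 1 / 2 ^ s.1.1 := by positivity
          rw [add_div]; linarith
        rw [h] at a
        have b := a.1
        rw [← hd] at b
        linarith
      · exact (h3 j hj).1
    rw [hg] at h4
    have h5 := (div_left_inj' (show ((2:ℝ) ^ s'.1.1) ≠ 0 by positivity)).1 h4
    exact_mod_cast h5
  exact Prod.ext (Prod.ext hg hz) hd

namespace DyM

variable {M : Mesh Ω}

theorem inj (Dm : DyM M v I U) {k l : M.κ} (h : M.F k = M.F l) : k = l := by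
  by_contra hne
  have h1 := M.fdisj k l hne
  rw [← h] at h1
  obtain ⟨s, -, hs, -⟩ := Dm.face k
  rw [hs, intrinsicInterior_squ] at h1
  exact Set.disjoint_left.1 h1 sc_mem (rel_sub sc_mem)

/-- the square of a face -/
noncomputable def sq (Dm : DyM M v I U) (k : M.κ) : Idx × Fin 3 := (Dm.face k).choose

theorem sq_min (Dm : DyM M v I U) (k : M.κ) : MinSq v I (Dm.sq k) := (Dm.face k).choose_spec.1

theorem sq_eq (Dm : DyM M v I U) (k : M.κ) : M.F k = AB.squ v (Dm.sq k) :=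
  (Dm.face k).choose_spec.2.1

theorem sq_eq_iff (Dm : DyM M v I U) {k : M.κ} {s : Idx × Fin 3} :
    Dm.sq k = s ↔ M.F k = AB.squ v s := by
  constructor
  · rintro rfl; exact Dm.sq_eq k
  · intro h
    rw [Dm.sq_eq k] at h
    exact squ_injective v h

theorem sq_inj (Dm : DyM M v I U) : Function.Injective Dm.sq := fun k l h =>
  Dm.inj (by rw [Dm.sq_eq k, Dm.sq_eq l, h])

/-- the tolerances of `K3C` from tolerances for the squares -/
theorem exists_tol (Dm : DyM M v I U) {εs : Idx × Fin 3 → ℝ} (h : ∀ s, 0 < εs s) :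
    ∃ ε : M.κ → ℝ, (∀ k, 0 < ε k) ∧ ∀ k s, M.F k = AB.squ v s → 2 * ε k = εs s := by
  refine ⟨fun k => εs (Dm.sq k) / 2, fun k => half_pos (h _), fun k s hk => ?_⟩
  simp only [Dm.sq_eq_iff.2 hk]
  ring

end DyM

/-- a function of dyadic edges as a function of segments -/
noncomputable def onE (v : V) (ℓ : Idx × Fin 3 → ℝ≥0∞) : V × V → ℝ≥0∞ :=
  Function.extend (segP v) ℓ 0

theorem onE_segP (v : V) (ℓ : Idx × Fin 3 → ℝ≥0∞) (e : Idx × Fin 3) :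
    onE v ℓ (segP v e) = ℓ e :=
  (segP_injective v).extend_apply _ _ _

/-- the minimal edges in a cube -/
theorem finite_edge_cube (hI : Part Ω v I) {q : Idx} (hq : q ∈ I) :
    {e | MinEdge v I e ∧ edge v e ⊆ dyc v q.1 q.2}.Finite := by
  refine (Gr.finite_edges hI (hI.sub q hq) (isCompact_dyc _ _ _)).subset ?_
  rintro e ⟨h1, h2⟩
  obtain ⟨y, hy⟩ := Gr.edge_nonempty v e
  exact ⟨h1.1, y, hy, h2 hy⟩

/-- the sum over the minimal edges of a minimal square in `K3C`, with tolerance `t` -/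
noncomputable def sqSum (v : V) (I : Set Idx) (p : ℝ) (ℓ : Idx × Fin 3 → ℝ≥0∞) (t : ℝ)
    (s : Idx × Fin 3) : ℝ≥0∞ :=
  ∑' e : {e : Idx × Fin 3 // MinEdge v I e ∧ edge v e ⊆ squ v s},
    ENNReal.ofReal ((1 / 2 ^ e.1.1.1) ^ (1 - p)) * (ℓ e.1 + ENNReal.ofReal t) ^ p

/-- the sum over the minimal squares in a cube -/
noncomputable def cubeSum (v : V) (I : Set Idx) (p : ℝ) (ℓ : Idx × Fin 3 → ℝ≥0∞)
    (εs : Idx × Fin 3 → ℝ) (q : Idx) : ℝ≥0∞ :=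
  ∑' s : {s : Idx × Fin 3 // MinSq v I s ∧ squ v s ⊆ dyc v q.1 q.2},
    ENNReal.ofReal (1 / 2 ^ s.1.1.1) * sqSum v I p ℓ (εs s.1) s.1

theorem ratio_le {s e : Idx × Fin 3} (h : edge v e ⊆ squ v s) :
    (1 / 2 ^ e.1.1 : ℝ) / (1 / 2 / 2 ^ s.1.1) ≤ 2 := by
  have h1 := gen_le_of_edge h
  have h2 : (2:ℝ) ^ s.1.1 ≤ 2 ^ e.1.1 := pow_le_pow_right₀ (by norm_num) h1
  have h3 : (0:ℝ) < 2 ^ s.1.1 := by positivity
  have h4 : (0:ℝ) < 2 ^ e.1.1 := by positivity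
  rw [div_le_iff₀ (by positivity)]
  have h5 : (1:ℝ) / 2 ^ e.1.1 ≤ 1 / 2 ^ s.1.1 := one_div_le_one_div_of_le h3 h2
  calc (1:ℝ) / 2 ^ e.1.1 ≤ 1 / 2 ^ s.1.1 := h5
    _ = 2 * (1 / 2 / 2 ^ s.1.1) := by ring

/-- the sum of `K3C` over the edges of a square face -/
theorem sum_le_sqSum (hI : Part Ω v I) {s : Idx × Fin 3} (hs : MinSq v I s) {p : ℝ} (hp : 0 ≤ p)
    (ℓ : Idx × Fin 3 → ℝ≥0∞) {ε t : ℝ} (hε : 0 ≤ ε) (ht : 2 * ε ≤ t) :
    ∑ e ∈ edges hI hs, ENNReal.ofReal (‖e.2 - e.1‖ ^ (1 - p)) *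
      (onE v ℓ e + ENNReal.ofReal (ε * ‖e.2 - e.1‖ / (1 / 2 / 2 ^ s.1.1))) ^ p ≤
    sqSum v I p ℓ t s := by
  rw [sum_edges hI hs]
  unfold sqSum
  refine ENNReal.tsum_le_tsum fun e => ?_
  rw [onE_segP, norm_segP]
  gcongr
  refine le_trans ?_ ht
  rw [mul_div_assoc, mul_comm]
  exact mul_le_mul_of_nonneg_right (ratio_le e.2.2) hε

namespace DyM

variable {M : Mesh Ω} {p D D' η c₀ m' : ℝ} {w : V} {ρ : V → ℝ} {h : V → V}
  {J₀ J : Set (ℕ × (Fin 3 → ℤ))} {P Z : Set M.ι} {Y : Set M.κ} {ε : M.κ → ℝ} {g : ConHomeo Ω Λ}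

/-- **(D4), drawn cells** -/
theorem drawn (Dm : DyM M v I U) (O : OutB p D D' η c₀ m' w ρ M h J₀ J P Z Y ε g) (hp : 0 ≤ p)
    (hε : ∀ k, 0 ≤ ε k) {εs : Idx × Fin 3 → ℝ} (hεs : ∀ k s, M.F k = AB.squ v s → 2 * ε k ≤ εs s)
    {i : M.ι} (hi : i ∈ Z) {q : Idx} (hiq : M.Q i = dyc v q.1 q.2) {C : ℝ} 
    (hC : Cst M Y D D' (dyc v q.1 q.2) C) :
    ∃ G : V → ℝ, LipBd g.toFun (dyc v q.1 q.2) G ∧ ∀ ℓ : Idx × Fin 3 → ℝ≥0∞,
      (∀ e, MinEdge v I e → edge v e ⊆ dyc v q.1 q.2 →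
        len (onSeg h (segP v e)) (Icc 0 1) ≤ ℓ e) →
      ∫⁻ x in dyc v q.1 q.2, ENNReal.ofReal (G x ^ p) ≤
        ENNReal.ofReal (C / 2 ^ q.1) * cubeSum v I p ℓ εs q := by
  rw [← hiq] at hC
  obtain ⟨G, hG, H⟩ := O.drawn i hi C hC
  rw [hiq] at hG
  refine ⟨G, hG, fun ℓ hℓ => ?_⟩
  have h1 := H v q.1 q.2 hiq (fun k => edges Dm.part (Dm.sq_min k.1))
    (fun k => 1 / 2 / 2 ^ (Dm.sq k.1).1.1) (onE v ℓ)
    (fun k => Dm.adapted (Dm.sq_min k.1) (Dm.sq_eq k.1))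
    (fun k => ⟨by positivity, _, _, (Dm.sq_eq k.1).trans (squ_eq_sqr v _)⟩) ?_
  · rw [← hiq]
    refine h1.trans ?_
    gcongr
    have h2 : ∀ k : {k // M.F k ⊆ M.Q i}, ENNReal.ofReal (1 / 2 / 2 ^ (Dm.sq k.1).1.1) *
        ∑ e ∈ edges Dm.part (Dm.sq_min k.1), ENNReal.ofReal (‖e.2 - e.1‖ ^ (1 - p)) *
          (onE v ℓ e + ENNReal.ofReal (ε k.1 * ‖e.2 - e.1‖ / (1 / 2 / 2 ^ (Dm.sq k.1).1.1))) ^ p ≤
        ENNReal.ofReal (1 / 2 ^ (Dm.sq k.1).1.1) *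
          sqSum v I p ℓ (εs (Dm.sq k.1)) (Dm.sq k.1) := by
      intro k
      gcongr
      · norm_num
      · exact sum_le_sqSum Dm.part (Dm.sq_min k.1) hp ℓ (hε _) (hεs _ _ (Dm.sq_eq k.1))
    refine (ENNReal.tsum_le_tsum h2).trans ?_
    unfold cubeSum
    exact ENNReal.tsum_comp_le_tsum_of_injective
      (f := fun k : {k // M.F k ⊆ M.Q i} => (⟨Dm.sq k.1, Dm.sq_min k.1, by
        rw [← Dm.sq_eq k.1, ← hiq]; exact k.2⟩ :
        {s : Idx × Fin 3 // MinSq v I s ∧ AB.squ v s ⊆ dyc v q.1 q.2}))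
      (fun k l hkl => Subtype.ext (Dm.sq_inj (congrArg Subtype.val hkl)))
      fun s : {s : Idx × Fin 3 // MinSq v I s ∧ AB.squ v s ⊆ dyc v q.1 q.2} =>
        ENNReal.ofReal (1 / 2 ^ s.1.1.1) * sqSum v I p ℓ (εs s.1) s.1
  · intro k e he
    obtain ⟨e', he', rfl⟩ := (mem_edges _ _).1 he
    rw [onE_segP]
    refine hℓ e' he'.1 (he'.2.trans ?_)
    rw [← Dm.sq_eq k.1, ← hiq]
    exact k.2

/-- **(D4), faces of drawn cells: energy** -/
theorem fface (Dm : DyM M v I U) (O : OutB p D D' η c₀ m' w ρ M h J₀ J P Z Y ε g) (hp : 0 ≤ p)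
    (hε : ∀ k, 0 ≤ ε k) {εs : Idx × Fin 3 → ℝ} (hεs : ∀ k s, M.F k = AB.squ v s → 2 * ε k ≤ εs s)
    {i : M.ι} (hi : i ∈ Z) {k : M.κ} (hki : M.F k ⊆ M.Q i) {s : Idx × Fin 3} (hs : MinSq v I s)
    (hk : M.F k = AB.squ v s) {C : ℝ} (hC0 : 0 ≤ C) (hC : Cst M Y D D' (AB.squ v s) C) :
    ∃ G : V → ℝ, LipBd g.toFun (AB.squ v s) G ∧ ∀ ℓ : Idx × Fin 3 → ℝ≥0∞,
      (∀ e, MinEdge v I e → edge v e ⊆ AB.squ v s →
        len (onSeg h (segP v e)) (Icc 0 1) ≤ ℓ e) →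
      ∫⁻ x in SQ.cube (sc v s) (1 / 2 / 2 ^ s.1.1),
          ENNReal.ofReal (G (Function.update x s.2 (sc v s s.2)) ^ p) ≤
        ENNReal.ofReal (C * (1 / 2 ^ s.1.1) ^ 2) * sqSum v I p ℓ (εs s) s := by
  rw [← hk] at hC
  obtain ⟨G, hG, H⟩ := O.face k ⟨i, hi, hki⟩ C hC
  rw [hk] at hG
  refine ⟨G, hG, fun ℓ hℓ => ?_⟩
  have h1 := H (edges Dm.part hs) (onE v ℓ) (sc v s) s.2 (1 / 2 / 2 ^ s.1.1) (by positivity)
    (hk.trans (squ_eq_sqr v _)) (Dm.adapted hs hk) ?_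
  · refine h1.trans ?_
    gcongr
    · norm_num
    · exact sum_le_sqSum Dm.part hs hp ℓ (hε _) (hεs _ _ hk)
  · intro e he
    obtain ⟨e', he', rfl⟩ := (mem_edges _ _).1 he
    rw [onE_segP]
    exact hℓ e' he'.1 he'.2

/-- **(D4), faces of drawn cells: Lipschitz constant** -/
theorem flip (Dm : DyM M v I U) (O : OutB p D D' η c₀ m' w ρ M h J₀ J P Z Y ε g)
    {i : M.ι} (hi : i ∈ Z) {k : M.κ} (hki : M.F k ⊆ M.Q i) {s : Idx × Fin 3} (hs : MinSq v I s)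
    (hk : M.F k = AB.squ v s) {C : ℝ} (hC : Cst M Y D D' (AB.squ v s) C) {K : ℝ}
    (hK : ∀ e, MinEdge v I e → edge v e ⊆ AB.squ v s →
      len (onSeg h (segP v e)) (Icc 0 1) + ENNReal.ofReal (ε k) ≤
        ENNReal.ofReal (K * (1 / 2 ^ e.1.1))) :
    ∀ x ∈ AB.squ v s, ∀ y ∈ AB.squ v s, ‖g.toFun x - g.toFun y‖ ≤ C * K * ‖x - y‖ := by
  rw [← hk] at hC ⊢
  refine O.flip k ⟨i, hi, hki⟩ C hC (edges Dm.part hs) (fun e => len (onSeg h e) (Icc 0 1)) K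
    (Dm.adapted hs hk) fun e he => ⟨le_rfl, ?_⟩
  obtain ⟨e', he', rfl⟩ := (mem_edges _ _).1 he
  rw [norm_segP]
  exact hK e' he'.1 he'.2

/-- **(D4), edges** -/
theorem len_edge (Dm : DyM M v I U) (O : OutB p D D' η c₀ m' w ρ M h J₀ J P Z Y ε g)
    {e : Idx × Fin 3} (he : MinEdge v I e) {q : Idx} (hq : q ∈ U)
    (hsub : edge v e ⊆ dyc v q.1 q.2) {k : M.κ} (hk : edge v e ⊆ M.F k) :
    len (onSeg g.toFun (segP v e)) (Icc 0 1) ≤
      ENNReal.ofReal D * len (onSeg h (segP v e)) (Icc 0 1) + ENNReal.ofReal (ε k) :=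
  O.edge k _ (Dm.isEdge he hq hsub) hk

/-- every minimal edge in a cube of `U` is in a face -/
theorem exists_face_of_edge (Dm : DyM M v I U) {e : Idx × Fin 3} (he : MinEdge v I e) {q : Idx}
    (hq : q ∈ U) (hsub : edge v e ⊆ dyc v q.1 q.2) :
    ∃ k s, MinSq v I s ∧ M.F k = AB.squ v s ∧ edge v e ⊆ AB.squ v s := by
  obtain ⟨s, hs, -, h1, h2⟩ := Dm.exists_full he hq hsub
  obtain ⟨k, hk⟩ := Dm.squ s hs h2
  exact ⟨k, s, hs, hk, h1⟩

/-- **(D4), edges**, with tolerances for the squares -/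
theorem len_edge' (Dm : DyM M v I U) (O : OutB p D D' η c₀ m' w ρ M h J₀ J P Z Y ε g)
    {εs : Idx × Fin 3 → ℝ} (hε : ∀ k, 0 ≤ ε k)
    (hεs : ∀ k s, M.F k = AB.squ v s → 2 * ε k ≤ εs s) {t : ℝ}
    {e : Idx × Fin 3} (he : MinEdge v I e) {q : Idx} (hq : q ∈ U)
    (hsub : edge v e ⊆ dyc v q.1 q.2) (ht : ∀ s, MinSq v I s → edge v e ⊆ AB.squ v s → εs s ≤ t) :
    len (onSeg g.toFun (segP v e)) (Icc 0 1) ≤
      ENNReal.ofReal D * len (onSeg h (segP v e)) (Icc 0 1) + ENNReal.ofReal t := by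
  obtain ⟨k, s, hs, hk, h1⟩ := Dm.exists_face_of_edge he hq hsub
  refine (Dm.len_edge O he hq hsub (hk ▸ h1)).trans ?_
  gcongr
  have := hεs k s hk
  linarith [hε k, ht s hs h1]

/-- **(D4), speed on the edges** -/
theorem elip (Dm : DyM M v I U) (O : OutB p D D' η c₀ m' w ρ M h J₀ J P Z Y ε g)
    {e : Idx × Fin 3} (he : MinEdge v I e) {q : Idx} (hq : q ∈ U)
    (hsub : edge v e ⊆ dyc v q.1 q.2) {k : M.κ} (hk : edge v e ⊆ M.F k)
    (hN : h '' edge v e ⊆ Nb w J₀ η) {C : ℝ} (hC : Cst M Y D D' (edge v e) C) {ℓ : ℝ}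
    (hℓ : len (onSeg h (segP v e)) (Icc 0 1) ≤ ENNReal.ofReal ℓ) :
    ∀ x ∈ edge v e, ∀ y ∈ edge v e,
      ‖g.toFun x - g.toFun y‖ ≤ C * ((ℓ + ε k) * 2 ^ e.1.1) * ‖x - y‖ := by
  have h1 := O.elip k _ (Dm.isEdge he hq hsub) hk hN C hC ℓ hℓ
  rw [norm_segP] at h1
  intro x hx y hy
  have h2 := h1 x hx y hy
  rwa [div_div_eq_mul_div, div_one] at h2

/-- **(D4), oscillation: the cell is small** -/
theorem small (Dm : DyM M v I U) {i : M.ι} {q : Idx} (hq : q ∈ U) (hiq : M.Q i = dyc v q.1 q.2)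
    {B : ℝ} (h1 : ∀ x ∈ dyc v q.1 q.2, ∀ y ∈ dyc v q.1 q.2, ‖h x - h y‖ ≤ B)
    (h2 : 2 * ∑' e : {e : Idx × Fin 3 // MinEdge v I e ∧ edge v e ⊆ dyc v q.1 q.2},
      len (onSeg h (segP v e.1)) (Icc 0 1) ≤ ENNReal.ofReal B) : Small M h i B := by
  classical
  refine ⟨by rw [hiq]; exact h1, ?_⟩
  set S := (finite_edge_cube Dm.part (Dm.sub hq)).toFinset with hS
  have hSm : ∀ e, e ∈ S ↔ MinEdge v I e ∧ edge v e ⊆ dyc v q.1 q.2 := by simp [hS]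
  have hsum : ∑' e : {e : Idx × Fin 3 // MinEdge v I e ∧ edge v e ⊆ dyc v q.1 q.2},
      len (onSeg h (segP v e.1)) (Icc 0 1) = ∑ e ∈ S, len (onSeg h (segP v e)) (Icc 0 1) := by
    have : ∑ e ∈ S, len (onSeg h (segP v e)) (Icc 0 1) =
        ∑' e : (S : Set (Idx × Fin 3)), len (onSeg h (segP v e.1)) (Icc 0 1) :=
      (Finset.tsum_subtype' _ _).symm
    rw [this, hS, Finite.coe_toFinset]
    rfl
  refine ⟨S.image (segP v) ∪ S.image fun e => ((segP v e).2, (segP v e).1), ?_, ?_⟩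
  · intro e he hei
    obtain ⟨e', h3, -, h5⟩ := Dm.exists_of_isEdge he
    rw [h5] at hei
    have h6 : e' ∈ S := (hSm e').2 ⟨h3, hei.trans hiq.le⟩
    rw [Finset.mem_union, Finset.mem_image, Finset.mem_image]
    have h7 : segment ℝ e.1 e.2 = segment ℝ (segP v e').1 (segP v e').2 := h5
    rcases seg_eq h7 with h8 | h8
    · exact Or.inl ⟨e', h6, h8.symm⟩
    · exact Or.inr ⟨e', h6, h8.symm⟩
  · refine le_trans ?_ h2
    rw [hsum, two_mul]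
    refine (le_self_add.trans_eq Finset.sum_union_inter).trans ?_
    rw [Finset.sum_image fun x _ y _ h => segP_injective v h,
      Finset.sum_image fun x _ y _ h => segP_injective v (Prod.ext (congrArg Prod.snd h)
        (congrArg Prod.fst h))]
    gcongr with e he
    exact (len_swap h (segP v e)).le

end DyM

end Vale.Agent.P073.H803
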