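import Vale.Agent.P073.H803.Dya

/-!
# P073, branch B, [MESH-B]: the edges of a mesh with dyadic cells
-/

namespace Vale.Agent.P073.H803

open MeasureTheory Set Filter Topology Metric Vale.Agent.P073.St
open Vale.Agent.P073.SQ (ev)
open Vale.Agent.P073.AB Vale.Agent.P073.AB.P86
open Vale.Agent.P073.H73 (Mesh MinEdge segP onSeg)
open Vale.Agent.P073.H687
open Vale.Agent.P073.H304 (IsEdge)
open _root_.P073.Net (dyc dyo len)
open scoped ENNReal

variable {Ω : Set V} {v : V} {I U : Set Idx}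

/-- a square of the same generation as the edge: points of the square on the line of the edge are
on the edge -/
theorem mem_edge_of_line {s e : Idx × Fin 3} (hg : s.1.1 = e.1.1) (hes : edge v e ⊆ squ v s)
    {x : V} (hx : x ∈ squ v s) (hl : ∀ j, j ≠ e.2 → x j = v j + e.1.2 j / 2 ^ e.1.1) :
    x ∈ edge v e := by
  have hd := dir_of_edge hes
  obtain ⟨h1, h2⟩ := edge_range hes
  have hp : (0:ℝ) < 1 / 2 ^ e.1.1 := by positivity
  rw [hg] at h1 h2
  have e1 := add_div (e.1.2 e.2 : ℝ) 1 (2 ^ e.1.1)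
  have e2 := add_div (s.1.2 e.2 : ℝ) 1 (2 ^ e.1.1)
  have h3 := hx.2 _ hd
  rw [hg] at h3
  rw [Gr.mem_edge]
  exact ⟨hl, by constructor <;> linarith [h3.1, h3.2]⟩

namespace DyM

variable {M : Mesh Ω}

/-- **(D2)**, first half: minimal edges are edges of the mesh -/
theorem isEdge (D : DyM M v I U) {e : Idx × Fin 3} (he : MinEdge v I e) {q : Idx}
    (hq : q ∈ U) (hsub : edge v e ⊆ dyc v q.1 q.2) : IsEdge M (segP v e) := by
  obtain ⟨s, hs, hg, hes, q', hq', hsq⟩ := D.exists_full he hq hsub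
  obtain ⟨k, hk⟩ := D.squ s hs ⟨q', hq', hsq⟩
  refine ⟨segP_ne v e, ⟨k, ?_⟩, fun l hl => D.edge_prop he l hl, fun e' h1 h2 => ?_⟩
  · rw [hk, intrinsicFrontier_squ, segment_segP]
    exact fun x hx => ⟨hes hx, edge_not_rel D.opn D.part hs he hes hx⟩
  · have hm := mem_openSegment_of_sub h1 (mid_mem_openSegment v e) (segP_ne v e)
    have h3 := h2 k ⟨Gr.mid v e, by rw [hk]; exact hes (Gr.mid_spec v e).1, hm⟩
    rw [hk] at h3
    intro y hy
    obtain ⟨t, ht⟩ := exists_param (h1 (left_mem_segment ℝ _ _)) (h1 (right_mem_segment ℝ _ _)) hy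
      (segP_ne v e)
    refine mem_edge_of_line hg hes (h3 hy) fun j hj => ?_
    rw [ht, segP_snd]
    simp [segP, pt, ev, hj]

/-- two segments with the same set of points -/
theorem seg_eq {e e' : V × V} (h : segment ℝ e.1 e.2 = segment ℝ e'.1 e'.2) :
    e = e' ∨ e = (e'.2, e'.1) := by
  obtain ⟨a, b⟩ := e
  obtain ⟨c, d⟩ := e'
  simp only at h ⊢
  by_cases hcd : c = d
  · subst hcd
    rw [segment_same] at h
    have h1 : a ∈ ({c} : Set V) := h ▸ left_mem_segment ℝ a b
    have h2 : b ∈ ({c} : Set V) := h ▸ right_mem_segment ℝ a b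
    rw [mem_singleton_iff] at h1 h2
    left
    rw [h1, h2]
  · have h1 : a ∈ segment ℝ c d := h ▸ left_mem_segment ℝ a b
    have h2 : b ∈ segment ℝ c d := h ▸ right_mem_segment ℝ a b
    have h3 : c ∈ segment ℝ a b := h.symm ▸ left_mem_segment ℝ c d
    have h4 : d ∈ segment ℝ a b := h.symm ▸ right_mem_segment ℝ c d
    rw [segment_eq_image'] at h1 h2 h3 h4
    obtain ⟨α, hα, rfl⟩ := h1
    obtain ⟨β, hβ, rfl⟩ := h2
    obtain ⟨γ, hγ, hγe⟩ := h3
    obtain ⟨δ, hδ, hδe⟩ := h4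
    have hne : d - c ≠ 0 := sub_ne_zero.2 (Ne.symm hcd)
    have e1 : c + β • (d - c) - (c + α • (d - c)) = (β - α) • (d - c) := by
      rw [sub_smul]; abel
    simp only at hγe hδe ⊢
    rw [e1, smul_smul] at hγe hδe
    have h5 : (α + γ * (β - α)) • (d - c) = 0 := by
      rw [add_smul]
      have h6 : c + (α • (d - c) + (γ * (β - α)) • (d - c)) = c + 0 := by
        rw [← add_assoc, hγe, add_zero]
      exact add_left_cancel h6
    have h7 : (α + δ * (β - α) - 1) • (d - c) = 0 := by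
      rw [sub_smul, add_smul, one_smul]
      have h8 : c + (α • (d - c) + (δ * (β - α)) • (d - c)) = c + (d - c) := by
        rw [← add_assoc, hδe]; abel
      rw [add_left_cancel h8, sub_self]
    have h9 : α + γ * (β - α) = 0 := (smul_eq_zero.1 h5).resolve_right hne
    have h10 : α + δ * (β - α) - 1 = 0 := (smul_eq_zero.1 h7).resolve_right hne
    have h11 : (1 - γ) * α = 0 ∧ γ * β = 0 := by
      have k1 : 0 ≤ (1 - γ) * α := mul_nonneg (by linarith [hγ.2]) hα.1
      have k2 : 0 ≤ γ * β := mul_nonneg hγ.1 hβ.1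
      constructor <;> nlinarith
    rcases mul_eq_zero.1 h11.1 with h12 | h12
    · have hγ1 : γ = 1 := by linarith
      have hβ0 : β = 0 := by rw [hγ1, one_mul] at h11; exact h11.2
      have hα1 : α = 1 := by
        rw [hβ0] at h10
        have : (1 - δ) * α = 1 := by linarith
        nlinarith [hδ.1, hδ.2, hα.1, hα.2]
      right
      rw [hβ0, hα1]
      simp
    · have hβ1 : β = 1 := by
        rw [h12] at h10
        nlinarith [hδ.1, hδ.2, hβ.1, hβ.2]
      left
      rw [h12, hβ1]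
      simp

/-- **(D2)**, second half: the edges of the mesh are minimal edges -/
theorem exists_of_isEdge (D : DyM M v I U) {e : V × V} (he : IsEdge M e) :
    ∃ e', MinEdge v I e' ∧ (∃ q ∈ U, edge v e' ⊆ dyc v q.1 q.2) ∧
      segment ℝ e.1 e.2 = edge v e' := by
  obtain ⟨k, hk⟩ := he.sub
  obtain ⟨s, hs, hF, q, hq, hsq⟩ := D.face k
  rw [hF, intrinsicFrontier_squ] at hk
  -- a point of the open segment which is not an end point of a minimal edge
  set E := (finite_minEdge D.part hs).toFinset with hE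
  have hinf : (openSegment ℝ e.1 e.2).Infinite := by
    rw [openSegment_eq_image']
    refine (Ioo_infinite (by norm_num : (0:ℝ) < 1)).image ?_
    intro a _ b _ hab
    have h1 : a • (e.2 - e.1) = b • (e.2 - e.1) := add_left_cancel hab
    have h2 : (a - b) • (e.2 - e.1) = 0 := by rw [sub_smul, h1, sub_self]
    exact sub_eq_zero.1 ((smul_eq_zero.1 h2).resolve_right (sub_ne_zero.2 he.ne.symm))
  obtain ⟨x, hx, hxn⟩ : ∃ x ∈ openSegment ℝ e.1 e.2, ∀ e' ∈ E,
      x ≠ pt v e'.1.1 e'.1.2 ∧ x ≠ pt v e'.1.1 e'.1.2 + (1 / 2 ^ e'.1.1 : ℝ) • ev e'.2 := by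
    have hfin : (⋃ e' ∈ E, ({pt v e'.1.1 e'.1.2,
        pt v e'.1.1 e'.1.2 + (1 / 2 ^ e'.1.1 : ℝ) • ev e'.2} : Set V)).Finite :=
      E.finite_toSet.biUnion fun e' _ => (finite_singleton _).insert _
    obtain ⟨x, hx, hxn⟩ := hinf.exists_notMem_finite hfin
    refine ⟨x, hx, fun e' he' => ⟨fun h => hxn ?_, fun h => hxn ?_⟩⟩
    · exact mem_iUnion₂.2 ⟨e', he', Or.inl h⟩
    · exact mem_iUnion₂.2 ⟨e', he', Or.inr h⟩
  have hxs := hk (openSegment_subset_segment ℝ _ _ hx)
  obtain ⟨e', h1, h2, h3⟩ := exists_minEdge D.opn D.part hs hxs.1 hxs.2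
  have hin : v e'.2 + e'.1.2 e'.2 / 2 ^ e'.1.1 < x e'.2 ∧
      x e'.2 < v e'.2 + (e'.1.2 e'.2 + 1) / 2 ^ e'.1.1 := by
    by_contra hcon
    have h4 := hxn e' (by simp [hE, h1, h2])
    rcases Gr.end_of_not_inner h3 hcon with h | h
    · exact h4.1 h
    · exact h4.2 h
  refine ⟨e', h1, ⟨q, hq, h2.trans hsq⟩, ?_⟩
  have hIs := D.isEdge h1 hq (h2.trans hsq)
  -- the square with the full side `e'`
  obtain ⟨s₁, hs₁, hg₁, hes₁, q₁, hq₁, hsq₁⟩ := D.exists_full h1 hq (h2.trans hsq)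
  obtain ⟨k₁, hk₁⟩ := D.squ s₁ hs₁ ⟨q₁, hq₁, hsq₁⟩
  have h4 := he.edge k₁ ⟨x, by rw [hk₁]; exact hes₁ h3, hx⟩
  rw [hk₁] at h4
  -- the segment is parallel to the edge
  have hpar : ∀ y ∈ segment ℝ e.1 e.2, ∀ j, j ≠ e'.2 → y j = x j := by
    have hx' := hx
    rw [openSegment_eq_image'] at hx'
    obtain ⟨t, ht, hxt⟩ := hx'
    have ha := (hk (left_mem_segment ℝ e.1 e.2)).1
    have hb := (hk (right_mem_segment ℝ e.1 e.2)).1
    -- it is enough to compare the end points
    have key : ∀ j, e.2 j = e.1 j → ∀ y ∈ segment ℝ e.1 e.2, y j = x j := by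
      intro j hj y hy
      rw [segment_eq_image'] at hy
      obtain ⟨u, -, rfl⟩ := hy
      rw [← hxt]
      simp [hj]
    intro y hy j hj
    refine key j ?_ y hy
    by_cases hjs : j = s.2
    · rw [hjs, ha.1, hb.1]
    · obtain ⟨E', hE', hsub'⟩ := minEdge_sub D.opn D.part hs h1 h2
      have hdir : E'.2 = e'.2 := by
        by_contra hne
        have k1 := (Gr.mem_edge.1 (hsub' (left_mem_segment ℝ _ _))).1 e'.2 (Ne.symm hne)
        have k2 := (Gr.mem_edge.1 (hsub' (right_mem_segment ℝ _ _))).1 e'.2 (Ne.symm hne)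
        simp only [pt, ev, Pi.add_apply, Pi.smul_apply, Pi.single_eq_same, smul_eq_mul,
          mul_one] at k1 k2
        have hp : (0:ℝ) < 1 / 2 ^ e'.1.1 := by positivity
        linarith
      have k3 := (Gr.mem_edge.1 (hsub' h3)).1 j (by rw [hdir]; exact hj)
      rw [hE'.1] at k3
      have ha' := ha.2 j hjs
      have hb' := hb.2 j hjs
      have hxj : x j = e.1 j + t * (e.2 j - e.1 j) := by rw [← hxt]; simp
      rcases hE'.2.2.2.2 j (by rw [hdir]; exact hj) hjs with k4 | k4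
      · rw [k4] at k3
        rw [k3] at hxj
        nlinarith [ht.1, ht.2, ha'.1, hb'.1]
      · rw [k4] at k3
        push_cast at k3
        rw [k3] at hxj
        nlinarith [ht.1, ht.2, ha'.2, hb'.2]
  have hsub : segment ℝ e.1 e.2 ⊆ edge v e' := by
    intro y hy
    refine mem_edge_of_line hg₁ hes₁ (h4 hy) fun j hj => ?_
    rw [hpar y hy j hj]
    exact (Gr.mem_edge.1 h3).1 j hj
  exact Subset.antisymm hsub (he.max (segP v e') hsub fun l hl => D.edge_prop h1 l hl)

end DyM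

end Vale.Agent.P073.H803
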