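import Vale.Agent.P073.H803.RD
import Vale.Agent.P073.H333.NetInB

/-!
# P073, block B09, [ST1]: the fields `part`, `cov`, `inBox` and the clauses off the boxes
-/

namespace Vale.Agent.P073.H803

open MeasureTheory Set Filter Topology Metric Vale.Agent.P073.St
open Vale.Agent.P073.SQ (ev)
open Vale.Agent.P073.AB Vale.Agent.P073.AB.P86 Vale.Agent.P073.AB.S308
open Vale.Agent.P073.H73 (Mesh MinEdge segP onSeg ctr)
open Vale.Agent.P073.H687
open Vale.Agent.P073.H304 (af afi Blocks Link Zn R1Out K3C round1_all)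
open Vale.Agent.P073.H622 (NetB thF kF CF κF LF bF af_LF exists_h0M CF_pos thF_pos κF_pos)
open Vale.Agent.P073.H696 (Boxes HF am blk blkS solid deep part1 Dom IsNear)
open Vale.Agent.P073.H726 (LBOn)
open _root_.P073 (ConHomeo)
open _root_.P073.Net (dyc dyo len)
open scoped ENNReal

variable {p D : ℝ} {J : ℝ → ℕ} {Δ Mg : ℝ → ℝ} {Ω Λ : Set V} {f : V → V} {F : V → Mat} {v : V}
  {I K : Set Idx} {x : Idx → V} {n N N' : Idx → ℕ} {k₁ : V → ℕ} {c₀ τ rσ : V → ℝ}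
  {δ εs : Idx × Fin 3 → ℝ}

namespace RD

variable (X : RD p D J Δ Mg Ω Λ f F v I K x n N N' k₁ c₀ τ rσ δ εs)

include X

theorem part : Part Ω v (part1 v K n (fun k => k₁ (x k)) I) := part_part1 X.G

theorem cov : ∀ k ∈ K, blkS v k (n k) ⊆
    ⋃ q ∈ solid v K n (part1 v K n (fun k => k₁ (x k)) I), dyc v q.1 q.2 := by
  intro k hk y hy
  obtain ⟨z, hz, hyz⟩ := mem_iUnion₂.1 hy
  have hyΩ : y ∈ Ω := X.G.box k hk (dyo_sub_dyc (X.G.inn k hk z hz hyz))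
  obtain ⟨q, hq, hyq⟩ := X.part.cover y hyΩ
  exact mem_iUnion₂.2 ⟨q, ⟨hq, k, hk, y, hyq, hy⟩, hyq⟩

theorem inBox : ∀ q ∈ solid v K n (part1 v K n (fun k => k₁ (x k)) I),
    ∃ k ∈ K, dyc v q.1 q.2 ⊆ dyc v k.1 k.2 := by
  rintro q ⟨hq, k, hk, hne⟩
  exact ⟨k, hk, (X.G.sol_in hk hq hne).1.1⟩

/-- points outside of the open boxes are not moved -/
theorem eq_off {y : V} (hy : y ∈ Ω) (hn : ∀ k ∈ K, y ∉ dyo v k.1 k.2) :
    X.h₁.toFun y = X.h.toFun y := by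
  refine X.out.off y hy fun k hk => ?_
  have h1 := (X.G.blocks X.T).zone k hk
  exact X.T.far k.1 k.2 y hy (hn k.1 k.2) (ball_subset_closedBall h1)

/-- **closeness off the boxes** -/
theorem close_off {y : V} (hy : y ∈ Ω)
    (hn : ∀ k ∈ K, y ∉ dyo v k.1 k.2) : ‖X.h₁.toFun y - f y‖ ≤ σ X y := by
  rw [X.eq_off hy hn]
  refine X.NB.off y hy fun k hk z hz hyz => hn k hk ?_
  exact X.G.inn k hk z hz (interior_subset hyz)

/-- **the edges off the boxes** -/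
theorem edges_off {e : Idx × Fin 3}
    (he : MinEdge v (part1 v K n (fun k => k₁ (x k)) I) e)
    (hn : ∀ k ∈ K, Disjoint (edge v e) (dyc v k.1 k.2)) :
    eInt v e (fun y => ENNReal.ofReal ‖lineDeriv ℝ X.h₁.toFun y (ev e.2) -
      cl (F y) (ev e.2)‖) ≤ ENNReal.ofReal (δ e) := by
  obtain ⟨q, hq, hE⟩ := he.1
  have hsub : edge v e ⊆ Ω := (Gr.edge_subset_dyc hE).trans (X.part.sub q hq)
  have h1 : ∀ y ∈ edge v e, X.h₁.toFun y = X.h.toFun y := fun y hy =>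
    X.eq_off (hsub hy) fun k hk hyk => disjoint_left.1 (hn k hk) hy (dyo_sub_dyc hyk)
  have h2 : ∀ k ∈ K, ∀ z ∈ blk k (n k), Disjoint (edge v e) (dyc v (n k) z) := fun k hk z hz =>
    (hn k hk).mono_right ((X.G.inn k hk z hz).trans dyo_sub_dyc)
  have hq' : q ∈ I := by
    rcases hq with hq | ⟨k, hk, -, z, hz, hs⟩
    · exact hq.1
    · exfalso
      obtain ⟨y, hy⟩ := Gr.edge_nonempty v e
      exact disjoint_left.1 (h2 k hk z hz) hy (hs (Gr.edge_subset_dyc hE hy))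
  have h3 := H333.eInt_congr_edge h1 fun y w => ENNReal.ofReal ‖w - cl (F y) (ev e.2)‖
  have h3' : eInt v e (fun y => ENNReal.ofReal ‖lineDeriv ℝ X.h₁.toFun y (ev e.2) -
      cl (F y) (ev e.2)‖) = eInt v e (fun y => ENNReal.ofReal ‖lineDeriv ℝ X.h.toFun y (ev e.2) -
      cl (F y) (ev e.2)‖) := h3
  rw [h3']
  exact (X.NB.edges e ⟨q, hq', hE⟩ fun k hk z hz =>
    (h2 k hk z hz).mono_right (interior_subset.trans (boxB_sub_dyc z))).2

end RD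

/-! ### Tolerances -/

/-- finitely many cubes contain a given edge -/
theorem finite_cubes_edge {I : Set Idx} (hI : Part Ω v I) (e : Idx × Fin 3) :
    {q ∈ I | edge v e ⊆ dyc v q.1 q.2}.Finite := by
  by_cases h : ∃ q ∈ I, edge v e ⊆ dyc v q.1 q.2
  · obtain ⟨q, hq, hs⟩ := h
    refine (hI.fin _ (hI.sub q hq) (isCompact_dyc _ _ _)).subset ?_
    rintro q' ⟨hq', hs'⟩
    obtain ⟨y, hy⟩ := Gr.edge_nonempty v e
    exact ⟨hq', y, hs' hy, hs hy⟩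
  · refine (finite_empty (α := Idx)).subset ?_
    rintro q ⟨hq, hs⟩
    exact h ⟨q, hq, hs⟩

/-- **tolerances for the edges** -/
theorem exists_tolE {I : Set Idx} (hI : Part Ω v I) {p : ℝ} (hp : 0 < p) {tol : Idx → ℝ≥0∞}
    (htol : ∀ q, tol q ≠ 0) {δ₁ : Idx × Fin 3 → ℝ} (hδ₁ : ∀ e, 0 < δ₁ e) :
    ∃ δ : Idx × Fin 3 → ℝ, (∀ e, 0 < δ e ∧ δ e ≤ δ₁ e) ∧
      ∀ q ∈ I, ∀ e, edge v e ⊆ dyc v q.1 q.2 →
        ENNReal.ofReal ((1 / 2 ^ e.1.1) ^ (1 - p)) * ENNReal.ofReal (δ e) ^ p ≤ tol q := by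
  have key : ∀ e : Idx × Fin 3, ∃ d > 0, d ≤ δ₁ e ∧ ∀ q ∈ I, edge v e ⊆ dyc v q.1 q.2 →
      ENNReal.ofReal ((1 / 2 ^ e.1.1) ^ (1 - p)) * ENNReal.ofReal d ^ p ≤ tol q := by
    intro e
    have hr : (0:ℝ) < (1 / 2 ^ e.1.1) ^ (1 - p) := Real.rpow_pos_of_pos (by positivity) _
    have h1 : ∀ q : Idx, ∃ d > 0, ∀ d', 0 < d' → d' ≤ d →
        ENNReal.ofReal ((1 / 2 ^ e.1.1) ^ (1 - p)) * ENNReal.ofReal d' ^ p ≤ tol q := by
      intro q
      have h2 : ∃ t : ℝ, 0 < t ∧ ENNReal.ofReal t ≤ tol q := by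
        rcases eq_or_ne (tol q) ⊤ with h | h
        · exact ⟨1, one_pos, h ▸ le_top⟩
        · exact ⟨(tol q).toReal, ENNReal.toReal_pos (htol q) h,
            (ENNReal.ofReal_toReal h).le⟩
      obtain ⟨t, ht, ht'⟩ := h2
      refine ⟨(t / (1 / 2 ^ e.1.1) ^ (1 - p)) ^ (1 / p), Real.rpow_pos_of_pos (by positivity) _,
        fun d' hd0 hd' => ?_⟩
      refine le_trans ?_ ht'
      rw [ENNReal.ofReal_rpow_of_nonneg hd0.le hp.le, ← ENNReal.ofReal_mul hr.le]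
      apply ENNReal.ofReal_le_ofReal
      calc (1 / 2 ^ e.1.1 : ℝ) ^ (1 - p) * d' ^ p
          ≤ (1 / 2 ^ e.1.1 : ℝ) ^ (1 - p) * ((t / (1 / 2 ^ e.1.1) ^ (1 - p)) ^ (1 / p)) ^ p := by
            gcongr
        _ = (1 / 2 ^ e.1.1 : ℝ) ^ (1 - p) * (t / (1 / 2 ^ e.1.1) ^ (1 - p)) := by
            rw [← Real.rpow_mul (by positivity), one_div_mul_cancel hp.ne', Real.rpow_one]
        _ = t := by field_simp
    choose d hd h1 using h1
    obtain ⟨d', hd', h2⟩ := exists_le_finite (finite_cubes_edge hI e) d fun q _ => hd q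
    refine ⟨min d' (δ₁ e), lt_min hd' (hδ₁ e), min_le_right _ _, fun q hq hs => ?_⟩
    exact h1 q _ (lt_min hd' (hδ₁ e)) ((min_le_left _ _).trans (h2 q ⟨hq, hs⟩))
  choose d h1 h2 h3 using key
  exact ⟨d, fun e => ⟨h1 e, h2 e⟩, fun q hq e hs => h3 e q hq hs⟩

/-- the minimal edges in a minimal square -/
theorem finite_edges_squ {I : Set Idx} (hI : Part Ω v I) {s : Idx × Fin 3} (hs : MinSq v I s) :
    {e | MinEdge v I e ∧ edge v e ⊆ squ v s}.Finite := by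
  obtain ⟨q, hq, hf⟩ := hs.1
  refine (finite_edge_cube hI hq).subset ?_
  rintro e ⟨h1, h2⟩
  exact ⟨h1, h2.trans (squ_sub_of_face hf)⟩

/-- **tolerances for the squares** -/
theorem exists_tolS {I : Set Idx} (hI : Part Ω v I) {p : ℝ} (hp : 0 < p) {δ : Idx × Fin 3 → ℝ}
    (hδ : ∀ e, 0 < δ e) (τ : Idx → ℝ) (hτ : ∀ q, 0 < τ q) :
    ∃ εs : Idx × Fin 3 → ℝ, (∀ s, 0 < εs s) ∧
      (∀ s, MinSq v I s → ∀ e, MinEdge v I e → edge v e ⊆ squ v s → εs s ≤ δ e) ∧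
      (∀ q ∈ I, tinyT v I p εs q ≤ volume (dyc v q.1 q.2)) ∧
      ∀ q ∈ I, tinyT v I p εs q ≤ ENNReal.ofReal (τ q) := by
  classical
  have key : ∀ s : Idx × Fin 3, ∃ d > 0, MinSq v I s → ∀ e, MinEdge v I e →
      edge v e ⊆ squ v s → d ≤ δ e := by
    intro s
    by_cases hs : MinSq v I s
    · obtain ⟨d, hd, h⟩ := exists_le_finite (finite_edges_squ hI hs) δ fun e _ => hδ e
      exact ⟨d, hd, fun _ e he hes => h e ⟨he, hes⟩⟩
    · exact ⟨1, one_pos, fun h => absurd h hs⟩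
  choose d hd h1 using key
  have hvol : ∀ q : Idx, volume (dyc v q.1 q.2) = ENNReal.ofReal ((1 / 2 ^ q.1) ^ 3) :=
    fun q => H687.volume_dyc v q.1 q.2
  obtain ⟨εs, h2, h3⟩ := exists_tiny hI hp (fun q => min (τ q) ((1 / 2 ^ q.1) ^ 3))
    (fun q => lt_min (hτ q) (by positivity)) d hd
  refine ⟨εs, fun s => (h2 s).1, fun s hs e he hes => ((h2 s).2).trans (h1 s hs e he hes),
    fun q hq => ?_, fun q hq => ?_⟩
  · rw [hvol]
    exact (h3 q hq).trans (ENNReal.ofReal_le_ofReal (min_le_right _ _))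
  · exact (h3 q hq).trans (ENNReal.ofReal_le_ofReal (min_le_left _ _))

end Vale.Agent.P073.H803
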