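import Vale.Agent.P073.H803.St1Fin
import Vale.Agent.P073.H234.GX.Def

/-!
# P073, block B09, [ST1]: Round 1, with a generic property of the origin
-/

namespace Vale.Agent.P073.H803

open Vale.Agent.P073.H304 (K3C)

/-- **[ST1]**, in the form of the chain with a generic property -/
theorem st1X {p : ℝ} {GX : H234.GX.GXT} (hp : 3 ≤ p) (hK : K3C p) (hG : SpecSegNet p GX) :
    H234.GX.St1X p GX :=
  st1C hp hK hG

end Vale.Agent.P073.H803
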