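import Vale.Agent.P073.H803.SegNet

/-!
# P073, block B09, [ST1]: the squares of the passive cubes in the zones

`RD.zone_squ`: they have generation `N' k`, and lie in the box without a layer.
-/

namespace Vale.Agent.P073.H803

open MeasureTheory Set Filter Topology Metric Vale.Agent.P073.St
open Vale.Agent.P073.SQ (ev)
open Vale.Agent.P073.AB Vale.Agent.P073.AB.P86 Vale.Agent.P073.AB.S308
open Vale.Agent.P073.H73 (Mesh MinEdge segP onSeg ctr)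
open Vale.Agent.P073.H687
open Vale.Agent.P073.H304 (af afi Blocks Link Zn R1Out)
open Vale.Agent.P073.H696 (Boxes HF am blk blkS solid deep part1 Dom IsNear)
open _root_.P073 (ConHomeo)
open _root_.P073.Net (dyc dyo len)
open scoped ENNReal

variable {p D : ℝ} {J : ℝ → ℕ} {Δ Mg : ℝ → ℝ} {Ω Λ : Set V} {f : V → V} {F : V → Mat} {v : V}
  {I K : Set Idx} {x : Idx → V} {n N N' : Idx → ℕ} {k₁ : V → ℕ} {c₀ τ rσ : V → ℝ}
  {δ εs : Idx × Fin 3 → ℝ}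

/-- the squares of a passive cube which meets the zone of a block -/
theorem RD.zone_squ (X : RD p D J Δ Mg Ω Λ f F v I K x n N N' k₁ c₀ τ rσ δ εs)
    (k : (X.G.blocks X.T).K) {q : Idx} (hq : q ∈ part1 v K n (fun k => k₁ (x k)) I \
      solid v K n (part1 v K n (fun k => k₁ (x k)) I)) (hz : Zn (X.G.blocks X.T) k q)
    {s : Idx × Fin 3} (hs : MinSq v (part1 v K n (fun k => k₁ (x k)) I) s)
    (hsub : squ v s ⊆ dyc v q.1 q.2) :
    s.1.1 = N' k.1 ∧ squ v s ⊆ boxD v k.1 (n k.1) ∧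
      ∀ z ∈ blk k.1 (n k.1), Disjoint (squ v s) (dyo v (n k.1) z) := by
  obtain ⟨y, hy, hyz⟩ := hz
  obtain ⟨⟨h1, h2, h3⟩, h4⟩ := X.G.zone_cube X.T k.2 hq.1 hy hyz
  have hns : Disjoint (dyc v q.1 q.2) (blkS v k.1 (n k.1)) := by
    rw [disjoint_iff_inter_eq_empty, ← not_nonempty_iff_eq_empty]
    exact fun hne => hq.2 ⟨hq.1, k.1, k.2, hne⟩
  -- the generation of `q`
  have hqN : q.1 = N' k.1 := by
    rcases hq.1 with ⟨hqI, -⟩ | ⟨k', hk', hg, z', hz', hs'⟩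
    · rcases X.G.out k.1 k.2 q hqI h1 with ⟨-, hne⟩ | ⟨h, -⟩
      · exact absurd ⟨hq.1, k.1, k.2, hne⟩ hq.2
      · exact h
    · exfalso
      refine hq.2 ⟨hq.1, k', hk', y, hy, mem_iUnion₂.2 ⟨z', hz', hs' hy⟩⟩
  have hpos : (0:ℝ) < 2 ^ n k.1 := by positivity
  have hdist : ∀ y ∈ dyc v q.1 q.2, ‖y - ctr v k.1.1 k.1.2‖ ≤ 1 / 2 / 2 ^ k.1.1 - 2 / 2 ^ n k.1 :=
    fun y hy => (h4 y hy).2.1
  refine ⟨?_, ?_, fun z hz => ?_⟩
  · -- the generation of `s`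
    have h5 : q.1 ≤ s.1.1 := gen_le_squ hsub
    obtain ⟨q₁, hq₁, hf⟩ := hs.1
    have hne : (squ v s).Nonempty := ⟨_, rel_sub sc_mem⟩
    obtain ⟨u, hu⟩ := hne
    have h6 : u ∈ dyo v k.1.1 k.1.2 := by
      refine mem_dyo_of_lt ((hdist u (hsub hu)).trans_lt ?_)
      have : (0:ℝ) < 2 / 2 ^ n k.1 := by positivity
      linarith
    have h7 := X.G.in_box k.2 hq₁ (face_sub_dyc hf hu) h6
    have h8 : s.1.1 = q₁.1 := hf.1
    omega
  · intro u hu i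
    have h5 := hdist u (hsub hu)
    have h6 := (norm_le_pi_norm (u - ctr v k.1.1 k.1.2) i).trans h5
    rw [Real.norm_eq_abs, abs_le, Pi.sub_apply] at h6
    have h7 : ctr v k.1.1 k.1.2 i = v i + (k.1.2 i : ℝ) / 2 ^ k.1.1 + 1 / 2 / 2 ^ k.1.1 := by
      simp only [ctr]
      ring
    have h8 : ((k.1.2 i : ℝ) + 1) / 2 ^ k.1.1 = (k.1.2 i : ℝ) / 2 ^ k.1.1 + 1 / 2 ^ k.1.1 :=
      add_div _ _ _
    have h9 : (1:ℝ) / 2 ^ k.1.1 = 2 * (1 / 2 / 2 ^ k.1.1) := by ring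
    have h10 : (2:ℝ) / 2 ^ n k.1 = 2 * (1 / 2 ^ n k.1) := by ring
    have h11 : (0:ℝ) < 1 / 2 ^ n k.1 := by positivity
    rw [h7] at h6
    constructor
    · linarith [h6.1]
    · rw [h8]
      linarith [h6.2]
  · refine disjoint_left.2 fun u hu hu' => ?_
    exact disjoint_left.1 hns (hsub hu) (mem_iUnion₂.2 ⟨z, hz, dyo_sub_dyc hu'⟩)

end Vale.Agent.P073.H803
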